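import Mathlib

/-!
The van den Berg–Kesten inequality for families of witness sets, on a countable product of biased
bits: disjoint occurrence is no more likely than independent occurrence.
-/

namespace Vale.Agent.P151

open MeasureTheory ProbabilityTheory Set
open scoped ENNReal

variable {α β : Type} {p : unitInterval}

/-- Independent biased bits. -/
noncomputable def bern (α : Type) (p : unitInterval) : Measure (α → Bool) :=
  Measure.infinitePi fun _ => bernoulliMeasure true false p

instance : IsProbabilityMeasure (bern α p) := by unfold bern; infer_instance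

lemma bern_map {f : α → β} (hf : Function.Injective f) :
    (bern β p).map (fun ω a => ω (f a)) = bern α p :=
  Measure.map_infinitePi_infinitePi_of_inj hf

lemma measurable_comap (f : α → β) : Measurable fun (ω : β → Bool) a => ω (f a) :=
  measurable_pi_lambda _ fun a => measurable_pi_apply (f a)

/-- The event is decided by the coordinates in `S`. -/
def DepOn (A : Set (α → Bool)) (S : Finset α) : Prop :=
  ∀ ω ω', (∀ e ∈ S, ω e = ω' e) → ω ∈ A → ω' ∈ A

lemma DepOn.eq_preimage {A : Set (α → Bool)} {S : Finset α} (h : DepOn A S) :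
    A = S.restrict ⁻¹' (S.restrict '' A) := by
  refine (Set.subset_preimage_image _ A).antisymm ?_
  rintro ω ⟨ω', hω', he⟩
  exact h ω' ω (fun e he' => congrFun he ⟨e, he'⟩) hω'

lemma DepOn.measurableSet {A : Set (α → Bool)} {S : Finset α} (h : DepOn A S) :
    MeasurableSet A := by
  rw [h.eq_preimage]
  exact Finset.measurable_restrict S (Set.toFinite _).measurableSet

lemma DepOn.mono {A : Set (α → Bool)} {S T : Finset α} (h : DepOn A S) (hST : S ⊆ T) :
    DepOn A T := fun ω ω' he => h ω ω' fun e hs => he e (hST hs)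

lemma DepOn.compl {A : Set (α → Bool)} {S : Finset α} (h : DepOn A S) : DepOn Aᶜ S :=
  fun ω ω' he hn hm => hn (h ω' ω (fun e hs => (he e hs).symm) hm)

lemma DepOn.inter {A B : Set (α → Bool)} {S : Finset α} (hA : DepOn A S) (hB : DepOn B S) :
    DepOn (A ∩ B) S := fun ω ω' he h => ⟨hA ω ω' he h.1, hB ω ω' he h.2⟩

lemma DepOn.union {A B : Set (α → Bool)} {S : Finset α} (hA : DepOn A S) (hB : DepOn B S) :
    DepOn (A ∪ B) S := fun ω ω' he h => h.imp (hA ω ω' he) (hB ω ω' he)

lemma depOn_iUnion {κ : Sort*} {A : κ → Set (α → Bool)} {S : Finset α} (h : ∀ k, DepOn (A k) S) :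
    DepOn (⋃ k, A k) S := fun ω ω' he hω => by
  obtain ⟨k, hk⟩ := mem_iUnion.1 hω
  exact mem_iUnion.2 ⟨k, h k ω ω' he hk⟩

lemma bern_inter_of_disjoint {A B : Set (α → Bool)} {S T : Finset α}
    (hA : DepOn A S) (hB : DepOn B T) (hST : Disjoint S T) :
    bern α p (A ∩ B) = bern α p A * bern α p B := by
  have hi : iIndepFun (fun (e : α) (ω : α → Bool) => ω e) (bern α p) :=
    iIndepFun_infinitePi (X := fun _ b => b) fun _ => measurable_id
  have h := (hi.indepFun_finset S T hST fun e => measurable_pi_apply e).measure_inter_preimage_eq_mul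
    (S.restrict '' A) (T.restrict '' B) (Set.toFinite _).measurableSet
    (Set.toFinite _).measurableSet
  have eA : (fun ω (i : S) => ω i) ⁻¹' (S.restrict '' A) = A := hA.eq_preimage.symm
  have eB : (fun ω (i : T) => ω i) ⁻¹' (T.restrict '' B) = B := hB.eq_preimage.symm
  rwa [eA, eB] at h

/-- The coordinate `a` is open. -/
def isOpen (a : α) : Set (α → Bool) := {ω | ω a = true}

lemma depOn_isOpen (a : α) : DepOn (isOpen a) {a} := fun _ _ he h =>
  (he a (Finset.mem_singleton_self a)).symm.trans h

lemma bern_isOpen (a : α) : bern α p (isOpen a) = ENNReal.ofReal p := by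
  have : isOpen a = Set.pi (({a} : Finset α) : Set α) fun _ => ({true} : Set Bool) := by
    ext ω; simp [isOpen]
  rw [this, bern, Measure.infinitePi_pi _ fun _ _ => measurableSet_singleton _]
  simp [ENNReal.ofReal, Real.toNNReal_of_nonneg p.2.1]; rfl

/-- Some member of the family is fully open. -/
def openOcc (F : Set (Finset α)) : Set (α → Bool) := {ω | ∃ s ∈ F, ∀ a ∈ s, ω a = true}

/-- Members of all the families are fully open, on pairwise disjoint sets of coordinates. -/
def disjOcc {n : ℕ} (F : Fin n → Set (Finset α)) : Set (α → Bool) :=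
  {ω | ∃ s : Fin n → Finset α, (∀ i, s i ∈ F i) ∧ (∀ i, ∀ a ∈ s i, ω a = true) ∧
    ∀ i j, i ≠ j → Disjoint (s i) (s j)}

lemma depOn_openOcc {F : Set (Finset α)} {E : Finset α} (h : ∀ s ∈ F, s ⊆ E) :
    DepOn (openOcc F) E := fun _ _ he ⟨s, hs, ho⟩ =>
  ⟨s, hs, fun a ha => (he a (h s hs ha)).symm.trans (ho a ha)⟩

section Splitting

variable [DecidableEq α] {n : ℕ}

/-- The copy of coordinate `a` seen by family `i` when the coordinates in `T` are split. -/
def splitTag (T : Finset α) (i : Fin n) (a : α) : α × Option (Fin n) :=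
  if a ∈ T then (a, some i) else (a, none)

/-- Disjoint occurrence when the coordinates in `T` are split. -/
def splitOcc (F : Fin n → Set (Finset α)) (T : Finset α) :
    Set (α × Option (Fin n) → Bool) :=
  {η | ∃ s : Fin n → Finset α, (∀ i, s i ∈ F i) ∧ (∀ i, ∀ a ∈ s i, η (splitTag T i a) = true) ∧
    ∀ i j, i ≠ j → ∀ a ∈ s i, a ∈ s j → a ∈ T}

lemma splitOcc_step {F : Fin n → Set (Finset α)} {E : Finset α} (hE : ∀ i, ∀ s ∈ F i, s ⊆ E)
    (T : Finset α) {e : α} (he : e ∉ T) :
    bern _ p (splitOcc F T) ≤ bern (α × Option (Fin n)) p (splitOcc F (insert e T)) := by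
  classical
  set μ := bern (α × Option (Fin n)) p
  set S : Finset (α × Option (Fin n)) := (E.erase e) ×ˢ Finset.univ
  set C₀ : Set (α × Option (Fin n) → Bool) := {η | ∃ s : Fin n → Finset α, (∀ i, s i ∈ F i) ∧
    (∀ i, ∀ a ∈ s i, η (splitTag T i a) = true) ∧
    (∀ i j, i ≠ j → ∀ a ∈ s i, a ∈ s j → a ∈ T) ∧ ∀ i, e ∉ s i} with hC₀
  set C : Fin n → Set (α × Option (Fin n) → Bool) := fun k => {η | ∃ s : Fin n → Finset α,
    (∀ i, s i ∈ F i) ∧ (∀ i, ∀ a ∈ s i, a ≠ e → η (splitTag T i a) = true) ∧
    (∀ i j, i ≠ j → ∀ a ∈ s i, a ∈ s j → a ∈ T) ∧ ∀ i, i ≠ k → e ∉ s i} with hC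
  have tag_eq : ∀ {i : Fin n} {a : α}, a ≠ e → splitTag (insert e T) i a = splitTag T i a := by
    intro i a hae
    simp [splitTag, Finset.mem_insert, hae]
  have hmem : ∀ {i : Fin n} {a : α} {s : Fin n → Finset α}, (∀ i, s i ∈ F i) → a ∈ s i → a ≠ e →
      splitTag T i a ∈ S := by
    intro i a s hs ha hae
    have : a ∈ E.erase e := Finset.mem_erase.2 ⟨hae, hE i _ (hs i) ha⟩
    simp only [S, splitTag]
    split_ifs <;> simp [this]
  have h0dep : DepOn C₀ S := by
    rintro η η' h ⟨s, hs, ho, hd, hn⟩
    refine ⟨s, hs, fun i a ha => (h _ ?_).symm.trans (ho i a ha), hd, hn⟩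
    exact hmem hs ha fun hae => hn i (hae ▸ ha)
  have hdep : ∀ k, DepOn (C k) S := by
    rintro k η η' h ⟨s, hs, ho, hd, hn⟩
    exact ⟨s, hs, fun i a ha hae => (h _ (hmem hs ha hae)).symm.trans (ho i a ha hae), hd, hn⟩
  have hsub : splitOcc F T ⊆ C₀ ∪ (⋃ k, C k) ∩ isOpen (e, none) := by
    rintro η ⟨s, hs, ho, hd⟩
    by_cases hn : ∀ i, e ∉ s i
    · exact Or.inl ⟨s, hs, ho, hd, hn⟩
    push Not at hn
    obtain ⟨k, hk⟩ := hn
    refine Or.inr ⟨mem_iUnion.2 ⟨k, s, hs, fun i a ha _ => ho i a ha, hd, ?_⟩, ?_⟩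
    · exact fun i hik hie => he (hd i k hik e hie hk)
    · simpa [isOpen, splitTag, he] using ho k e hk
  have hsup : C₀ ∪ (⋃ k, C k ∩ isOpen (e, some k)) ⊆ splitOcc F (insert e T) := by
    rintro η (⟨s, hs, ho, hd, hn⟩ | hη)
    · exact ⟨s, hs, fun i a ha => by rw [tag_eq fun h : a = e => hn i (h ▸ ha)]; exact ho i a ha,
        fun i j hij a hi hj => Finset.mem_insert_of_mem (hd i j hij a hi hj)⟩
    · obtain ⟨k, ⟨s, hs, ho, hd, hn⟩, hopen⟩ := mem_iUnion.1 hη
      refine ⟨s, hs, fun i a ha => ?_,
        fun i j hij a hi hj => Finset.mem_insert_of_mem (hd i j hij a hi hj)⟩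
      rcases eq_or_ne a e with rfl | hae
      · have hik : i = k := by
          by_contra h
          exact hn i h ha
        subst hik
        simpa [isOpen, splitTag] using hopen
      · rw [tag_eq hae]; exact ho i a ha hae
  set D : Fin n → Set (α × Option (Fin n) → Bool) := disjointed fun k => C k \ C₀ with hD
  have hDdep : ∀ k, DepOn (D k) S := by
    intro k
    rw [hD, disjointed_apply, Finset.sup_set_eq_biUnion]
    exact ((hdep k).inter h0dep.compl).inter (DepOn.compl
      (depOn_iUnion fun j => depOn_iUnion fun _ => (hdep j).inter h0dep.compl))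
  have hS : ∀ o, Disjoint S {((e, o) : α × Option (Fin n))} := fun o => by simp [S]
  have hmul : ∀ k o, μ (D k ∩ isOpen (e, o)) = μ (D k) * ENNReal.ofReal p := fun k o => by
    rw [bern_inter_of_disjoint (hDdep k) (depOn_isOpen _) (hS o), bern_isOpen]
  have hunion : ⋃ k, D k = (⋃ k, C k) \ C₀ := by
    rw [hD, iUnion_disjointed, iUnion_sdiff]
  have hdisj : Pairwise (Function.onFun Disjoint fun k => D k ∩ isOpen (e, some k)) :=
    fun i j hij => (disjoint_disjointed _ hij).mono inter_subset_left inter_subset_left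
  have hdisj0 : Disjoint C₀ (⋃ k, D k ∩ isOpen (e, some k)) := by
    rw [disjoint_iUnion_right]
    intro k
    exact (disjoint_sdiff_right.mono_right
      ((disjointed_subset (fun k => C k \ C₀) k).trans subset_rfl)).mono_right inter_subset_left
  calc μ (splitOcc F T)
      ≤ μ (C₀ ∪ (⋃ k, D k ∩ isOpen (e, none))) := by
        refine measure_mono (hsub.trans ?_)
        rw [← iUnion_inter, hunion]
        rintro η (h | ⟨h1, h2⟩)
        · exact Or.inl h
        · by_cases h0 : η ∈ C₀
          · exact Or.inl h0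
          · exact Or.inr ⟨⟨h1, h0⟩, h2⟩
    _ ≤ μ C₀ + ∑ k, μ (D k ∩ isOpen (e, none)) :=
        (measure_union_le _ _).trans (add_le_add le_rfl (measure_iUnion_fintype_le _ _))
    _ = μ (C₀ ∪ ⋃ k, D k ∩ isOpen (e, some k)) := by
        have hmeas : ∀ k, MeasurableSet (D k ∩ isOpen (e, some k)) := fun k =>
          (hDdep k).measurableSet.inter (depOn_isOpen _).measurableSet
        rw [measure_union hdisj0 (MeasurableSet.iUnion hmeas), measure_iUnion hdisj hmeas,
          tsum_fintype]
        exact congrArg _ (Finset.sum_congr rfl fun k _ => (hmul k none).trans (hmul k (some k)).symm)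
    _ ≤ μ (splitOcc F (insert e T)) := by
        refine measure_mono (Subset.trans ?_ hsup)
        refine union_subset_union_right _ (iUnion_mono fun k => inter_subset_inter_left _ ?_)
        exact (disjointed_subset (fun k => C k \ C₀) k).trans sdiff_subset

lemma bk_of_subset {F : Fin n → Set (Finset α)} {E : Finset α} (hE : ∀ i, ∀ s ∈ F i, s ⊆ E) :
    bern α p (disjOcc F) ≤ ∏ i, bern α p (openOcc (F i)) := by
  classical
  have hmono : ∀ T : Finset α,
      bern _ p (splitOcc F ∅) ≤ bern (α × Option (Fin n)) p (splitOcc F T) := by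
    intro T
    induction T using Finset.induction_on with
    | empty => exact le_rfl
    | insert e T he ih => exact ih.trans (splitOcc_step hE T he)
  have hinj : ∀ o : Option (Fin n), Function.Injective fun a : α => (a, o) :=
    fun o a b h => congrArg Prod.fst h
  have hmap : ∀ (o : Option (Fin n)) {A : Set (α → Bool)}, MeasurableSet A →
      bern α p A = bern (α × Option (Fin n)) p ((fun ω a => ω (a, o)) ⁻¹' A) := fun o A hA => by
    conv_lhs => rw [← bern_map (hinj o)]
    exact Measure.map_apply (measurable_comap _) hA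
  have hdis : MeasurableSet (disjOcc F) := by
    refine DepOn.measurableSet (S := E) ?_
    rintro ω ω' h ⟨s, hs, ho, hd⟩
    exact ⟨s, hs, fun i a ha => (h a (hE i _ (hs i) ha)).symm.trans (ho i a ha), hd⟩
  have hocc : ∀ i, MeasurableSet (openOcc (F i)) := fun i => (depOn_openOcc (hE i)).measurableSet
  have h1 : bern α p (disjOcc F) = bern _ p (splitOcc F ∅) := by
    rw [hmap none hdis]
    congr 1
    ext η
    simp [splitOcc, disjOcc, splitTag, Finset.disjoint_left]
  rw [h1]
  refine (hmono E).trans (le_of_eq ?_)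
  set A : Fin n → Set (α × Option (Fin n) → Bool) :=
    fun i => (fun ω a => ω (a, some i)) ⁻¹' openOcc (F i) with hA
  have hfull : splitOcc F E = ⋂ i, A i := by
    ext η
    simp only [splitOcc, hA, mem_iInter, mem_preimage, openOcc, mem_ofPred_eq]
    constructor
    · rintro ⟨s, hs, ho, -⟩ i
      exact ⟨s i, hs i, fun a ha => by simpa [splitTag, hE i _ (hs i) ha] using ho i a ha⟩
    · intro h
      choose s hs ho using h
      exact ⟨s, hs, fun i a ha => by simpa [splitTag, hE i _ (hs i) ha] using ho i a ha,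
        fun i j _ a hi _ => hE i _ (hs i) hi⟩
  have hprod : ∀ t : Finset (Fin n),
      bern (α × Option (Fin n)) p (⋂ i ∈ t, A i) = ∏ i ∈ t, bern α p (openOcc (F i)) ∧
        DepOn (⋂ i ∈ t, A i) (E ×ˢ t.image some) := by
    intro t
    induction t using Finset.induction_on with
    | empty => exact ⟨by simp, fun _ _ _ _ => by simp⟩
    | insert i t hi ih =>
      have hAi : DepOn (A i) (E ×ˢ {some i}) := by
        rintro η η' h hη
        exact depOn_openOcc (hE i) _ _ (fun a ha => h (a, some i) (by simp [ha])) hη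
      rw [Finset.set_biInter_insert]
      refine ⟨?_, (hAi.mono ?_).inter (ih.2.mono ?_)⟩
      · rw [bern_inter_of_disjoint hAi ih.2, ih.1, Finset.prod_insert hi, hmap (some i) (hocc i)]
        rw [Finset.disjoint_left]
        rintro ⟨a, o⟩ h1 h2
        simp only [Finset.mem_product, Finset.mem_singleton, Finset.mem_image] at h1 h2
        obtain ⟨j, hj, hjo⟩ := h2.2
        exact hi (Option.some_injective _ (hjo.trans h1.2) ▸ hj)
      · exact Finset.product_subset_product_right (by simp)
      · exact Finset.product_subset_product_right (Finset.image_subset_image (Finset.subset_insert i t))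
  rw [hfull]
  simpa using (hprod Finset.univ).1

end Splitting

/-- **The van den Berg–Kesten inequality** for witness families. -/
theorem bk [Countable α] {n : ℕ} (F : Fin n → Set (Finset α)) :
    bern α p (disjOcc F) ≤ ∏ i, bern α p (openOcc (F i)) := by
  classical
  have := Encodable.ofCountable α
  set G : ℕ → Fin n → Set (Finset α) :=
    fun k i => {s | s ∈ F i ∧ Encodable.encode s < k} with hG
  have hmono : Monotone fun k => disjOcc (G k) := by
    rintro k l hkl ω ⟨s, hs, ho, hd⟩
    exact ⟨s, fun i => ⟨(hs i).1, (hs i).2.trans_le hkl⟩, ho, hd⟩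
  have hU : disjOcc F = ⋃ k, disjOcc (G k) := by
    ext ω
    refine ⟨fun ⟨s, hs, ho, hd⟩ => mem_iUnion.2
      ⟨(Finset.univ.sup fun i => Encodable.encode (s i)) + 1, s,
        fun i => ⟨hs i, Nat.lt_succ_of_le (Finset.le_sup (f := fun i => Encodable.encode (s i))
          (Finset.mem_univ i))⟩, ho, hd⟩, fun h => ?_⟩
    obtain ⟨k, s, hs, ho, hd⟩ := mem_iUnion.1 h
    exact ⟨s, fun i => (hs i).1, ho, hd⟩
  rw [hU, hmono.measure_iUnion]
  refine iSup_le fun k => ?_
  have hfin : (⋃ i, G k i).Finite := by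
    refine Set.finite_iUnion fun i => Set.Finite.subset
      ((Set.finite_lt_nat k).preimage Encodable.encode_injective.injOn) fun s hs => hs.2
  refine (bk_of_subset (E := hfin.toFinset.biUnion id) fun i s hs a ha =>
    Finset.mem_biUnion.2 ⟨s, hfin.mem_toFinset.2 (mem_iUnion.2 ⟨i, hs⟩), ha⟩).trans
    (Finset.prod_le_prod' fun i _ => measure_mono fun ω ⟨s, hs, ho⟩ => ⟨s, hs.1, ho⟩)

end Vale.Agent.P151
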