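import Mathlib
import Vale.Agent.P165.Basic

/-!
Deterministic facts about open walks in a bond configuration: connection avoiding or through a set,
pivotal edges, the first pivotal decomposition, and two edge-disjoint connections when no edge is
pivotal.
-/

namespace Vale.Agent.P151

open SimpleGraph

variable {W : Type}

open Classical in
/-- Close the edge `e`. -/
noncomputable def del (e : Sym2 W) (ω : Sym2 W → Bool) : Sym2 W → Bool := Function.update ω e false

open Classical in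
/-- Close the edges touching `A`. -/
noncomputable def avoid (A : Set W) (ω : Sym2 W → Bool) : Sym2 W → Bool :=
  fun f => ω f && decide (∀ z ∈ f, z ∉ A)

lemma del_eq_true {e f : Sym2 W} {ω : Sym2 W → Bool} :
    del e ω f = true ↔ f ≠ e ∧ ω f = true := by
  rcases eq_or_ne f e with rfl | h <;> simp [del, *]

lemma avoid_eq_true {A : Set W} {f : Sym2 W} {ω : Sym2 W → Bool} :
    avoid A ω f = true ↔ ω f = true ∧ ∀ z ∈ f, z ∉ A := by
  simp [avoid]

lemma avoid_del (A : Set W) (e : Sym2 W) (ω : Sym2 W → Bool) :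
    avoid A (del e ω) = del e (avoid A ω) := by
  funext f
  rcases eq_or_ne f e with rfl | h <;> simp [avoid, del, *]

lemma del_comm (e f : Sym2 W) (ω : Sym2 W → Bool) : del e (del f ω) = del f (del e ω) := by
  rcases eq_or_ne e f with rfl | h
  · rfl
  · classical
    exact (Function.update_comm h _ _ _).symm

variable (H : SimpleGraph W)

/-- All edges of the walk are open. -/
def Op (ω : Sym2 W → Bool) {x y : W} (q : H.Walk x y) : Prop := ∀ e ∈ q.edges, ω e = true

/-- `x` and `y` are joined by an open walk. -/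
def Conn (ω : Sym2 W → Bool) (x y : W) : Prop := ∃ q : H.Walk x y, Op H ω q

/-- `x` and `y` are joined by an open walk avoiding `A`. -/
def Off (A : Set W) (ω : Sym2 W → Bool) (x y : W) : Prop := Conn H (avoid A ω) x y ∧ x ∉ A

/-- `x` and `y` are joined, but only through `A`. -/
def Thru (A : Set W) (ω : Sym2 W → Bool) (x y : W) : Prop := Conn H ω x y ∧ ¬Off H A ω x y

/-- The oriented open edge from `u` to `w` is pivotal for the connection from `v` to `x`. -/
def Piv (ω : Sym2 W → Bool) (v x u w : W) : Prop :=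
  H.Adj u w ∧ ω s(u, w) = true ∧ Conn H (del s(u, w) ω) v u ∧ Conn H (del s(u, w) ω) w x ∧
    ¬Conn H (del s(u, w) ω) v w

/-- `v` and `x` are joined through `A`, and no pivotal edge (u, w) has `v` joined to `u`
through `A`. -/
def Ev (A : Set W) (ω : Sym2 W → Bool) (v x : W) : Prop :=
  Thru H A ω v x ∧ ∀ u w, Piv H ω v x u w → ¬Thru H A ω v u

variable {H} {ω σ : Sym2 W → Bool} {v x u w a b c : W}

lemma Op.imp {q : H.Walk a b} (h : Op H ω q) (hle : ∀ f, ω f = true → σ f = true) : Op H σ q :=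
  fun e he => hle e (h e he)

lemma Op.of_subset {q : H.Walk a b} {a' b' : W} {q' : H.Walk a' b'} (h : Op H ω q)
    (hs : q'.edges ⊆ q.edges) : Op H ω q' := fun e he => h e (hs he)

lemma Conn.refl (a : W) : Conn H ω a a := ⟨.nil, by simp [Op]⟩

lemma Conn.symm (h : Conn H ω a b) : Conn H ω b a := by
  obtain ⟨q, hq⟩ := h
  exact ⟨q.reverse, hq.of_subset (by simp)⟩

lemma Conn.trans (h : Conn H ω a b) (h' : Conn H ω b c) : Conn H ω a c := by
  obtain ⟨q, hq⟩ := h
  obtain ⟨r, hr⟩ := h'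
  refine ⟨q.append r, fun e he => ?_⟩
  rw [Walk.edges_append, List.mem_append] at he
  exact he.elim (hq e) (hr e)

lemma conn_of_adj (h : H.Adj a b) (ho : ω s(a, b) = true) : Conn H ω a b :=
  ⟨Walk.cons h Walk.nil, by simp [Op, ho]⟩

lemma Conn.mono (h : Conn H ω a b) (hle : ∀ f, ω f = true → σ f = true) : Conn H σ a b :=
  let ⟨q, hq⟩ := h; ⟨q, hq.imp hle⟩

lemma Conn.of_del {e : Sym2 W} (h : Conn H (del e ω) a b) : Conn H ω a b :=
  h.mono fun _ hf => (del_eq_true.1 hf).2

lemma Conn.del_mono {e : Sym2 W} (h : Conn H σ a b) (hle : ∀ f, σ f = true → ω f = true)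
    (he : σ e ≠ true) : Conn H (del e ω) a b :=
  h.mono fun f hf => del_eq_true.2 ⟨fun h' => he (h' ▸ hf), hle f hf⟩

lemma Conn.exists_path (h : Conn H ω a b) : ∃ q : H.Walk a b, q.IsPath ∧ Op H ω q := by
  classical
  obtain ⟨q, hq⟩ := h
  exact ⟨q.bypass, q.bypass_isPath, hq.of_subset q.edges_bypass_subset_edges⟩

lemma Op.conn_del {e : Sym2 W} {q : H.Walk a b} (hq : Op H ω q) (he : e ∉ q.edges) :
    Conn H (del e ω) a b :=
  ⟨q, fun f hf => del_eq_true.2 ⟨fun h => he (h ▸ hf), hq f hf⟩⟩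

lemma Op.conn_start_mem {q : H.Walk a b} (hq : Op H ω q) {z : W} (hz : z ∈ q.support) :
    Conn H ω a z := by
  classical
  exact ⟨q.takeUntil z hz, hq.of_subset (q.edges_takeUntil_subset_edges hz)⟩

/-- A walk through an edge splits at it. -/
lemma exists_split {q : H.Walk a b} {e : Sym2 W} (he : e ∈ q.edges) :
    ∃ (c d : W) (q₁ : H.Walk a c) (h : H.Adj c d) (q₂ : H.Walk d b),
      q = q₁.append (Walk.cons h q₂) ∧ s(c, d) = e := by
  induction q with
  | nil => simp at he
  | @cons a c b h q ih =>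
    rcases eq_or_ne e s(a, c) with rfl | hne
    · exact ⟨a, c, .nil, h, q, rfl, rfl⟩
    · obtain ⟨c', d', q₁, h', q₂, hq, hcd⟩ := ih (by simpa [hne] using he)
      exact ⟨c', d', .cons h q₁, h', q₂, by simp [hq], hcd⟩

/-- The two sides of an edge on an open path avoid it. -/
lemma path_sides {q : H.Walk a b} (hp : q.IsPath) (hq : Op H ω q) {e : Sym2 W} {c d : W}
    {q₁ : H.Walk a c} {h : H.Adj c d} {q₂ : H.Walk d b} (hs : q = q₁.append (Walk.cons h q₂))
    (hcd : s(c, d) = e) :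
    Conn H (del e ω) a c ∧ Conn H (del e ω) d b ∧ q₁.length < q.length ∧ q₂.length < q.length := by
  have hn : q.edges.Nodup := hp.isTrail.edges_nodup
  subst hs
  rw [Walk.edges_append, Walk.edges_cons, List.nodup_append, List.nodup_cons] at hn
  refine ⟨(hq.of_subset (q' := q₁) (by simp)).conn_del fun h' => ?_,
    (hq.of_subset (q' := q₂) (fun f hf => by simp [hf])).conn_del fun h' => hn.2.1.1 (hcd ▸ h'),
    ?_, ?_⟩
  · exact hn.2.2 e h' e (hcd ▸ List.mem_cons_self) rfl
  · simp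
  · simp; omega

/-- A path between two points that are both cut from `w` avoids the edge (u, w). -/
lemma edge_not_mem_path (ha : ¬Conn H (del s(u, w) ω) a w) (hb : ¬Conn H (del s(u, w) ω) b w)
    {q : H.Walk a b} (hp : q.IsPath) (hq : Op H ω q) : s(u, w) ∉ q.edges := by
  intro he
  obtain ⟨c, d, q₁, h, q₂, hs, hcd⟩ := exists_split he
  obtain ⟨h1, h2, -, -⟩ := path_sides hp hq hs hcd
  rcases Sym2.eq_iff.1 hcd with ⟨rfl, rfl⟩ | ⟨rfl, rfl⟩
  · exact hb h2.symm
  · exact ha h1

lemma conn_del_iff (ha : ¬Conn H (del s(u, w) ω) a w) (hb : ¬Conn H (del s(u, w) ω) b w) :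
    Conn H (del s(u, w) ω) a b ↔ Conn H ω a b := by
  refine ⟨Conn.of_del, fun h => ?_⟩
  obtain ⟨q, hp, hq⟩ := h.exists_path
  exact hq.conn_del (edge_not_mem_path ha hb hp hq)

lemma off_iff {A : Set W} :
    Off H A ω a b ↔ ∃ q : H.Walk a b, Op H ω q ∧ ∀ z ∈ q.support, z ∉ A := by
  constructor
  · rintro ⟨⟨q, hq⟩, ha⟩
    refine ⟨q, hq.imp fun f hf => (avoid_eq_true.1 hf).1, ?_⟩
    intro z hz
    induction q with
    | nil =>
      rw [Walk.support_nil, List.mem_singleton] at hz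
      exact hz ▸ ha
    | @cons a c b h q ih =>
      rw [Walk.support_cons, List.mem_cons] at hz
      rcases hz with rfl | hz
      · exact ha
      · have hc : avoid A ω s(a, c) = true := hq _ (by simp)
        exact ih ((avoid_eq_true.1 hc).2 c (Sym2.mem_mk_right a c))
          (fun g hg => hq g (by simp [hg])) hz
  · rintro ⟨q, hq, hs⟩
    refine ⟨⟨q, fun f hf => avoid_eq_true.2 ⟨hq f hf, fun z hz => hs z ?_⟩⟩, hs a (by simp)⟩
    induction f using Sym2.ind with
    | _ c d =>
      rcases Sym2.mem_iff.1 hz with rfl | rfl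
      · exact q.fst_mem_support_of_mem_edges hf
      · exact q.snd_mem_support_of_mem_edges hf

/-- A walk from a set closed under open edges stays in it. -/
lemma Conn.congr_closed {C : Set W} (hcl : ∀ c d, H.Adj c d → ω s(c, d) = true → c ∈ C → d ∈ C)
    (hag : ∀ c d, H.Adj c d → c ∈ C → ω s(c, d) = σ s(c, d)) (ha : a ∈ C) (h : Conn H ω a b) :
    b ∈ C ∧ Conn H σ a b := by
  obtain ⟨q, hq⟩ := h
  induction q with
  | nil => exact ⟨ha, Conn.refl _⟩
  | @cons a c b h q ih =>
    have ho : ω s(a, c) = true := hq _ (by simp)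
    obtain ⟨hb, hc⟩ := ih (hcl a c h ho ha) fun g hg => hq g (by simp [hg])
    exact ⟨hb, (conn_of_adj h ((hag a c h ha).symm.trans ho)).trans hc⟩

/-- The cluster of `v`. -/
def cl (H : SimpleGraph W) (ω : Sym2 W → Bool) (v : W) : Set W := {y | Conn H ω v y}

lemma cl_closed (v : W) : ∀ c d, H.Adj c d → ω s(c, d) = true → c ∈ cl H ω v → d ∈ cl H ω v :=
  fun _ _ h ho hc => hc.trans (conn_of_adj h ho)

lemma Piv.split (h : Piv H ω v x u w) {q : H.Walk v x} (hp : q.IsPath) (hq : Op H ω q) :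
    ∃ (q₁ : H.Walk v u) (h' : H.Adj u w) (q₂ : H.Walk w x), q = q₁.append (Walk.cons h' q₂) := by
  obtain ⟨ha, -, hvu, hwx, hn⟩ := h
  have he : s(u, w) ∈ q.edges := by
    by_contra he
    exact hn ((hq.conn_del he).trans hwx.symm)
  obtain ⟨c, d, q₁, h', q₂, hs, hcd⟩ := exists_split he
  rcases Sym2.eq_iff.1 hcd with ⟨rfl, rfl⟩ | ⟨rfl, rfl⟩
  · exact ⟨q₁, h', q₂, hs⟩
  · exact absurd (path_sides hp hq hs hcd).1 hn

lemma Piv.conn (h : Piv H ω v x u w) : Conn H ω v x :=
  h.2.2.1.of_del.trans ((conn_of_adj h.1 h.2.1).trans h.2.2.2.1.of_del)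

/-- A walk from `v` to `u` cut by a pivotal edge of (v, u) has that edge pivotal for (v, x). -/
lemma Piv.lift {u' w' : W} (h' : Piv H ω v u u' w') (h : Piv H ω v x u w) :
    Piv H ω v x u' w' := by
  obtain ⟨ha', ho', hvu', hwu', hn'⟩ := h'
  obtain ⟨ha, ho, hvu, hwx, hn⟩ := h
  obtain ⟨q, hp, hq⟩ := hvu.exists_path
  have he' : s(u', w') ∈ q.edges := by
    by_contra he'
    have hq' : Op H ω q := hq.imp fun f hf => (del_eq_true.1 hf).2
    exact hn' ((hq'.conn_del he').trans hwu'.symm)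
  have hne : s(u', w') ≠ s(u, w) := (del_eq_true.1 (hq _ he')).1
  obtain ⟨r, -, hr⟩ := hwx.exists_path
  have her : s(u', w') ∉ r.edges := fun hm =>
    hn ((hq.conn_start_mem (q.fst_mem_support_of_mem_edges he')).trans
      (hr.conn_start_mem (r.fst_mem_support_of_mem_edges hm)).symm)
  have hr' : Op H ω r := hr.imp fun f hf => (del_eq_true.1 hf).2
  refine ⟨ha', ho', hvu', hwu'.trans ((conn_of_adj ha ?_).trans (hr'.conn_del her)), hn'⟩
  exact del_eq_true.2 ⟨Ne.symm hne, ho⟩

lemma Piv.thru {A : Set W} (h : Piv H ω v x u w) (ht : Thru H A ω v u) : Thru H A ω v x := by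
  refine ⟨h.conn, fun hoff => ?_⟩
  obtain ⟨q, hq, hs⟩ := off_iff.1 hoff
  classical
  obtain ⟨q₁, h', q₂, hsp⟩ := h.split q.bypass_isPath (hq.of_subset q.edges_bypass_subset_edges)
  refine ht.2 (off_iff.2 ⟨q₁, fun f hf => hq f (q.edges_bypass_subset_edges ?_), fun z hz =>
    hs z (q.support_bypass_subset_support ?_)⟩)
  · rw [hsp, Walk.edges_append]; exact List.mem_append_left _ hf
  · rw [hsp, Walk.mem_support_append_iff]; exact Or.inl hz

lemma ev_or_piv {A : Set W} :
    Thru H A ω v x ↔ Ev H A ω v x ∨ ∃ u w, Ev H A ω v u ∧ Piv H ω v x u w := by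
  refine ⟨fun h => ?_, fun h => h.elim (fun h => h.1) fun ⟨u, w, he, hp⟩ => hp.thru he.1⟩
  by_cases he : Ev H A ω v x
  · exact Or.inl he
  refine Or.inr ?_
  suffices ∀ n u w, Piv H ω v x u w → Thru H A ω v u →
      (∃ q : H.Walk v u, q.IsPath ∧ Op H ω q ∧ q.length = n) →
      ∃ u w, Ev H A ω v u ∧ Piv H ω v x u w by
    simp only [Ev, h, true_and, not_forall, not_not] at he
    obtain ⟨u, w, hp, ht⟩ := he
    obtain ⟨q, hqp, hq⟩ := ht.1.exists_path
    exact this _ u w hp ht ⟨q, hqp, hq, rfl⟩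
  intro n
  induction n using Nat.strong_induction_on with
  | _ n ih =>
    rintro u w hp ht ⟨q, hqp, hq, rfl⟩
    by_cases he' : Ev H A ω v u
    · exact ⟨u, w, he', hp⟩
    simp only [Ev, ht, true_and, not_forall, not_not] at he'
    obtain ⟨u', w', hp', ht'⟩ := he'
    obtain ⟨q₁, h', q₂, hsp⟩ := hp'.split hqp hq
    refine ih q₁.length ?_ u' w' (hp'.lift hp) ht' ⟨q₁, ?_, ?_, rfl⟩
    · subst hsp; simp
    · subst hsp; exact hqp.of_append_left
    · subst hsp; exact hq.of_subset (by simp)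

lemma Ev.not_piv {A : Set W} (h : Ev H A ω v x) : ¬∃ u w, Ev H A ω v u ∧ Piv H ω v x u w :=
  fun ⟨u, w, he, hp⟩ => h.2 u w hp he.1

lemma ev_piv_unique {A : Set W} {u' w' : W} (h₁ : Ev H A ω v u) (p₁ : Piv H ω v x u w)
    (h₂ : Ev H A ω v u') (p₂ : Piv H ω v x u' w') : u = u' ∧ w = w' := by
  classical
  obtain ⟨q, hp, hq⟩ := p₁.conn.exists_path
  obtain ⟨q₁, h, q₂, hs⟩ := p₁.split hp hq
  have he : s(u', w') ∈ q.edges := by
    obtain ⟨r₁, h', r₂, hs'⟩ := p₂.split hp hq
    simp [hs', Walk.edges_append]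
  rw [hs, Walk.edges_append, Walk.edges_cons, List.mem_append, List.mem_cons] at he
  have hn : q.edges.Nodup := hp.isTrail.edges_nodup
  rcases he with he | he | he
  · -- the second edge precedes the first one
    refine absurd h₂.1 (h₁.2 u' w' ?_)
    obtain ⟨c, d, r₁, h', r₂, hr, hcd⟩ := exists_split he
    obtain ⟨ha', ho', hvu', hwx', hn'⟩ := p₂
    have hp₁ : q₁.IsPath := (hs ▸ hp).of_append_left
    have hq₁ : Op H ω q₁ := hq.of_subset (hs ▸ by simp)
    obtain ⟨s1, s2, -, -⟩ := path_sides hp₁ hq₁ hr hcd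
    rcases Sym2.eq_iff.1 hcd with ⟨rfl, rfl⟩ | ⟨rfl, rfl⟩
    · exact ⟨ha', ho', hvu', s2, hn'⟩
    · exact absurd s1 hn'
  · rcases Sym2.eq_iff.1 he with ⟨rfl, rfl⟩ | ⟨rfl, rfl⟩
    · exact ⟨rfl, rfl⟩
    · exact absurd (Sym2.eq_swap ▸ p₁.2.2.1) p₂.2.2.2.2
  · -- the first edge precedes the second one
    refine absurd h₁.1 (h₂.2 u w ?_)
    obtain ⟨c, d, r₁, h', r₂, hr, hcd⟩ := exists_split he
    obtain ⟨ha', ho', hvu', hwx', hn'⟩ := p₂
    obtain ⟨ha, ho, hvu, hwx, hnn⟩ := p₁
    have hq₂ : Op H ω q₂ := hq.of_subset (hs ▸ by simp +contextual)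
    have hne : s(u, w) ∉ q₂.edges := by
      rw [hs, Walk.edges_append, Walk.edges_cons, List.nodup_append, List.nodup_cons] at hn
      exact hn.2.1.1
    rcases Sym2.eq_iff.1 hcd with ⟨rfl, rfl⟩ | ⟨rfl, rfl⟩
    · refine ⟨ha, ho, hvu, (hq₂.of_subset (q' := r₁) (by simp [hr])).conn_del fun hm => hne ?_, hnn⟩
      simp [hr, hm]
    · have hp₂ : q₂.IsPath := ((hs ▸ hp).of_append_right).of_cons
      obtain ⟨s1, -, -, -⟩ := path_sides hp₂ hq₂ hr hcd
      have hq' : Op H ω q₁ := hq.of_subset (hs ▸ by simp)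
      refine absurd (((hq'.conn_del ?_).trans (conn_of_adj h ?_)).trans s1) hn'
      · rw [hs, Walk.edges_append, Walk.edges_cons, List.nodup_append] at hn
        exact fun hm => hn.2.2 _ hm _ (List.mem_cons_of_mem _ he) rfl
      · exact del_eq_true.2 ⟨fun h' => hne (h' ▸ he), ho⟩

lemma not_conn_del_del {e : Sym2 W} (h : ¬Conn H (del s(u, w) ω) a w) :
    ¬Conn H (del s(u, w) (del e ω)) a w := fun h' => h (by
  rw [del_comm] at h'; exact h'.of_del)

lemma piv_del_iff {u' w' : W} (hvu : Conn H (del s(u, w) ω) v u)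
    (hn : ¬Conn H (del s(u, w) ω) v w) :
    Piv H ω v u u' w' ↔ Piv H (del s(u, w) ω) v u u' w' := by
  have hvw := fun e => not_conn_del_del (e := e) hn
  have huw : ¬Conn H (del s(u, w) ω) u w := fun h => hn (hvu.trans h)
  have side : ∀ {z}, z ∈ cl H (del s(u, w) ω) v → ∀ e, ¬Conn H (del s(u, w) (del e ω)) z w :=
    fun hz e => not_conn_del_del fun h => hn (hz.trans h)
  constructor
  · rintro ⟨ha, ho, h1, h2, h3⟩
    obtain ⟨q, hp, hq⟩ := hvu.exists_path
    have hq' : Op H ω q := hq.imp fun f hf => (del_eq_true.1 hf).2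
    have he : s(u', w') ∈ q.edges := by
      by_contra he
      exact h3 ((hq'.conn_del he).trans h2.symm)
    have hu' : u' ∈ cl H (del s(u, w) ω) v :=
      hq.conn_start_mem (q.fst_mem_support_of_mem_edges he)
    have hw' : w' ∈ cl H (del s(u, w) ω) v :=
      hq.conn_start_mem (q.snd_mem_support_of_mem_edges he)
    refine ⟨ha, hq _ he, ?_, ?_, ?_⟩
    · rw [del_comm]; exact (conn_del_iff (hvw _) (side hu' _)).2 h1
    · rw [del_comm]; exact (conn_del_iff (side hw' _) (side hvu _)).2 h2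
    · rw [del_comm]; exact fun h => h3 h.of_del
  · rintro ⟨ha, ho, h1, h2, h3⟩
    rw [del_comm] at h1 h2 h3
    refine ⟨ha, (del_eq_true.1 ho).2, h1.of_del, h2.of_del, fun h => h3 ?_⟩
    have hw' : w' ∈ cl H (del s(u, w) ω) v :=
      h1.mono (fun f hf => del_eq_true.2 ⟨(del_eq_true.1 hf).1,
        (del_eq_true.1 (del_eq_true.1 hf).2).2⟩) |>.trans (conn_of_adj ha ho)
    exact (conn_del_iff (hvw _) (side hw' _)).2 h

lemma thru_del_iff {A : Set W} {z : W} (hz : Conn H (del s(u, w) ω) v z)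
    (hn : ¬Conn H (del s(u, w) ω) v w) :
    Thru H A ω v z ↔ Thru H A (del s(u, w) ω) v z := by
  have h2 : ¬Conn H (del s(u, w) ω) z w := fun h => hn (hz.trans h)
  have hle : ∀ f, avoid A ω f = true → ω f = true := fun f hf => (avoid_eq_true.1 hf).1
  have k : ∀ {y}, ¬Conn H (del s(u, w) ω) y w → ¬Conn H (del s(u, w) (avoid A ω)) y w :=
    fun h h' => h (h'.mono fun f hf =>
      del_eq_true.2 ⟨(del_eq_true.1 hf).1, hle f (del_eq_true.1 hf).2⟩)
  simp only [Thru, Off, avoid_del, conn_del_iff hn h2, conn_del_iff (k hn) (k h2)]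

lemma ev_del_iff {A : Set W} (hvu : Conn H (del s(u, w) ω) v u)
    (hn : ¬Conn H (del s(u, w) ω) v w) :
    Ev H A ω v u ↔ Ev H A (del s(u, w) ω) v u := by
  simp only [Ev, thru_del_iff hvu hn, piv_del_iff hvu hn]
  refine and_congr_right fun _ => forall₂_congr fun u' w' => ?_
  refine imp_congr_right fun hp => not_congr (thru_del_iff ?_ hn)
  obtain ⟨-, -, h1, -, -⟩ := hp
  exact h1.of_del

/-- The first visit of a walk to a set. -/
lemma first_hit {Z : Set W} (q : H.Walk a b) (hb : b ∈ Z) :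
    ∃ (y : W) (r : H.Walk a y), y ∈ Z ∧ r.edges ⊆ q.edges ∧
      ∀ f ∈ r.edges, ∃ z ∈ f, z ∉ Z := by
  induction q with
  | nil => exact ⟨_, .nil, hb, by simp, by simp⟩
  | @cons a c b h q ih =>
    by_cases ha : a ∈ Z
    · exact ⟨a, .nil, ha, by simp, by simp⟩
    obtain ⟨y, r, hy, hs, hf⟩ := ih hb
    refine ⟨y, .cons h r, hy, ?_, ?_⟩
    · simp only [Walk.edges_cons]
      exact List.cons_subset_cons _ hs
    · intro f hf'
      rw [Walk.edges_cons, List.mem_cons] at hf'
      rcases hf' with rfl | hf'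
      · exact ⟨a, Sym2.mem_mk_left a c, ha⟩
      · exact hf f hf'

/-- Edges of a walk with an endpoint outside the support of another walk are not edges of it. -/
lemma not_mem_edges_of_outside {Z : Set W} {q : H.Walk a b} (hZ : ∀ z ∈ q.support, z ∈ Z)
    {f : Sym2 W} (hf : ∃ z ∈ f, z ∉ Z) : f ∉ q.edges := by
  obtain ⟨z, hz, hzZ⟩ := hf
  intro hm
  refine hzZ (hZ z ?_)
  induction f using Sym2.ind with
  | _ c d =>
    rcases Sym2.mem_iff.1 hz with rfl | rfl
    · exact q.fst_mem_support_of_mem_edges hm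
    · exact q.snd_mem_support_of_mem_edges hm

open Classical in
/-- When no edge disconnects `v` from `x` there are two edge-disjoint open connections. -/
lemma two_disjoint (h : ∀ e, Conn H (del e ω) v x) :
    ∃ P Q : H.Walk v x, P.IsPath ∧ Q.IsPath ∧ Op H ω P ∧ Op H ω Q ∧
      ∀ f ∈ P.edges, f ∉ Q.edges := by
  obtain ⟨q₀, hq₀⟩ := (h s(v, v)).of_del.symm
  suffices ∀ {a b : W} (q : H.Walk a b), q.IsPath → Op H ω q → (∀ e, Conn H (del e ω) b a) →
      ∃ P Q : H.Walk b a, P.IsPath ∧ Q.IsPath ∧ Op H ω P ∧ Op H ω Q ∧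
        ∀ f ∈ P.edges, f ∉ Q.edges from
    this q₀.bypass q₀.bypass_isPath (hq₀.of_subset q₀.edges_bypass_subset_edges) h
  clear h hq₀ q₀
  intro a b q
  induction q with
  | nil => exact fun _ _ _ => ⟨.nil, .nil, .nil, .nil, by simp [Op], by simp [Op], by simp⟩
  | @cons x y v hxy q ih =>
    intro hp hq h
    have hoe : ω s(x, y) = true := hq _ (by simp)
    have hq' : Op H ω q := hq.of_subset (by simp)
    have hqe : s(x, y) ∉ q.edges := by
      have := hp.isTrail.edges_nodup
      rw [Walk.edges_cons, List.nodup_cons] at this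
      exact this.1
    obtain ⟨P, Q, hP, hQ, hPo, hQo, hd⟩ := ih hp.of_cons hq' fun d => by
      by_cases hdq : d ∈ q.edges
      · exact (h d).trans (conn_of_adj hxy (del_eq_true.2 ⟨fun h' => hqe (h' ▸ hdq), hoe⟩))
      · exact (hq'.conn_del hdq).symm
    have hyx : y ≠ x := hxy.ne.symm
    have ext : ∀ {P Q : H.Walk v y}, P.IsPath → Op H ω P → Op H ω Q →
        (∀ f ∈ P.edges, f ∉ Q.edges) → x ∈ P.support →
        ∃ P Q : H.Walk v x, P.IsPath ∧ Q.IsPath ∧ Op H ω P ∧ Op H ω Q ∧
          ∀ f ∈ P.edges, f ∉ Q.edges := by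
      intro P Q hP hPo hQo hd hx
      refine ⟨P.takeUntil x hx, (Q.concat hxy.symm).bypass, hP.takeUntil hx, Walk.bypass_isPath _,
        hPo.of_subset (P.edges_takeUntil_subset_edges hx), fun f hf => ?_, fun f hf hf' => ?_⟩
      · have := (Q.concat hxy.symm).edges_bypass_subset_edges hf
        rw [Walk.edges_concat, List.concat_eq_append, List.mem_append, List.mem_singleton] at this
        rcases this with h' | rfl
        · exact hQo f h'
        · rwa [Sym2.eq_swap]
      · have := (Q.concat hxy.symm).edges_bypass_subset_edges hf'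
        rw [Walk.edges_concat, List.concat_eq_append, List.mem_append, List.mem_singleton] at this
        rcases this with h' | rfl
        · exact hd f (P.edges_takeUntil_subset_edges hx hf) h'
        · exact Walk.endpoint_notMem_support_takeUntil hP hx hyx
            ((P.takeUntil x hx).fst_mem_support_of_mem_edges hf)
    by_cases hxP : x ∈ P.support
    · exact ext hP hPo hQo hd hxP
    by_cases hxQ : x ∈ Q.support
    · exact ext hQ hQo hPo (fun f hf hf' => hd f hf' hf) hxQ
    obtain ⟨R, hR⟩ := (h s(x, y)).symm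
    obtain ⟨z, R', hz, hsub, hout⟩ :=
      first_hit (Z := {z | z ∈ P.support ∨ z ∈ Q.support}) R (Or.inl P.start_mem_support)
    have hR' : ∀ f ∈ R'.edges, f ≠ s(x, y) ∧ ω f = true ∧ f ∉ P.edges ∧ f ∉ Q.edges := fun f hf =>
      ⟨(del_eq_true.1 (hR f (hsub hf))).1, (del_eq_true.1 (hR f (hsub hf))).2,
        not_mem_edges_of_outside (fun _ hz => Or.inl hz) (hout f hf),
        not_mem_edges_of_outside (fun _ hz => Or.inr hz) (hout f hf)⟩
    have key : ∀ {P Q : H.Walk v y}, Op H ω P → Op H ω Q → (∀ f ∈ P.edges, f ∉ Q.edges) →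
        (∀ f ∈ R'.edges, f ∉ Q.edges) → x ∉ P.support → z ∈ P.support →
        ∃ P Q : H.Walk v x, P.IsPath ∧ Q.IsPath ∧ Op H ω P ∧ Op H ω Q ∧
          ∀ f ∈ P.edges, f ∉ Q.edges := by
      intro P Q hPo hQo hd hRQ hxP hzP
      refine ⟨((P.takeUntil z hzP).append R'.reverse).bypass, (Q.concat hxy.symm).bypass,
        Walk.bypass_isPath _, Walk.bypass_isPath _, fun f hf => ?_, fun f hf => ?_,
        fun f hf hf' => ?_⟩
      · have := Walk.edges_bypass_subset_edges _ hf
        rw [Walk.edges_append, Walk.edges_reverse, List.mem_append, List.mem_reverse] at this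
        exact this.elim (fun h' => hPo f (P.edges_takeUntil_subset_edges hzP h'))
          fun h' => (hR' f h').2.1
      · have := Walk.edges_bypass_subset_edges _ hf
        rw [Walk.edges_concat, List.concat_eq_append, List.mem_append, List.mem_singleton] at this
        rcases this with h' | rfl
        · exact hQo f h'
        · rwa [Sym2.eq_swap]
      · have h1 := Walk.edges_bypass_subset_edges _ hf
        have h2 := Walk.edges_bypass_subset_edges _ hf'
        rw [Walk.edges_append, Walk.edges_reverse, List.mem_append, List.mem_reverse] at h1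
        rw [Walk.edges_concat, List.concat_eq_append, List.mem_append, List.mem_singleton] at h2
        rcases h1 with h1 | h1 <;> rcases h2 with h2 | rfl
        · exact hd f (P.edges_takeUntil_subset_edges hzP h1) h2
        · exact hxP (P.snd_mem_support_of_mem_edges (P.edges_takeUntil_subset_edges hzP h1))
        · exact hRQ f h1 h2
        · exact (hR' _ h1).1 Sym2.eq_swap
    rcases hz with hz | hz
    · exact key hPo hQo hd (fun f hf => (hR' f hf).2.2.2) hxP hz
    · exact key hQo hPo (fun f hf hf' => hd f hf' hf) (fun f hf => (hR' f hf).2.2.1) hxQ hz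

/-- Without a pivotal edge no edge disconnects. -/
lemma conn_del_of_no_piv (h : Conn H ω v x) (hn : ¬∃ u w, Piv H ω v x u w) (e : Sym2 W) :
    Conn H (del e ω) v x := by
  obtain ⟨q, hp, hq⟩ := h.exists_path
  by_cases he : e ∈ q.edges
  · obtain ⟨c, d, q₁, h', q₂, hs, rfl⟩ := exists_split he
    obtain ⟨h1, h2, -, -⟩ := path_sides hp hq hs rfl
    by_contra hc
    exact hn ⟨c, d, h', hq _ he, h1, h2, fun h3 => hc (h3.trans h2)⟩
  · exact hq.conn_del he

/-- The head of the last pivotal edge. -/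
lemma exists_last_piv (h : Piv H ω v x u w) :
    ∃ u w, Piv H ω v x u w ∧ ∀ e, Conn H (del e ω) w x := by
  suffices ∀ n u w, Piv H ω v x u w →
      (∃ q : H.Walk w x, q.IsPath ∧ Op H (del s(u, w) ω) q ∧ q.length = n) →
      ∃ u w, Piv H ω v x u w ∧ ∀ e, Conn H (del e ω) w x by
    obtain ⟨q, hqp, hq⟩ := h.2.2.2.1.exists_path
    exact this _ u w h ⟨q, hqp, hq, rfl⟩
  clear h
  intro n
  induction n using Nat.strong_induction_on with
  | _ n ih =>
    rintro u w hp ⟨q, hqp, hq, rfl⟩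
    by_cases hd : ∀ e, Conn H (del e ω) w x
    · exact ⟨u, w, hp, hd⟩
    simp only [not_forall] at hd
    obtain ⟨e, he⟩ := hd
    have hq' : Op H ω q := hq.imp fun f hf => (del_eq_true.1 hf).2
    have heq : e ∈ q.edges := by
      by_contra h'
      exact he (hq'.conn_del h')
    obtain ⟨c, d, q₁, h', q₂, hs, rfl⟩ := exists_split heq
    obtain ⟨h1, h2, -, hlen⟩ := path_sides hqp hq' hs rfl
    obtain ⟨ha, ho, hvu, hwx, hn⟩ := hp
    have hne : s(c, d) ≠ s(u, w) := (del_eq_true.1 (hq _ heq)).1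
    have hvu' : Conn H (del s(c, d) ω) v u := by
      obtain ⟨r, -, hr⟩ := hvu.exists_path
      refine (hr.imp fun f hf => (del_eq_true.1 hf).2).conn_del fun hm => hn ?_
      exact (hr.conn_start_mem (r.fst_mem_support_of_mem_edges hm)).trans
        (hq.conn_start_mem (q.fst_mem_support_of_mem_edges heq)).symm
    have hew : Conn H (del s(c, d) ω) u w := conn_of_adj ha (del_eq_true.2 ⟨hne.symm, ho⟩)
    subst hs
    have hq₂ : Op H ω q₂ := hq'.of_subset (by simp +contextual)
    refine ih q₂.length hlen c d ⟨h', hq' _ heq, (hvu'.trans hew).trans h1, h2, fun h3 => he ?_⟩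
      ⟨q₂, hqp.of_append_right.of_cons, fun f hf => del_eq_true.2 ⟨?_, hq₂ f hf⟩, rfl⟩
    · exact (((hew.symm.trans hvu'.symm).trans h3)).trans h2
    · have hn' := hqp.isTrail.edges_nodup
      rw [Walk.edges_append, Walk.edges_cons, List.nodup_append, List.nodup_cons] at hn'
      exact fun h4 => hn'.2.1.1 (h4 ▸ hf)

/-- Two open walks with no common edge. -/
def Disj {a b c d : W} (P : H.Walk a b) (Q : H.Walk c d) : Prop := ∀ f ∈ P.edges, f ∉ Q.edges

lemma Disj.symm {a b c d : W} {P : H.Walk a b} {Q : H.Walk c d} (h : Disj P Q) : Disj Q P :=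
  fun f hf hf' => h f hf' hf

open Classical in
/-- The connection through `A` without early pivotal edge contains four disjoint connections. -/
lemma ev_witness {A : Set W} (h : Ev H A ω v x) :
    ∃ (a : W) (_ : a ∈ A) (z : W) (q₁ : H.Walk v z) (q₂ : H.Walk z a) (q₃ : H.Walk a x)
      (q₄ : H.Walk z x), q₁.IsPath ∧ q₂.IsPath ∧ q₃.IsPath ∧ q₄.IsPath ∧
      Op H ω q₁ ∧ Op H ω q₂ ∧ Op H ω q₃ ∧ Op H ω q₄ ∧
      Disj q₁ q₂ ∧ Disj q₁ q₃ ∧ Disj q₁ q₄ ∧ Disj q₂ q₃ ∧ Disj q₂ q₄ ∧ Disj q₃ q₄ := by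
  have fin : ∀ (z : W) (q₁ : H.Walk v z) (P Q : H.Walk z x), q₁.IsPath → P.IsPath → Q.IsPath →
      Op H ω q₁ → Op H ω P → Op H ω Q → Disj q₁ P → Disj q₁ Q → Disj P Q →
      (∀ y ∈ q₁.support, y ∈ A → y = z) →
      ∃ (a : W) (_ : a ∈ A) (z : W) (q₁ : H.Walk v z) (q₂ : H.Walk z a) (q₃ : H.Walk a x)
        (q₄ : H.Walk z x), q₁.IsPath ∧ q₂.IsPath ∧ q₃.IsPath ∧ q₄.IsPath ∧
        Op H ω q₁ ∧ Op H ω q₂ ∧ Op H ω q₃ ∧ Op H ω q₄ ∧
        Disj q₁ q₂ ∧ Disj q₁ q₃ ∧ Disj q₁ q₄ ∧ Disj q₂ q₃ ∧ Disj q₂ q₄ ∧ Disj q₃ q₄ := by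
    intro z q₁ P Q h1 hP hQ o1 oP oQ d1P d1Q dPQ hA
    obtain ⟨a, haA, haP⟩ : ∃ a ∈ A, a ∈ P.support := by
      by_contra hc
      push Not at hc
      refine h.1.2 (off_iff.2 ⟨q₁.append P, fun f hf => ?_, fun y hy hyA => ?_⟩)
      · rw [Walk.edges_append, List.mem_append] at hf
        exact hf.elim (o1 f) (oP f)
      · rw [Walk.mem_support_append_iff] at hy
        rcases hy with hy | hy
        · exact hc y hyA (hA y hy hyA ▸ P.start_mem_support)
        · exact hc y hyA hy
    exact ⟨a, haA, z, q₁, P.takeUntil a haP, P.dropUntil a haP, Q, h1, hP.takeUntil haP,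
      hP.dropUntil haP, hQ, o1, oP.of_subset (P.edges_takeUntil_subset_edges haP),
      oP.of_subset (P.edges_dropUntil_subset_edges haP), oQ,
      fun f hf hf' => d1P f hf (P.edges_takeUntil_subset_edges haP hf'),
      fun f hf hf' => d1P f hf (P.edges_dropUntil_subset_edges haP hf'), d1Q,
      fun f hf hf' => hP.isTrail.disjoint_edges_takeUntil_dropUntil haP hf hf',
      fun f hf => dPQ f (P.edges_takeUntil_subset_edges haP hf),
      fun f hf => dPQ f (P.edges_dropUntil_subset_edges haP hf)⟩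
  by_cases hpiv : ∃ u w, Piv H ω v x u w
  · obtain ⟨u₀, w₀, hp₀⟩ := hpiv
    obtain ⟨u, w, hp, hlast⟩ := exists_last_piv hp₀
    have hnt := h.2 u w hp
    obtain ⟨ha, ho, hvu, hwx, hn⟩ := hp
    have hoff : Off H A ω v u := by
      by_contra hc
      exact hnt ⟨hvu.of_del, hc⟩
    obtain ⟨q, hq, hqs⟩ := off_iff.1 hoff
    have huw : ¬Conn H (del s(u, w) ω) u w := fun h' => hn (hvu.trans h')
    have hq0 : s(u, w) ∉ q.bypass.edges :=
      edge_not_mem_path hn huw q.bypass_isPath (hq.of_subset q.edges_bypass_subset_edges)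
    have hq' : Op H (del s(u, w) ω) q.bypass := fun f hf =>
      del_eq_true.2 ⟨fun h' => hq0 (h' ▸ hf), hq f (q.edges_bypass_subset_edges hf)⟩
    obtain ⟨P, Q, hP, hQ, oP, oQ, dPQ⟩ := two_disjoint hlast
    have hside : ∀ {R : H.Walk w x}, R.IsPath → Op H ω R →
        ∀ f ∈ (q.bypass.concat ha).bypass.edges, f ∉ R.edges := by
      intro R hR oR f hf hf'
      have hwu : ¬Conn H (del s(w, u) ω) w u := fun h' => huw (Sym2.eq_swap ▸ h'.symm)
      have hxu : ¬Conn H (del s(w, u) ω) x u := fun h' =>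
        huw (((Sym2.eq_swap ▸ h' : Conn H (del s(u, w) ω) x u)).symm.trans hwx.symm)
      have he : s(u, w) ∉ R.edges := Sym2.eq_swap ▸ edge_not_mem_path hwu hxu hR oR
      have hR' : Op H (del s(u, w) ω) R := fun g hg =>
        del_eq_true.2 ⟨fun h' => he (h' ▸ hg), oR g hg⟩
      have := Walk.edges_bypass_subset_edges _ hf
      rw [Walk.edges_concat, List.concat_eq_append, List.mem_append, List.mem_singleton] at this
      rcases this with h' | rfl
      · induction f using Sym2.ind with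
        | _ c d =>
          exact hn ((hq'.conn_start_mem (q.bypass.fst_mem_support_of_mem_edges h')).trans
            (hR'.conn_start_mem (R.fst_mem_support_of_mem_edges hf')).symm)
      · exact he hf'
    refine fin w (q.bypass.concat ha).bypass P Q (Walk.bypass_isPath _) hP hQ ?_ oP oQ
      (hside hP oP) (hside hQ oQ) dPQ ?_
    · intro f hf
      have := Walk.edges_bypass_subset_edges _ hf
      rw [Walk.edges_concat, List.concat_eq_append, List.mem_append, List.mem_singleton] at this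
      rcases this with h' | rfl
      · exact hq f (q.edges_bypass_subset_edges h')
      · exact ho
    · intro y hy hyA
      have := Walk.support_bypass_subset_support _ hy
      rw [Walk.support_concat, List.mem_append, List.mem_singleton] at this
      exact this.resolve_left fun h' => hqs y (q.support_bypass_subset_support h') hyA
  · obtain ⟨P, Q, hP, hQ, oP, oQ, dPQ⟩ := two_disjoint (conn_del_of_no_piv h.1.1 hpiv)
    exact fin v .nil P Q .nil hP hQ (by simp [Op]) oP oQ (by simp [Disj]) (by simp [Disj]) dPQ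
      (by simp)

lemma thru_univ : Thru H Set.univ ω v x ↔ Conn H ω v x :=
  ⟨fun h => h.1, fun h => ⟨h, fun h' => h'.2 (Set.mem_univ v)⟩⟩

/-- For `A = univ` no edge is pivotal. -/
lemma ev_univ_iff : Ev H Set.univ ω v x ↔ ∀ e, Conn H (del e ω) v x := by
  constructor
  · rintro ⟨ht, hn⟩
    exact conn_del_of_no_piv ht.1 fun ⟨u, w, hp⟩ => hn u w hp (thru_univ.2 hp.2.2.1.of_del)
  · intro h
    refine ⟨thru_univ.2 (h s(v, v)).of_del, fun u w hp _ => hp.2.2.2.2 ?_⟩
    exact (h s(u, w)).trans hp.2.2.2.1.symm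

end Vale.Agent.P151
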