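import Mathlib
import Vale.Agent.P151.BK
import Vale.Agent.P151.Walks

/-!
Probability bounds for the diagrams: the two-point function, and the van den Berg–Kesten bounds for
connections through a set, tree graphs and insertion of one step.
-/

namespace Vale.Agent.P151

open MeasureTheory SimpleGraph
open Vale.Agent.P165 (perc)
open scoped ENNReal NNReal

variable {W : Type} (H : SimpleGraph W) {p : unitInterval}

/-- The edge sets of paths from `x` to `y`. -/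
def pathFam (x y : W) : Set (Finset (Sym2 W)) :=
  {E | ∃ q : H.Walk x y, q.IsPath ∧ ∀ f, f ∈ E ↔ f ∈ q.edges}

/-- The two-point function. -/
noncomputable def tau (p : unitInterval) (x y : W) : ℝ≥0∞ := perc W p {ω | Conn H ω x y}

/-- Open paths joining the given pairs, with pairwise disjoint edges. -/
def Occ {n : ℕ} (L : Fin n → W × W) : Set (Sym2 W → Bool) :=
  disjOcc fun i => pathFam H (L i).1 (L i).2

variable {H} {ω : Sym2 W → Bool} {v x a b u w : W}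

lemma mem_pathFam [DecidableEq W] {q : H.Walk a b} (h : q.IsPath) :
    q.edges.toFinset ∈ pathFam H a b := ⟨q, h, fun _ => List.mem_toFinset⟩

lemma openOcc_pathFam (x y : W) : openOcc (pathFam H x y) = {ω | Conn H ω x y} := by
  classical
  ext ω
  constructor
  · rintro ⟨E, ⟨q, -, hE⟩, ho⟩
    exact ⟨q, fun f hf => ho f ((hE f).2 hf)⟩
  · intro h
    obtain ⟨q, hp, hq⟩ := Conn.exists_path (show Conn H ω x y from h)
    exact ⟨_, mem_pathFam hp, fun f hf => hq f (List.mem_toFinset.1 hf)⟩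

lemma occ_le [Countable W] {n : ℕ} (L : Fin n → W × W) :
    perc W p (Occ H L) ≤ ∏ i, tau H p (L i).1 (L i).2 := by
  refine (bk (p := p) fun i => pathFam H (L i).1 (L i).2).trans
    (le_of_eq (Finset.prod_congr rfl fun i _ => ?_))
  rw [openOcc_pathFam]
  rfl

lemma measurableSet_openOcc [Countable W] (F : Set (Finset (Sym2 W))) :
    MeasurableSet (openOcc F) := by
  have : openOcc F = ⋃ E ∈ F, {ω : Sym2 W → Bool | ∀ e ∈ E, ω e = true} := by
    ext ω; simp [openOcc]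
  rw [this]
  refine MeasurableSet.biUnion (Set.to_countable _) fun E _ => ?_
  exact Vale.Agent.P165.measurableSet_allOpen E

lemma measurableSet_conn [Countable W] (x y : W) : MeasurableSet {ω | Conn H ω x y} := by
  rw [← openOcc_pathFam]; exact measurableSet_openOcc _

lemma measurable_avoid (A : Set W) : Measurable (avoid (W := W) A) := by
  classical
  exact measurable_pi_lambda _ fun f =>
    (measurable_of_finite fun c : Bool => c && decide (∀ z ∈ f, z ∉ A)).comp (measurable_pi_apply f)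

lemma measurable_del (e : Sym2 W) : Measurable (del (W := W) e) := by
  classical
  refine measurable_pi_lambda _ fun f => ?_
  rcases eq_or_ne f e with rfl | h
  · simp only [del, Function.update_self]; exact measurable_const
  · simp only [del, Function.update_of_ne h]; exact measurable_pi_apply f

lemma measurableSet_thru [Countable W] (A : Set W) (x y : W) :
    MeasurableSet {ω | Thru H A ω x y} :=
  (measurableSet_conn x y).inter
    ((measurable_avoid A (measurableSet_conn x y)).inter (MeasurableSet.const _)).compl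

lemma measurableSet_piv [Countable W] (v x u w : W) : MeasurableSet {ω | Piv H ω v x u w} := by
  have hd : ∀ a b, MeasurableSet {ω | Conn H (del s(u, w) ω) a b} := fun a b =>
    measurable_del _ (measurableSet_conn a b)
  have ho : MeasurableSet {ω : Sym2 W → Bool | ω s(u, w) = true} :=
    (measurable_pi_apply s(u, w) : Measurable fun ω : Sym2 W → Bool => ω s(u, w))
      (measurableSet_singleton true)
  exact (MeasurableSet.const _).inter (ho.inter ((hd v u).inter ((hd w x).inter (hd v w).compl)))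

lemma measurableSet_ev [Countable W] (A : Set W) (v x : W) :
    MeasurableSet {ω | Ev H A ω v x} := by
  have : {ω | Ev H A ω v x} =
      {ω | Thru H A ω v x} ∩ ⋂ u, ⋂ w, ({ω | Piv H ω v x u w}ᶜ ∪ {ω | Thru H A ω v u}ᶜ) := by
    ext ω; simp [Ev, imp_iff_not_or]
  rw [this]
  exact (measurableSet_thru A v x).inter (MeasurableSet.iInter fun u => MeasurableSet.iInter
    fun w => (measurableSet_piv v x u w).compl.union (measurableSet_thru A v u).compl)

lemma tau_le_one (x y : W) : tau H p x y ≤ 1 := prob_le_one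

lemma tau_self (x : W) : tau H p x x = 1 := by
  have : {ω | Conn H ω x x} = Set.univ := Set.eq_univ_of_forall fun ω => Conn.refl x
  rw [tau, this, measure_univ]

lemma tau_symm (x y : W) : tau H p x y = tau H p y x :=
  congrArg (perc W p) (Set.ext fun _ => ⟨Conn.symm, Conn.symm⟩)

variable [DecidableEq W]

/-- `E` is the edge set of an open path between the two points. -/
def Seg (H : SimpleGraph W) (ω : Sym2 W → Bool) (l : W × W) (E : Finset (Sym2 W)) : Prop :=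
  E ∈ pathFam H l.1 l.2 ∧ ∀ f ∈ E, ω f = true

/-- Open paths joining the pairs of a list, with pairwise disjoint edges. -/
def OccL (H : SimpleGraph W) (l : List (W × W)) : Set (Sym2 W → Bool) :=
  {ω | ∃ Es : List (Finset (Sym2 W)), List.Forall₂ (Seg H ω) l Es ∧ Es.Pairwise Disjoint}

omit [DecidableEq W] in
lemma occL_le [Countable W] (l : List (W × W)) :
    perc W p (OccL H l) ≤ (l.map fun e => tau H p e.1 e.2).prod := by
  refine le_trans (measure_mono (t := Occ H l.get) ?_) ((occ_le l.get).trans (le_of_eq ?_))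
  · rintro ω ⟨Es, hF, hd⟩
    have hl : l.length = Es.length := hF.length_eq
    have hs : ∀ i : Fin l.length, Seg H ω (l.get i) (Es.get (Fin.cast hl i)) := fun i =>
      hF.get i.2 (hl ▸ i.2)
    refine ⟨fun i => Es.get (Fin.cast hl i), fun i => (hs i).1, fun i => (hs i).2, fun i j hij => ?_⟩
    rcases lt_or_gt_of_ne (fun h => hij (Fin.ext h) : (i : ℕ) ≠ j) with h | h
    · exact List.pairwise_iff_get.1 hd _ _ h
    · exact (List.pairwise_iff_get.1 hd _ _ h).symm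
  · rw [← Fin.prod_ofFn]
    congr 1
    exact List.ext_getElem (by simp) fun i _ _ => by simp

lemma seg_of_path {q : H.Walk a b} (hp : q.IsPath) (ho : Op H ω q) :
    Seg H ω (a, b) q.edges.toFinset :=
  ⟨mem_pathFam hp, fun f hf => ho f (List.mem_toFinset.1 hf)⟩

lemma Disj.toFinset {c d : W} {q : H.Walk a b} {r : H.Walk c d} (h : Disj q r) :
    Disjoint q.edges.toFinset r.edges.toFinset :=
  Finset.disjoint_left.2 fun f hf hf' => h f (List.mem_toFinset.1 hf) (List.mem_toFinset.1 hf')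

lemma occ₂ {a₁ b₁ a₂ b₂ : W} {q₁ : H.Walk a₁ b₁} {q₂ : H.Walk a₂ b₂}
    (h₁ : q₁.IsPath) (h₂ : q₂.IsPath) (o₁ : Op H ω q₁) (o₂ : Op H ω q₂) (d : Disj q₁ q₂) :
    ω ∈ OccL H [(a₁, b₁), (a₂, b₂)] :=
  ⟨[q₁.edges.toFinset, q₂.edges.toFinset],
    .cons (seg_of_path h₁ o₁) (.cons (seg_of_path h₂ o₂) .nil), by simp [d.toFinset]⟩

lemma occ₃ {a₁ b₁ a₂ b₂ a₃ b₃ : W} {q₁ : H.Walk a₁ b₁} {q₂ : H.Walk a₂ b₂} {q₃ : H.Walk a₃ b₃}
    (h₁ : q₁.IsPath) (h₂ : q₂.IsPath) (h₃ : q₃.IsPath)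
    (o₁ : Op H ω q₁) (o₂ : Op H ω q₂) (o₃ : Op H ω q₃)
    (d₁₂ : Disj q₁ q₂) (d₁₃ : Disj q₁ q₃) (d₂₃ : Disj q₂ q₃) :
    ω ∈ OccL H [(a₁, b₁), (a₂, b₂), (a₃, b₃)] :=
  ⟨[q₁.edges.toFinset, q₂.edges.toFinset, q₃.edges.toFinset],
    .cons (seg_of_path h₁ o₁) (.cons (seg_of_path h₂ o₂) (.cons (seg_of_path h₃ o₃) .nil)),
    by simp [d₁₂.toFinset, d₁₃.toFinset, d₂₃.toFinset]⟩

lemma occ₄ {a₁ b₁ a₂ b₂ a₃ b₃ a₄ b₄ : W} {q₁ : H.Walk a₁ b₁} {q₂ : H.Walk a₂ b₂}
    {q₃ : H.Walk a₃ b₃} {q₄ : H.Walk a₄ b₄}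
    (h₁ : q₁.IsPath) (h₂ : q₂.IsPath) (h₃ : q₃.IsPath) (h₄ : q₄.IsPath)
    (o₁ : Op H ω q₁) (o₂ : Op H ω q₂) (o₃ : Op H ω q₃) (o₄ : Op H ω q₄)
    (d₁₂ : Disj q₁ q₂) (d₁₃ : Disj q₁ q₃) (d₁₄ : Disj q₁ q₄) (d₂₃ : Disj q₂ q₃)
    (d₂₄ : Disj q₂ q₄) (d₃₄ : Disj q₃ q₄) :
    ω ∈ OccL H [(a₁, b₁), (a₂, b₂), (a₃, b₃), (a₄, b₄)] :=
  ⟨[q₁.edges.toFinset, q₂.edges.toFinset, q₃.edges.toFinset, q₄.edges.toFinset],
    .cons (seg_of_path h₁ o₁) (.cons (seg_of_path h₂ o₂) (.cons (seg_of_path h₃ o₃)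
      (.cons (seg_of_path h₄ o₄) .nil))),
    by simp [d₁₂.toFinset, d₁₃.toFinset, d₁₄.toFinset, d₂₃.toFinset, d₂₄.toFinset, d₃₄.toFinset]⟩

lemma occ₅ {a₁ b₁ a₂ b₂ a₃ b₃ a₄ b₄ a₅ b₅ : W} {q₁ : H.Walk a₁ b₁} {q₂ : H.Walk a₂ b₂}
    {q₃ : H.Walk a₃ b₃} {q₄ : H.Walk a₄ b₄} {q₅ : H.Walk a₅ b₅}
    (h₁ : q₁.IsPath) (h₂ : q₂.IsPath) (h₃ : q₃.IsPath) (h₄ : q₄.IsPath) (h₅ : q₅.IsPath)
    (o₁ : Op H ω q₁) (o₂ : Op H ω q₂) (o₃ : Op H ω q₃) (o₄ : Op H ω q₄) (o₅ : Op H ω q₅)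
    (d₁₂ : Disj q₁ q₂) (d₁₃ : Disj q₁ q₃) (d₁₄ : Disj q₁ q₄) (d₁₅ : Disj q₁ q₅)
    (d₂₃ : Disj q₂ q₃) (d₂₄ : Disj q₂ q₄) (d₂₅ : Disj q₂ q₅)
    (d₃₄ : Disj q₃ q₄) (d₃₅ : Disj q₃ q₅) (d₄₅ : Disj q₄ q₅) :
    ω ∈ OccL H [(a₁, b₁), (a₂, b₂), (a₃, b₃), (a₄, b₄), (a₅, b₅)] :=
  ⟨[q₁.edges.toFinset, q₂.edges.toFinset, q₃.edges.toFinset, q₄.edges.toFinset, q₅.edges.toFinset],
    .cons (seg_of_path h₁ o₁) (.cons (seg_of_path h₂ o₂) (.cons (seg_of_path h₃ o₃)
      (.cons (seg_of_path h₄ o₄) (.cons (seg_of_path h₅ o₅) .nil)))),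
    by simp [d₁₂.toFinset, d₁₃.toFinset, d₁₄.toFinset, d₁₅.toFinset, d₂₃.toFinset, d₂₄.toFinset,
      d₂₅.toFinset, d₃₄.toFinset, d₃₅.toFinset, d₄₅.toFinset]⟩

omit [DecidableEq W] in
lemma Disj.mono {a' b' c' d' c d : W} {q : H.Walk a b} {r : H.Walk c d} {q' : H.Walk a' b'}
    {r' : H.Walk c' d'} (h : Disj q r) (hq : q'.edges ⊆ q.edges) (hr : r'.edges ⊆ r.edges) :
    Disj q' r' := fun _ hf hf' => h _ (hq hf) (hr hf')

/-- The four ways in which a fifth connection meets a diagram. -/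
def five (v z a u t b : W) : List (List (W × W)) :=
  [[(v, t), (t, z), (z, a), (a, u), (z, u), (t, b)], [(v, z), (z, t), (t, a), (a, u), (z, u), (t, b)],
   [(v, z), (z, a), (a, t), (t, u), (z, u), (t, b)], [(v, z), (z, a), (a, u), (z, t), (t, u), (t, b)]]

lemma occ₆ {a₁ b₁ a₂ b₂ a₃ b₃ a₄ b₄ a₅ b₅ a₆ b₆ : W} {q₁ : H.Walk a₁ b₁} {q₂ : H.Walk a₂ b₂}
    {q₃ : H.Walk a₃ b₃} {q₄ : H.Walk a₄ b₄} {q₅ : H.Walk a₅ b₅} {q₆ : H.Walk a₆ b₆}
    (h₁ : q₁.IsPath) (h₂ : q₂.IsPath) (h₃ : q₃.IsPath) (h₄ : q₄.IsPath) (h₅ : q₅.IsPath)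
    (h₆ : q₆.IsPath)
    (o₁ : Op H ω q₁) (o₂ : Op H ω q₂) (o₃ : Op H ω q₃) (o₄ : Op H ω q₄) (o₅ : Op H ω q₅)
    (o₆ : Op H ω q₆)
    (d₁₂ : Disj q₁ q₂) (d₁₃ : Disj q₁ q₃) (d₁₄ : Disj q₁ q₄) (d₁₅ : Disj q₁ q₅) (d₁₆ : Disj q₁ q₆)
    (d₂₃ : Disj q₂ q₃) (d₂₄ : Disj q₂ q₄) (d₂₅ : Disj q₂ q₅) (d₂₆ : Disj q₂ q₆)
    (d₃₄ : Disj q₃ q₄) (d₃₅ : Disj q₃ q₅) (d₃₆ : Disj q₃ q₆)
    (d₄₅ : Disj q₄ q₅) (d₄₆ : Disj q₄ q₆) (d₅₆ : Disj q₅ q₆) :
    ω ∈ OccL H [(a₁, b₁), (a₂, b₂), (a₃, b₃), (a₄, b₄), (a₅, b₅), (a₆, b₆)] :=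
  ⟨[q₁.edges.toFinset, q₂.edges.toFinset, q₃.edges.toFinset, q₄.edges.toFinset, q₅.edges.toFinset,
      q₆.edges.toFinset],
    .cons (seg_of_path h₁ o₁) (.cons (seg_of_path h₂ o₂) (.cons (seg_of_path h₃ o₃)
      (.cons (seg_of_path h₄ o₄) (.cons (seg_of_path h₅ o₅) (.cons (seg_of_path h₆ o₆) .nil))))),
    by simp [d₁₂.toFinset, d₁₃.toFinset, d₁₄.toFinset, d₁₅.toFinset, d₁₆.toFinset, d₂₃.toFinset,
      d₂₄.toFinset, d₂₅.toFinset, d₂₆.toFinset, d₃₄.toFinset, d₃₅.toFinset, d₃₆.toFinset,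
      d₄₅.toFinset, d₄₆.toFinset, d₅₆.toFinset]⟩

lemma ev_subset {A : Set W} :
    {ω | Ev H A ω v x} ⊆ ⋃ a ∈ A, ⋃ z, OccL H [(v, z), (z, a), (a, x), (z, x)] := by
  intro ω h
  obtain ⟨a, ha, z, q₁, q₂, q₃, q₄, h₁, h₂, h₃, h₄, o₁, o₂, o₃, o₄, d₁₂, d₁₃, d₁₄, d₂₃, d₂₄, d₃₄⟩ :=
    ev_witness (show Ev H A ω v x from h)
  exact Set.mem_iUnion₂.2 ⟨a, ha, Set.mem_iUnion.2
    ⟨z, occ₄ h₁ h₂ h₃ h₄ o₁ o₂ o₃ o₄ d₁₂ d₁₃ d₁₄ d₂₃ d₂₄ d₃₄⟩⟩

lemma ev_conn_subset {A : Set W} {b : W} :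
    {ω | Ev H A ω v u ∧ Conn H ω v b} ⊆
      ⋃ a ∈ A, ⋃ z, ⋃ t, ⋃ l ∈ five v z a u t b, OccL H l := by
  intro ω h
  obtain ⟨hev, hb⟩ : Ev H A ω v u ∧ Conn H ω v b := h
  obtain ⟨a, ha, z, q₁, q₂, q₃, q₄, h₁, h₂, h₃, h₄, o₁, o₂, o₃, o₄, d₁₂, d₁₃, d₁₄, d₂₃, d₂₄, d₃₄⟩ :=
    ev_witness hev
  obtain ⟨R, hR⟩ := hb.symm
  obtain ⟨t, R', ht, hsub, hout⟩ := first_hit (Z := {y | y ∈ q₁.support ∨ y ∈ q₂.support ∨
    y ∈ q₃.support ∨ y ∈ q₄.support}) R (Or.inl q₁.start_mem_support)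
  set q₅ := R'.reverse.bypass with hq₅
  have h₅ : q₅.IsPath := Walk.bypass_isPath _
  have e₅ : ∀ f ∈ q₅.edges, f ∈ R'.edges := fun f hf => by
    have := Walk.edges_bypass_subset_edges _ hf
    rwa [Walk.edges_reverse, List.mem_reverse] at this
  have o₅ : Op H ω q₅ := fun f hf => hR f (hsub (e₅ f hf))
  have d : ∀ {c d : W} (q : H.Walk c d), (∀ y ∈ q.support, y ∈ {y | y ∈ q₁.support ∨
      y ∈ q₂.support ∨ y ∈ q₃.support ∨ y ∈ q₄.support}) → Disj q q₅ :=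
    fun q hq f hf hf' => not_mem_edges_of_outside hq (hout f (e₅ f hf')) hf
  have d₁₅ := d q₁ fun y hy => Or.inl hy
  have d₂₅ := d q₂ fun y hy => Or.inr (Or.inl hy)
  have d₃₅ := d q₃ fun y hy => Or.inr (Or.inr (Or.inl hy))
  have d₄₅ := d q₄ fun y hy => Or.inr (Or.inr (Or.inr hy))
  have hsd : ∀ {c d : W} {q : H.Walk c d} (hq : q.IsPath) (ht : t ∈ q.support),
      Disj (q.takeUntil t ht) (q.dropUntil t ht) :=
    fun hq ht f hf hf' => hq.isTrail.disjoint_edges_takeUntil_dropUntil ht hf hf'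
  refine Set.mem_iUnion₂.2 ⟨a, ha, Set.mem_iUnion.2 ⟨z, Set.mem_iUnion.2 ⟨t, ?_⟩⟩⟩
  have hs : ∀ {c d : W} (q : H.Walk c d), q.edges ⊆ q.edges := fun _ => List.Subset.refl _
  rcases ht with ht | ht | ht | ht
  · refine Set.mem_iUnion₂.2 ⟨_, by simp [five]; left; rfl, ?_⟩
    have k1 := q₁.edges_takeUntil_subset_edges ht
    have k2 := q₁.edges_dropUntil_subset_edges ht
    exact occ₆ (h₁.takeUntil ht) (h₁.dropUntil ht) h₂ h₃ h₄ h₅ (o₁.of_subset k1)
      (o₁.of_subset k2) o₂ o₃ o₄ o₅ (hsd h₁ ht) (d₁₂.mono k1 (hs _)) (d₁₃.mono k1 (hs _))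
      (d₁₄.mono k1 (hs _)) (d₁₅.mono k1 (hs _)) (d₁₂.mono k2 (hs _)) (d₁₃.mono k2 (hs _))
      (d₁₄.mono k2 (hs _)) (d₁₅.mono k2 (hs _)) d₂₃ d₂₄ d₂₅ d₃₄ d₃₅ d₄₅
  · refine Set.mem_iUnion₂.2 ⟨_, by simp [five]; right; left; rfl, ?_⟩
    have k1 := q₂.edges_takeUntil_subset_edges ht
    have k2 := q₂.edges_dropUntil_subset_edges ht
    exact occ₆ h₁ (h₂.takeUntil ht) (h₂.dropUntil ht) h₃ h₄ h₅ o₁ (o₂.of_subset k1)
      (o₂.of_subset k2) o₃ o₄ o₅ (d₁₂.mono (hs _) k1) (d₁₂.mono (hs _) k2) d₁₃ d₁₄ d₁₅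
      (hsd h₂ ht) (d₂₃.mono k1 (hs _)) (d₂₄.mono k1 (hs _)) (d₂₅.mono k1 (hs _))
      (d₂₃.mono k2 (hs _)) (d₂₄.mono k2 (hs _)) (d₂₅.mono k2 (hs _)) d₃₄ d₃₅ d₄₅
  · refine Set.mem_iUnion₂.2 ⟨_, by simp [five]; right; right; left; rfl, ?_⟩
    have k1 := q₃.edges_takeUntil_subset_edges ht
    have k2 := q₃.edges_dropUntil_subset_edges ht
    exact occ₆ h₁ h₂ (h₃.takeUntil ht) (h₃.dropUntil ht) h₄ h₅ o₁ o₂ (o₃.of_subset k1)
      (o₃.of_subset k2) o₄ o₅ d₁₂ (d₁₃.mono (hs _) k1) (d₁₃.mono (hs _) k2) d₁₄ d₁₅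
      (d₂₃.mono (hs _) k1) (d₂₃.mono (hs _) k2) d₂₄ d₂₅ (hsd h₃ ht) (d₃₄.mono k1 (hs _))
      (d₃₅.mono k1 (hs _)) (d₃₄.mono k2 (hs _)) (d₃₅.mono k2 (hs _)) d₄₅
  · refine Set.mem_iUnion₂.2 ⟨_, by simp [five]; right; right; right; rfl, ?_⟩
    have k1 := q₄.edges_takeUntil_subset_edges ht
    have k2 := q₄.edges_dropUntil_subset_edges ht
    exact occ₆ h₁ h₂ h₃ (h₄.takeUntil ht) (h₄.dropUntil ht) h₅ o₁ o₂ o₃ (o₄.of_subset k1)
      (o₄.of_subset k2) o₅ d₁₂ d₁₃ (d₁₄.mono (hs _) k1) (d₁₄.mono (hs _) k2) d₁₅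
      d₂₃ (d₂₄.mono (hs _) k1) (d₂₄.mono (hs _) k2) d₂₅
      (d₃₄.mono (hs _) k1) (d₃₄.mono (hs _) k2) d₃₅ (hsd h₄ ht) (d₄₅.mono k1 (hs _))
      (d₄₅.mono k2 (hs _))

lemma ev_univ_subset : {ω | Ev H Set.univ ω v x} ⊆ OccL H [(v, x), (v, x)] := by
  intro ω h
  obtain ⟨P, Q, hP, hQ, oP, oQ, d⟩ := two_disjoint (ev_univ_iff.1 (show Ev H Set.univ ω v x from h))
  exact occ₂ hP hQ oP oQ d

lemma ev_univ_conn_subset {b : W} :
    {ω | Ev H Set.univ ω v u ∧ Conn H ω v b} ⊆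
      ⋃ t, OccL H [(v, t), (t, u), (v, u), (t, b)] := by
  intro ω h
  obtain ⟨hev, hb⟩ : Ev H Set.univ ω v u ∧ Conn H ω v b := h
  obtain ⟨P, Q, hP, hQ, oP, oQ, dPQ⟩ := two_disjoint (ev_univ_iff.1 hev)
  obtain ⟨R, hR⟩ := hb.symm
  obtain ⟨t, R', ht, hsub, hout⟩ :=
    first_hit (Z := {y | y ∈ P.support ∨ y ∈ Q.support}) R (Or.inl P.start_mem_support)
  refine Set.mem_iUnion.2 ⟨t, ?_⟩
  have e₅ : ∀ f ∈ R'.reverse.bypass.edges, f ∈ R'.edges := fun f hf => by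
    have := Walk.edges_bypass_subset_edges _ hf
    rwa [Walk.edges_reverse, List.mem_reverse] at this
  have o₅ : Op H ω R'.reverse.bypass := fun f hf => hR f (hsub (e₅ f hf))
  have dP : Disj P R'.reverse.bypass := fun f hf hf' =>
    not_mem_edges_of_outside (Z := {y | y ∈ P.support ∨ y ∈ Q.support}) (fun y hy => Or.inl hy)
      (hout f (e₅ f hf')) hf
  have dQ : Disj Q R'.reverse.bypass := fun f hf hf' =>
    not_mem_edges_of_outside (Z := {y | y ∈ P.support ∨ y ∈ Q.support}) (fun y hy => Or.inr hy)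
      (hout f (e₅ f hf')) hf
  have key : ∀ {P Q : H.Walk v u}, P.IsPath → Q.IsPath → Op H ω P → Op H ω Q → Disj P Q →
      Disj P R'.reverse.bypass → Disj Q R'.reverse.bypass → t ∈ P.support →
      ω ∈ OccL H [(v, t), (t, u), (v, u), (t, b)] := by
    intro P Q hP hQ oP oQ d dP dQ ht
    have k1 := P.edges_takeUntil_subset_edges ht
    have k2 := P.edges_dropUntil_subset_edges ht
    exact occ₄ (hP.takeUntil ht) (hP.dropUntil ht) hQ (Walk.bypass_isPath _) (oP.of_subset k1)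
      (oP.of_subset k2) oQ o₅ (fun f hf hf' =>
        hP.isTrail.disjoint_edges_takeUntil_dropUntil ht hf hf')
      (d.mono k1 (List.Subset.refl _)) (dP.mono k1 (List.Subset.refl _))
      (d.mono k2 (List.Subset.refl _)) (dP.mono k2 (List.Subset.refl _)) dQ
  rcases ht with ht | ht
  · exact key hP hQ oP oQ dPQ dP dQ ht
  · exact key hQ hP oQ oP (fun f hf hf' => dPQ f hf' hf) dQ dP ht

/-- Two connections from `o` branch at some vertex. -/
lemma tree_subset {o c : W} :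
    {ω | Conn H ω o u ∧ Conn H ω o c} ⊆ ⋃ z, OccL H [(o, z), (z, u), (z, c)] := by
  intro ω h
  obtain ⟨hu, hc⟩ : Conn H ω o u ∧ Conn H ω o c := h
  obtain ⟨P, hP, oP⟩ := hu.exists_path
  obtain ⟨R, hR⟩ := hc.symm
  obtain ⟨z, R', hz, hsub, hout⟩ := first_hit (Z := {y | y ∈ P.support}) R P.start_mem_support
  refine Set.mem_iUnion.2 ⟨z, ?_⟩
  have e₃ : ∀ f ∈ R'.reverse.bypass.edges, f ∈ R'.edges := fun f hf => by
    have := Walk.edges_bypass_subset_edges _ hf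
    rwa [Walk.edges_reverse, List.mem_reverse] at this
  have dP : Disj P R'.reverse.bypass := fun f hf hf' =>
    not_mem_edges_of_outside (Z := {y | y ∈ P.support}) (fun y hy => hy) (hout f (e₃ f hf')) hf
  exact occ₃ (hP.takeUntil hz) (hP.dropUntil hz) (Walk.bypass_isPath _)
    (oP.of_subset (P.edges_takeUntil_subset_edges hz)) (oP.of_subset (P.edges_dropUntil_subset_edges hz))
    (fun f hf => hR f (hsub (e₃ f hf)))
    (fun f hf hf' => hP.isTrail.disjoint_edges_takeUntil_dropUntil hz hf hf')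
    (dP.mono (P.edges_takeUntil_subset_edges hz) (List.Subset.refl _))
    (dP.mono (P.edges_dropUntil_subset_edges hz) (List.Subset.refl _))

/-- The edge (y, y') is open and the pairs of the list are joined disjointly from it and from each
other. -/
def OccE (H : SimpleGraph W) (y y' : W) (l : List (W × W)) : Set (Sym2 W → Bool) :=
  {ω | ω s(y, y') = true ∧ ∃ Es : List (Finset (Sym2 W)), List.Forall₂ (Seg H ω) l Es ∧
    Es.Pairwise Disjoint ∧ ∀ E ∈ Es, s(y, y') ∉ E}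

omit [DecidableEq W] in
lemma occE_le [Countable W] (y y' : W) (l : List (W × W)) :
    perc W p (OccE H y y' l) ≤ ENNReal.ofReal p * (l.map fun e => tau H p e.1 e.2).prod := by
  let F : Fin (l.length + 1) → Set (Finset (Sym2 W)) :=
    Fin.cons {{s(y, y')}} fun i => pathFam H (l.get i).1 (l.get i).2
  refine le_trans (measure_mono (t := disjOcc F) ?_) ((bk (p := p) F).trans (le_of_eq ?_))
  · rintro ω ⟨ho, Es, hF, hd, he⟩
    have hl : l.length = Es.length := hF.length_eq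
    have hs : ∀ i : Fin l.length, Seg H ω (l.get i) (Es.get (Fin.cast hl i)) := fun i =>
      hF.get i.2 (hl ▸ i.2)
    refine ⟨Fin.cons {s(y, y')} fun i => Es.get (Fin.cast hl i), Fin.cases (by simp [F])
      fun i => by simpa [F] using (hs i).1, Fin.cases (by simp [ho]) fun i => by simpa using (hs i).2,
      ?_⟩
    intro i j hij
    induction i using Fin.cases with
    | zero =>
      induction j using Fin.cases with
      | zero => exact absurd rfl hij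
      | succ j =>
        rw [Fin.cons_zero, Fin.cons_succ, Finset.disjoint_singleton_left]
        exact he _ (List.get_mem _ _)
    | succ i =>
      induction j using Fin.cases with
      | zero =>
        rw [Fin.cons_zero, Fin.cons_succ, Finset.disjoint_singleton_right]
        exact he _ (List.get_mem _ _)
      | succ j =>
        rw [Fin.cons_succ, Fin.cons_succ]
        rcases lt_or_gt_of_ne (fun h => hij (congrArg Fin.succ (Fin.ext h)) : (i : ℕ) ≠ j) with h | h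
        · exact List.pairwise_iff_get.1 hd _ _ h
        · exact (List.pairwise_iff_get.1 hd _ _ h).symm
  · rw [Fin.prod_univ_succ]
    congr 1
    · have : openOcc (F 0) = isOpen s(y, y') := by ext ω; simp [F, openOcc, isOpen]
      rw [this, bern_isOpen]
    · rw [← Fin.prod_ofFn]
      congr 1
      refine List.ext_getElem (by simp) fun i _ _ => ?_
      simp only [F, Fin.cons_succ, openOcc_pathFam, List.getElem_ofFn, List.getElem_map]
      rfl

omit [DecidableEq W] in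
/-- A walk splits at each of its darts. -/
lemma exists_split_dart {q : H.Walk a b} {d : H.Dart} (hd : d ∈ q.darts) :
    ∃ (q₁ : H.Walk a d.fst) (q₂ : H.Walk d.snd b), q = q₁.append (Walk.cons d.adj q₂) := by
  induction q with
  | nil => simp at hd
  | @cons a c b h q ih =>
    rw [Walk.darts_cons, List.mem_cons] at hd
    rcases hd with rfl | hd
    · exact ⟨.nil, q, rfl⟩
    · obtain ⟨q₁, q₂, hq⟩ := ih hd
      exact ⟨.cons h q₁, q₂, by simp [hq]⟩

omit [DecidableEq W] in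
lemma le_sum_darts (d : W → W → ℝ≥0) (h0 : ∀ x, d x x = 0)
    (htri : ∀ x y z, d x z ≤ d x y + d y z) (q : H.Walk a b) :
    d a b ≤ (q.darts.map fun e => d e.fst e.snd).sum := by
  induction q with
  | nil => simp [h0]
  | @cons a c b h q ih =>
    simp only [Walk.darts_cons, List.map_cons, List.sum_cons]
    exact (htri a c b).trans (add_le_add_right ih _)

/-- On an open path, the squared length of its span is bounded by the marked steps. -/
lemma insertion_pointwise (d : W → W → ℝ≥0) (h0 : ∀ x, d x x = 0)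
    (htri : ∀ x y z, d x z ≤ d x y + d y z) (h : Conn H ω v x) :
    ((d v x : ℝ≥0∞)) ^ 2 ≤ ∑' e : H.Dart, (d e.fst e.snd : ℝ≥0∞) ^ 2 *
      ∑' z : W, ((OccE H e.fst e.snd [(v, z), (z, e.fst), (e.snd, x)]).indicator 1 ω
        + (OccE H e.fst e.snd [(v, e.fst), (e.snd, z), (z, x)]).indicator 1 ω) := by
  classical
  obtain ⟨q, hp, hq⟩ := h.exists_path
  have hnd : q.darts.Nodup := List.Nodup.of_map _ hp.isTrail.edges_nodup
  have hsum : d v x ≤ ∑ e ∈ q.darts.toFinset, d e.fst e.snd := by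
    rw [List.sum_toFinset _ hnd]
    exact le_sum_darts d h0 htri q
  have hcard : q.darts.toFinset.card = q.length := by
    rw [List.toFinset_card_of_nodup hnd, Walk.length_darts]
  have hsq : (d v x) ^ 2 ≤ ∑ e ∈ q.darts.toFinset, (d e.fst e.snd) ^ 2 * (q.length : ℝ≥0) :=
    calc (d v x) ^ 2 ≤ (∑ e ∈ q.darts.toFinset, d e.fst e.snd) ^ 2 :=
          pow_le_pow_left₀ zero_le hsum 2
      _ ≤ q.darts.toFinset.card * ∑ e ∈ q.darts.toFinset, (d e.fst e.snd) ^ 2 :=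
          sq_sum_le_card_mul_sum_sq
      _ = _ := by rw [hcard, Finset.mul_sum]; exact Finset.sum_congr rfl fun _ _ => mul_comm _ _
  have hsq' : (d v x : ℝ≥0∞) ^ 2 ≤
      ∑ e ∈ q.darts.toFinset, (d e.fst e.snd : ℝ≥0∞) ^ 2 * (q.length : ℝ≥0∞) := by
    exact_mod_cast hsq
  refine hsq'.trans ?_
  refine (Finset.sum_le_sum fun e he => ?_).trans (ENNReal.sum_le_tsum _)
  refine mul_le_mul_right ?_ _
  obtain ⟨q₁, q₂, hs⟩ := exists_split_dart (List.mem_toFinset.1 he)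
  subst hs
  have hn := hp.isTrail.edges_nodup
  rw [Walk.edges_append, Walk.edges_cons, List.nodup_append, List.nodup_cons] at hn
  have hp₁ : q₁.IsPath := hp.of_append_left
  have hp₂ : q₂.IsPath := hp.of_append_right.of_cons
  have ho₁ : Op H ω q₁ := hq.of_subset (by simp)
  have ho₂ : Op H ω q₂ := hq.of_subset (by simp +contextual)
  have hoe : ω s(e.fst, e.snd) = true := hq _ (by simp)
  have hne₁ : s(e.fst, e.snd) ∉ q₁.edges := fun hm => hn.2.2 _ hm _ List.mem_cons_self rfl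
  have hne₂ : s(e.fst, e.snd) ∉ q₂.edges := hn.2.1.1
  have d12 : Disj q₁ q₂ := fun f hf hf' => hn.2.2 f hf f (List.mem_cons_of_mem _ hf') rfl
  rw [ENNReal.tsum_add]
  have hA : (q₁.support.toFinset.card : ℝ≥0∞)
      ≤ ∑' z, (OccE H e.fst e.snd [(v, z), (z, e.fst), (e.snd, x)]).indicator 1 ω := by
    refine le_trans (le_of_eq ?_) (ENNReal.sum_le_tsum q₁.support.toFinset)
    rw [Finset.card_eq_sum_ones, Nat.cast_sum, Nat.cast_one]
    refine Finset.sum_congr rfl fun z hz => ?_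
    rw [List.mem_toFinset] at hz
    have hk : ω ∈ OccE H e.fst e.snd [(v, z), (z, e.fst), (e.snd, x)] := by
      refine ⟨hoe, [(q₁.takeUntil z hz).edges.toFinset, (q₁.dropUntil z hz).edges.toFinset,
        q₂.edges.toFinset], .cons (seg_of_path (hp₁.takeUntil hz) (ho₁.of_subset
          (q₁.edges_takeUntil_subset_edges hz))) (.cons (seg_of_path (hp₁.dropUntil hz)
          (ho₁.of_subset (q₁.edges_dropUntil_subset_edges hz))) (.cons (seg_of_path hp₂ ho₂) .nil)),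
        ?_, ?_⟩
      · have a1 : Disj (q₁.takeUntil z hz) (q₁.dropUntil z hz) := fun f hf hf' =>
          hp₁.isTrail.disjoint_edges_takeUntil_dropUntil hz hf hf'
        simp [a1.toFinset, (d12.mono (q₁.edges_takeUntil_subset_edges hz) (List.Subset.refl _)).toFinset,
          (d12.mono (q₁.edges_dropUntil_subset_edges hz) (List.Subset.refl _)).toFinset]
      · simpa [hne₂] using ⟨fun h' => hne₁ (q₁.edges_takeUntil_subset_edges hz h'),
          fun h' => hne₁ (q₁.edges_dropUntil_subset_edges hz h')⟩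
    simp [hk]
  have hB : (q₂.support.toFinset.card : ℝ≥0∞)
      ≤ ∑' z, (OccE H e.fst e.snd [(v, e.fst), (e.snd, z), (z, x)]).indicator 1 ω := by
    refine le_trans (le_of_eq ?_) (ENNReal.sum_le_tsum q₂.support.toFinset)
    rw [Finset.card_eq_sum_ones, Nat.cast_sum, Nat.cast_one]
    refine Finset.sum_congr rfl fun z hz => ?_
    rw [List.mem_toFinset] at hz
    have hk : ω ∈ OccE H e.fst e.snd [(v, e.fst), (e.snd, z), (z, x)] := by
      refine ⟨hoe, [q₁.edges.toFinset, (q₂.takeUntil z hz).edges.toFinset,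
        (q₂.dropUntil z hz).edges.toFinset], .cons (seg_of_path hp₁ ho₁)
          (.cons (seg_of_path (hp₂.takeUntil hz) (ho₂.of_subset
          (q₂.edges_takeUntil_subset_edges hz))) (.cons (seg_of_path (hp₂.dropUntil hz)
          (ho₂.of_subset (q₂.edges_dropUntil_subset_edges hz))) .nil)),
        ?_, ?_⟩
      · have a1 : Disj (q₂.takeUntil z hz) (q₂.dropUntil z hz) := fun f hf hf' =>
          hp₂.isTrail.disjoint_edges_takeUntil_dropUntil hz hf hf'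
        simp [a1.toFinset, (d12.mono (List.Subset.refl _) (q₂.edges_takeUntil_subset_edges hz)).toFinset,
          (d12.mono (List.Subset.refl _) (q₂.edges_dropUntil_subset_edges hz)).toFinset]
      · simpa [hne₁] using ⟨fun h' => hne₂ (q₂.edges_takeUntil_subset_edges hz h'),
          fun h' => hne₂ (q₂.edges_dropUntil_subset_edges hz h')⟩
    simp [hk]
  refine le_trans ?_ (add_le_add hA hB)
  rw [List.toFinset_card_of_nodup hp₁.support_nodup, List.toFinset_card_of_nodup hp₂.support_nodup,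
    Walk.length_support, Walk.length_support, Walk.length_append, Walk.length_cons, ← Nat.cast_add]
  exact_mod_cast (by omega : q₁.length + (q₂.length + 1) ≤ q₁.length + 1 + (q₂.length + 1))

/-- The first edge of a connection. -/
lemma first_edge_subset (hab : a ≠ b) :
    {ω | Conn H ω a b} ⊆ ⋃ w ∈ H.neighborSet a, OccE H a w [(w, b)] := by
  intro ω h
  obtain ⟨q, hp, hq⟩ := (show Conn H ω a b from h).exists_path
  cases q with
  | nil => exact absurd rfl hab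
  | @cons _ c _ hac q =>
    refine Set.mem_iUnion₂.2 ⟨c, hac, hq _ (by simp), [q.edges.toFinset],
      .cons (seg_of_path hp.of_cons (hq.of_subset (by simp))) .nil, by simp, ?_⟩
    have := hp.isTrail.edges_nodup
    rw [Walk.edges_cons, List.nodup_cons] at this
    simpa using this.1

end Vale.Agent.P151
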