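import Mathlib

/-!
Return probabilities of the lazy walk on the spread-out Cayley graphs of a group of polynomial
growth of degree at least `2 k`: the bound `C / (n + 1) ^ k`, uniform in the spreading radius.
-/

namespace Vale.Agent.P151.Return

open Finset Pointwise

variable {Γ : Type} [Group Γ]

/-- The average of `f` over the translates by elements of `T`. -/
noncomputable def avg (T : Finset Γ) (f : Γ → ℝ) (x : Γ) : ℝ := (∑ t ∈ T, f (x * t)) / #T

/-- One step of the lazy walk. -/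
noncomputable def lazy (T : Finset Γ) (f : Γ → ℝ) (x : Γ) : ℝ := (f x + avg T f x) / 2

/-- The distribution of the lazy walk from `1` after `n` steps. -/
noncomputable def walk [DecidableEq Γ] (T : Finset Γ) : ℕ → Γ → ℝ
  | 0 => Pi.single 1 1
  | n + 1 => lazy T (walk T n)

/-- The squared `ℓ²` norm of the increment of `f` along `t`. -/
noncomputable def inc (f : Γ → ℝ) (t : Γ) : ℝ := ∑' x, (f (x * t) - f x) ^ 2

/-- The inner product. -/
noncomputable def ip (f g : Γ → ℝ) : ℝ := ∑' x, f x * g x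

/-- Finite support. -/
abbrev Fin0 (f : Γ → ℝ) : Prop := (Function.support f).Finite

omit [Group Γ] in
lemma summable_of_fin0 {f : Γ → ℝ} (h : Fin0 f) : Summable f := summable_of_hasFiniteSupport h

lemma fin0_shift {f : Γ → ℝ} (h : Fin0 f) (t : Γ) : Fin0 fun x => f (x * t) :=
  (h.preimage (mul_left_injective t).injOn).subset fun _ hx => hx

omit [Group Γ] in
lemma fin0_mul_left {f : Γ → ℝ} (h : Fin0 f) (g : Γ → ℝ) : Fin0 fun x => f x * g x :=
  h.subset fun _ hx => fun h0 => hx (by simp [h0])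

omit [Group Γ] in
lemma fin0_sq {f : Γ → ℝ} (h : Fin0 f) : Fin0 fun x => f x ^ 2 :=
  h.subset fun _ hx => fun h0 => hx (by simp [h0])

lemma fin0_sub_shift {f : Γ → ℝ} (h : Fin0 f) (t u : Γ) : Fin0 fun x => f (x * t) - f (x * u) :=
  ((fin0_shift h t).union (fin0_shift h u)).subset (Function.support_sub _ _)

lemma tsum_shift (f : Γ → ℝ) (t : Γ) : ∑' x, f (x * t) = ∑' x, f x :=
  (Equiv.mulRight t).tsum_eq f

lemma inc_nonneg (f : Γ → ℝ) (t : Γ) : 0 ≤ inc f t := tsum_nonneg fun _ => sq_nonneg _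

lemma inc_one (f : Γ → ℝ) : inc f 1 = 0 := by simp [inc]

lemma inc_eq {f : Γ → ℝ} (hf : Fin0 f) (t : Γ) :
    inc f t = 2 * ip f f - 2 * ip f (fun x => f (x * t)) := by
  have e : ∀ x, (f (x * t) - f x) ^ 2
      = f (x * t) * f (x * t) + f x * f x - 2 * (f x * f (x * t)) := fun x => by ring
  have s1 := summable_of_fin0 (fin0_mul_left (fin0_shift hf t) fun x => f (x * t))
  have s2 := summable_of_fin0 (fin0_mul_left hf f)
  have s3 := summable_of_fin0 (fin0_mul_left hf fun x => f (x * t))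
  rw [inc, tsum_congr e, (s1.add s2).tsum_sub (s3.mul_left 2), s1.tsum_add s2, tsum_mul_left,
    tsum_shift (fun x => f x * f x) t]
  unfold ip
  ring

lemma inc_mul_le {f : Γ → ℝ} (hf : Fin0 f) (u s : Γ) {a : ℝ} (ha : 0 < a) :
    inc f (u * s) ≤ (1 + 1 / a) * inc f u + (1 + a) * inc f s := by
  have e : ∀ x, (f (x * (u * s)) - f x) ^ 2
      ≤ (1 + 1 / a) * (f (x * u) - f x) ^ 2 + (1 + a) * (f (x * u * s) - f (x * u)) ^ 2 := by
    intro x
    set A := f (x * u) - f x
    set B := f (x * u * s) - f (x * u)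
    have : f (x * (u * s)) - f x = A + B := by simp [A, B, mul_assoc]
    rw [this]
    have h : 0 ≤ (A - a * B) ^ 2 / a := div_nonneg (sq_nonneg _) ha.le
    have : (A - a * B) ^ 2 / a = A ^ 2 / a - 2 * A * B + a * B ^ 2 := by field_simp; ring
    have : 1 / a * A ^ 2 = A ^ 2 / a := by ring
    nlinarith
  have s1 : Summable fun x => (f (x * u) - f x) ^ 2 :=
    summable_of_fin0 (fin0_sq (by simpa using fin0_sub_shift hf u 1))
  have s2 : Summable fun x => (f (x * u * s) - f (x * u)) ^ 2 := by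
    simpa only [mul_assoc] using summable_of_fin0 (fin0_sq (fin0_sub_shift hf (u * s) u))
  have s0 : Summable fun x => (f (x * (u * s)) - f x) ^ 2 :=
    summable_of_fin0 (fin0_sq (by simpa using fin0_sub_shift hf (u * s) 1))
  refine (s0.tsum_le_tsum e ((s1.mul_left _).add (s2.mul_left _))).trans_eq ?_
  rw [(s1.mul_left _).tsum_add (s2.mul_left _), tsum_mul_left, tsum_mul_left,
    tsum_shift (fun x => (f (x * s) - f x) ^ 2) u]
  rfl

variable [DecidableEq Γ]

/-- The ball of radius `n` for the word metric of `S`. -/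
def wball (S : Finset Γ) : ℕ → Finset Γ
  | 0 => {1}
  | n + 1 => wball S n ∪ wball S n * S

lemma one_mem_wball (S : Finset Γ) : ∀ n, (1 : Γ) ∈ wball S n
  | 0 => mem_singleton_self _
  | n + 1 => mem_union_left _ (one_mem_wball S n)

lemma wball_mono (S : Finset Γ) : Monotone (wball S) :=
  monotone_nat_of_le_succ fun _ => subset_union_left

lemma mul_mem_wball (S : Finset Γ) {m : ℕ} {u : Γ} (hu : u ∈ wball S m) :
    ∀ {n : ℕ} {v : Γ}, v ∈ wball S n → u * v ∈ wball S (m + n)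
  | 0, v, hv => by simpa [mem_singleton.1 hv] using hu
  | n + 1, v, hv => by
    rcases mem_union.1 hv with h | h
    · exact mem_union_left _ (mul_mem_wball S hu h)
    · obtain ⟨w, hw, s, hs, rfl⟩ := mem_mul.1 h
      exact mem_union_right _ (mem_mul.2 ⟨u * w, mul_mem_wball S hu hw, s, hs, mul_assoc _ _ _⟩)

lemma mem_wball_one {S : Finset Γ} {s : Γ} (hs : s ∈ S) : s ∈ wball S 1 :=
  mem_union_right _ (mem_mul.2 ⟨1, mem_singleton_self _, s, hs, one_mul _⟩)

lemma inv_mem_wball {S : Finset Γ} (hS : ∀ s ∈ S, s⁻¹ ∈ S) :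
    ∀ {n : ℕ} {v : Γ}, v ∈ wball S n → v⁻¹ ∈ wball S n
  | 0, v, hv => by simp [mem_singleton.1 hv, wball]
  | n + 1, v, hv => by
    rcases mem_union.1 hv with h | h
    · exact mem_union_left _ (inv_mem_wball hS h)
    · obtain ⟨w, hw, s, hs, rfl⟩ := mem_mul.1 h
      have := mul_mem_wball S (mem_wball_one (hS s hs)) (inv_mem_wball hS hw)
      rw [mul_inv_rev, add_comm n 1]
      exact this

lemma card_wball_succ (S : Finset Γ) (n : ℕ) : #(wball S (n + 1)) ≤ (#S + 1) * #(wball S n) := by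
  refine (card_union_le _ _).trans ?_
  have := card_mul_le (s := wball S n) (t := S)
  linarith

/-- An increment along a word of length `n` costs `n ^ 2` increments along generators. -/
lemma inc_wball_le {S : Finset Γ} {f : Γ → ℝ} (hf : Fin0 f) {K : ℝ} (hK0 : 0 ≤ K)
    (hK : ∀ s ∈ S, inc f s ≤ K) : ∀ {n : ℕ} {v : Γ}, v ∈ wball S n → inc f v ≤ (n : ℝ) ^ 2 * K
  | 0, v, hv => by simp [mem_singleton.1 hv, inc_one]
  | n + 1, v, hv => by
    have hmono : (n : ℝ) ^ 2 * K ≤ ((n + 1 : ℕ) : ℝ) ^ 2 * K := by gcongr; simp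
    rcases mem_union.1 hv with h | h
    · exact (inc_wball_le hf hK0 hK h).trans hmono
    · obtain ⟨w, hw, s, hs, rfl⟩ := mem_mul.1 h
      rcases Nat.eq_zero_or_pos n with rfl | hn
      · rw [mem_singleton.1 hw, one_mul]
        simpa using hK s hs
      have hn' : (0 : ℝ) < n := Nat.cast_pos.2 hn
      calc inc f (w * s) ≤ (1 + 1 / (n : ℝ)) * inc f w + (1 + n) * inc f s := inc_mul_le hf w s hn'
        _ ≤ (1 + 1 / (n : ℝ)) * ((n : ℝ) ^ 2 * K) + (1 + n) * K := by
          gcongr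
          exacts [inc_wball_le hf hK0 hK hw, hK s hs]
        _ = _ := by push_cast; field_simp; ring

/-- Generators are controlled by the spread-out form, uniformly in the radius. -/
lemma inc_le_spread {S : Finset Γ} (hS : ∀ s ∈ S, s⁻¹ ∈ S) {f : Γ → ℝ} (hf : Fin0 f) {s : Γ}
    (hs : s ∈ S) (R : ℕ) :
    inc f s ≤ 4 * (#S + 1) *
      ((∑ t ∈ (wball S (R + 1)).erase 1, inc f t) / #((wball S (R + 1)).erase 1)) := by
  set B := wball S (R + 1)
  set U := wball S R
  set E := ∑ t ∈ B.erase 1, inc f t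
  have hU : (0 : ℝ) < #U := Nat.cast_pos.2 (card_pos.2 ⟨1, one_mem_wball S R⟩)
  have hBE : ∑ t ∈ B, inc f t = E := by
    rw [← add_sum_erase B _ (one_mem_wball S (R + 1)), inc_one, zero_add]
  have hle : ∀ u ∈ U, inc f s ≤ 2 * inc f (s * u) + 2 * inc f u⁻¹ := by
    intro u _
    have := inc_mul_le hf (s * u) u⁻¹ one_pos
    rw [mul_inv_cancel_right] at this
    linarith
  have hsum : (#U : ℝ) * inc f s ≤ 4 * E := by
    calc (#U : ℝ) * inc f s = ∑ _u ∈ U, inc f s := by rw [sum_const, nsmul_eq_mul]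
      _ ≤ ∑ u ∈ U, (2 * inc f (s * u) + 2 * inc f u⁻¹) := sum_le_sum hle
      _ = 2 * ∑ v ∈ U.image (s * ·), inc f v + 2 * ∑ v ∈ U.image (·⁻¹), inc f v := by
        rw [sum_add_distrib, mul_sum, mul_sum, sum_image (mul_right_injective s).injOn,
          sum_image inv_injective.injOn]
      _ ≤ 2 * ∑ v ∈ B, inc f v + 2 * ∑ v ∈ B, inc f v := by
        gcongr with v hv v hv
        · exact fun v _ _ => inc_nonneg f v
        · intro v hv
          obtain ⟨u, hu, rfl⟩ := mem_image.1 hv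
          have := mul_mem_wball S (mem_wball_one hs) hu
          rwa [add_comm 1 R] at this
        · exact fun v _ _ => inc_nonneg f v
        · intro v hv
          obtain ⟨u, hu, rfl⟩ := mem_image.1 hv
          exact wball_mono S (Nat.le_succ R) (inv_mem_wball hS hu)
      _ = 4 * E := by rw [hBE]; ring
  have hE : 0 ≤ E := sum_nonneg fun t _ => inc_nonneg f t
  have hcard : (#(B.erase 1) : ℝ) ≤ (#S + 1) * #U := by
    exact_mod_cast (card_le_card (erase_subset _ _)).trans (card_wball_succ S R)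
  rcases (B.erase 1).eq_empty_or_nonempty with h0 | h0
  · have : E = 0 := by simp [E, h0]
    have : inc f s = 0 := le_antisymm (by nlinarith) (inc_nonneg f s)
    simp [this, h0]
  have hT : (0 : ℝ) < #(B.erase 1) := Nat.cast_pos.2 (card_pos.2 h0)
  rw [← mul_div_assoc, le_div_iff₀ hT]
  nlinarith [mul_le_mul_of_nonneg_left hcard (inc_nonneg f s)]

/-- The Nash-type inequality: a normalised nonnegative function has small norm or large energy. -/
lemma ip_self_le {S : Finset Γ} {f : Γ → ℝ} (hf : Fin0 f) (h0 : ∀ x, 0 ≤ f x)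
    (h1 : ∑' x, f x = 1) {K : ℝ} (hK0 : 0 ≤ K) (hK : ∀ s ∈ S, inc f s ≤ K) (r : ℕ) :
    ip f f ≤ (r : ℝ) ^ 2 * K / 2 + 1 / #(wball S r) := by
  set B := wball S r
  have hB : (0 : ℝ) < #B := Nat.cast_pos.2 (card_pos.2 ⟨1, one_mem_wball S r⟩)
  have hcross : ∑ u ∈ B, ip f (fun x => f (x * u)) ≤ 1 := by
    have hs : ∀ u, Summable fun x => f x * f (x * u) := fun u =>
      summable_of_fin0 (fin0_mul_left hf _)
    unfold ip
    rw [← Summable.tsum_finsetSum fun u _ => hs u, ← h1]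
    refine (summable_sum fun u _ => hs u).tsum_le_tsum (fun x => ?_) (summable_of_fin0 hf)
    rw [← mul_sum]
    refine mul_le_of_le_one_right (h0 x) ?_
    rw [← sum_image (f := f) (mul_right_injective x).injOn]
    exact (((summable_of_fin0 hf).sum_le_tsum _ fun y _ => h0 y)).trans_eq h1
  have hs : (#B : ℝ) * ip f f ≤ (#B : ℝ) * ((r : ℝ) ^ 2 * K / 2) + 1 := by
    calc (#B : ℝ) * ip f f = ∑ u ∈ B, (inc f u / 2 + ip f fun x => f (x * u)) := by
          rw [sum_congr rfl fun u _ => (by rw [inc_eq hf]; ring :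
            inc f u / 2 + ip f (fun x => f (x * u)) = ip f f), sum_const, nsmul_eq_mul]
      _ ≤ (∑ u ∈ B, (r : ℝ) ^ 2 * K / 2) + 1 := by
          rw [sum_add_distrib]
          gcongr with u hu
          exact inc_wball_le hf hK0 hK hu
      _ = _ := by rw [sum_const, nsmul_eq_mul]
  refine le_of_mul_le_mul_left ?_ hB
  rwa [mul_add, mul_one_div_cancel hB.ne']

omit [DecidableEq Γ] in
lemma lazy_nonneg {T : Finset Γ} {f : Γ → ℝ} (h : ∀ x, 0 ≤ f x) (x : Γ) : 0 ≤ lazy T f x :=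
  div_nonneg (add_nonneg (h x) (div_nonneg (sum_nonneg fun _ _ => h _) (Nat.cast_nonneg _)))
    zero_le_two

omit [DecidableEq Γ] in
lemma fin0_avg {f : Γ → ℝ} (hf : Fin0 f) (T : Finset Γ) : Fin0 (avg T f) := by
  refine ((T.finite_toSet).biUnion fun t _ => fin0_shift hf t).subset fun x hx => ?_
  by_contra h
  simp only [Set.mem_iUnion, Function.mem_support, ne_eq, exists_prop, not_exists, not_and,
    not_not, SetLike.mem_coe] at h
  exact hx (by simp [avg, sum_eq_zero h])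

omit [DecidableEq Γ] in
lemma fin0_lazy {f : Γ → ℝ} (hf : Fin0 f) (T : Finset Γ) : Fin0 (lazy T f) :=
  (hf.union (fin0_avg hf T)).subset fun x hx => by
    by_contra h
    simp only [Set.mem_union, Function.mem_support, ne_eq, not_or, not_not] at h
    exact hx (by simp [lazy, h.1, h.2])

omit [DecidableEq Γ] in
lemma ip_avg {T : Finset Γ} {f g : Γ → ℝ} (hf : Fin0 f) :
    ip f (avg T g) = (∑ t ∈ T, ip f fun x => g (x * t)) / #T := by
  unfold ip avg
  rw [← Summable.tsum_finsetSum fun t _ => summable_of_fin0 (fin0_mul_left hf _), ← tsum_div_const]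
  refine tsum_congr fun x => ?_
  rw [mul_div_assoc', mul_sum]

omit [DecidableEq Γ] in
lemma ip_avg_comm {T : Finset Γ} (hT : ∀ t ∈ T, t⁻¹ ∈ T) {f g : Γ → ℝ} (hf : Fin0 f)
    (hg : Fin0 g) : ip f (avg T g) = ip g (avg T f) := by
  rw [ip_avg hf, ip_avg hg]
  congr 1
  refine sum_nbij' (·⁻¹) (·⁻¹) hT hT (by simp) (by simp) fun t _ => ?_
  unfold ip
  rw [← tsum_shift (fun x => f x * g (x * t)) t⁻¹]
  exact tsum_congr fun x => by rw [inv_mul_cancel_right, mul_comm]

omit [Group Γ] [DecidableEq Γ] in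
lemma ip_comm (f g : Γ → ℝ) : ip f g = ip g f := tsum_congr fun _ => mul_comm _ _

omit [DecidableEq Γ] in
lemma ip_lazy {T : Finset Γ} {f g : Γ → ℝ} (hf : Fin0 f) :
    ip f (lazy T g) = (ip f g + ip f (avg T g)) / 2 := by
  unfold ip lazy
  rw [← (summable_of_fin0 (fin0_mul_left hf g)).tsum_add (summable_of_fin0 (fin0_mul_left hf _)),
    ← tsum_div_const]
  exact tsum_congr fun x => by ring

omit [DecidableEq Γ] in
lemma ip_lazy_comm {T : Finset Γ} (hT : ∀ t ∈ T, t⁻¹ ∈ T) {f g : Γ → ℝ} (hf : Fin0 f)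
    (hg : Fin0 g) : ip f (lazy T g) = ip g (lazy T f) := by
  rw [ip_lazy hf, ip_lazy hg, ip_comm f g, ip_avg_comm hT hf hg]

omit [Group Γ] [DecidableEq Γ] in
lemma sum_sq_div_le (T : Finset Γ) (a : Γ → ℝ) :
    ((∑ t ∈ T, a t) / #T) ^ 2 ≤ (∑ t ∈ T, a t ^ 2) / #T := by
  rcases T.eq_empty_or_nonempty with rfl | h
  · simp
  have hT : (0 : ℝ) < #T := Nat.cast_pos.2 (card_pos.2 h)
  rw [div_pow, div_le_div_iff₀ (by positivity) hT, sq (#T : ℝ), ← mul_assoc]
  refine mul_le_mul_of_nonneg_right ?_ hT.le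
  rw [mul_comm _ (#T : ℝ)]
  exact sq_sum_le_card_mul_sum_sq

omit [DecidableEq Γ] in
lemma ip_avg_avg_le {T : Finset Γ} (hT : T.Nonempty) {f : Γ → ℝ} (hf : Fin0 f) :
    ip (avg T f) (avg T f) ≤ ip f f := by
  have hs : ∀ t, Summable fun x => f (x * t) ^ 2 := fun t =>
    summable_of_fin0 (fin0_sq (fin0_shift hf t))
  have h : ∀ x, avg T f x * avg T f x ≤ (∑ t ∈ T, f (x * t) ^ 2) / #T := fun x => by
    rw [← sq]; exact sum_sq_div_le T _
  refine ((summable_of_fin0 (fin0_mul_left (fin0_avg hf T) _)).tsum_le_tsum h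
    ((summable_sum fun t _ => hs t).div_const _)).trans_eq ?_
  have : (#T : ℝ) ≠ 0 := Nat.cast_ne_zero.2 (card_ne_zero.2 hT)
  rw [tsum_div_const, Summable.tsum_finsetSum fun t _ => hs t,
    sum_congr rfl fun t _ => tsum_shift (fun x => f x ^ 2) t, sum_const, nsmul_eq_mul,
    mul_div_cancel_left₀ _ this]
  exact tsum_congr fun x => sq (f x)

omit [DecidableEq Γ] in
/-- One lazy step loses at least a quarter of the energy. -/
lemma ip_lazy_lazy_le {T : Finset Γ} (hT : T.Nonempty) {f : Γ → ℝ} (hf : Fin0 f) :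
    ip (lazy T f) (lazy T f) ≤ ip f f - ((∑ t ∈ T, inc f t) / #T) / 4 := by
  have s1 := summable_of_fin0 (fin0_mul_left hf f)
  have s2 := summable_of_fin0 (fin0_mul_left hf (avg T f))
  have s3 := summable_of_fin0 (fin0_mul_left (fin0_avg hf T) (avg T f))
  have e : ip (lazy T f) (lazy T f)
      = ip f f / 4 + ip f (avg T f) / 2 + ip (avg T f) (avg T f) / 4 := by
    unfold ip
    rw [← tsum_div_const, ← tsum_div_const, ← tsum_div_const,
      ← (s1.div_const _).tsum_add (s2.div_const _),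
      ← ((s1.div_const _).add (s2.div_const _)).tsum_add (s3.div_const _)]
    exact tsum_congr fun x => by unfold lazy; ring
  have hne : (#T : ℝ) ≠ 0 := Nat.cast_ne_zero.2 (card_ne_zero.2 hT)
  have hd : (∑ t ∈ T, inc f t) / #T = 2 * ip f f - 2 * ip f (avg T f) := by
    rw [sum_congr rfl fun t _ => inc_eq hf t, ip_avg hf, sum_sub_distrib, sum_const,
      nsmul_eq_mul, ← mul_sum]
    field_simp
  rw [e, hd]
  linarith [ip_avg_avg_le hT hf]

lemma fin0_walk (T : Finset Γ) : ∀ n, Fin0 (walk T n)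
  | 0 => (Set.finite_singleton (1 : Γ)).subset fun x hx => by
      by_contra h
      exact hx (Pi.single_eq_of_ne h 1)
  | n + 1 => fin0_lazy (fin0_walk T n) T

lemma walk_nonneg (T : Finset Γ) : ∀ n x, 0 ≤ walk T n x
  | 0, x => by by_cases h : x = 1 <;> simp [walk, h]
  | n + 1, x => lazy_nonneg (walk_nonneg T n) x

omit [DecidableEq Γ] in
lemma tsum_lazy {T : Finset Γ} (hT : T.Nonempty) {f : Γ → ℝ} (hf : Fin0 f) :
    ∑' x, lazy T f x = ∑' x, f x := by
  have hne : (#T : ℝ) ≠ 0 := Nat.cast_ne_zero.2 (card_ne_zero.2 hT)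
  have : ∑' x, avg T f x = ∑' x, f x := by
    unfold avg
    rw [tsum_div_const, Summable.tsum_finsetSum fun t _ => summable_of_fin0 (fin0_shift hf t),
      sum_congr rfl fun t _ => tsum_shift f t, sum_const, nsmul_eq_mul, mul_div_cancel_left₀ _ hne]
  unfold lazy
  rw [tsum_div_const, (summable_of_fin0 hf).tsum_add (summable_of_fin0 (fin0_avg hf T)), this]
  ring

lemma tsum_walk {T : Finset Γ} (hT : T.Nonempty) : ∀ n, ∑' x, walk T n x = 1
  | 0 => tsum_pi_single 1 1
  | n + 1 => (tsum_lazy hT (fin0_walk T n)).trans (tsum_walk hT n)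

/-- Chapman–Kolmogorov at the origin. -/
lemma walk_one_add {T : Finset Γ} (hT : ∀ t ∈ T, t⁻¹ ∈ T) : ∀ i j,
    walk T (i + j) 1 = ip (walk T i) (walk T j)
  | 0, j => by
    unfold ip
    rw [tsum_eq_single 1 fun b hb => by simp [walk, hb]]
    simp [walk]
  | i + 1, j => by
    rw [add_right_comm, add_assoc, walk_one_add hT i (j + 1), ip_comm (walk T (i + 1))]
    exact ip_lazy_comm hT (fin0_walk T i) (fin0_walk T j)

/-- From `a n ≤ A r² (a n - a (n+1)) + 1 / (c r ^ (2k))` to polynomial decay of order `k`. -/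
lemma nash_decay (k : ℕ) {A c : ℝ} (hA : 0 < A) (hc : 0 < c) :
    ∃ C : ℝ, ∀ a : ℕ → ℝ, (∀ n, 0 ≤ a n) → Antitone a → a 0 ≤ 1 →
      (∀ n (r : ℕ), 1 ≤ r → a n ≤ A * (r : ℝ) ^ 2 * (a n - a (n + 1)) + 1 / (c * (r : ℝ) ^ (2 * k))) →
      ∀ n, a n ≤ C / ((n : ℝ) + 1) ^ k := by
  obtain ⟨M, hM⟩ := exists_nat_gt (4 ^ (k + 1) * A)
  have hM' : (4 : ℝ) ^ (k + 1) * A ≤ M := hM.le
  have hM0 : 0 < M := Nat.cast_pos.1 ((by positivity : (0 : ℝ) < 4 ^ (k + 1) * A).trans hM)
  refine ⟨4 ^ k * (((M : ℝ) + 1) ^ k + 2 * ((4 * M) ^ k / c) + 1), fun a h0 hanti ha hr n => ?_⟩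
  set C : ℝ := 4 ^ k * (((M : ℝ) + 1) ^ k + 2 * ((4 * M) ^ k / c) + 1)
  have hC0 : 0 ≤ C := by positivity
  induction n using Nat.strong_induction_on with
  | _ n ih =>
    have hn1 : (0 : ℝ) < (n : ℝ) + 1 := by positivity
    rw [le_div_iff₀ (by positivity)]
    rcases lt_or_ge n (4 * M) with hn | hn
    · have h1 : a n ≤ 1 := (hanti (Nat.zero_le n)).trans ha
      have h2 : ((n : ℝ) + 1) ^ k ≤ (4 * ((M : ℝ) + 1)) ^ k := by
        have : (n : ℝ) ≤ 4 * M := by exact_mod_cast hn.le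
        gcongr; linarith
      calc a n * ((n : ℝ) + 1) ^ k ≤ 1 * (4 * ((M : ℝ) + 1)) ^ k := by
            gcongr
        _ ≤ C := by
            rw [one_mul, mul_pow]
            refine mul_le_mul_of_nonneg_left ?_ (by positivity)
            linarith [(by positivity : (0 : ℝ) ≤ (4 * (M : ℝ)) ^ k / c)]
    · set m := n / 2
      set r := Nat.sqrt (m / M)
      have hm : 1 ≤ m := by omega
      have hmM : 1 ≤ m / M := (Nat.one_le_div_iff hM0).2 (by omega)
      have hr1 : 1 ≤ r := Nat.le_sqrt.2 (by simpa using hmM)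
      have hr2 : (M : ℝ) * (r : ℝ) ^ 2 ≤ m := by
        have h1 := Nat.sqrt_le (m / M)
        have h2 := Nat.mul_div_le m M
        have : M * r ^ 2 ≤ m := by
          calc M * r ^ 2 ≤ M * (m / M) := Nat.mul_le_mul_left M (by rw [sq]; exact h1)
            _ ≤ m := h2
        exact_mod_cast this
      have hr3 : (m : ℝ) ≤ 4 * M * (r : ℝ) ^ 2 := by
        have h1 := Nat.lt_succ_sqrt (m / M)
        have h2 := Nat.lt_mul_div_succ m hM0
        have h3 : (r + 1) * (r + 1) ≤ 4 * r ^ 2 := by nlinarith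
        have h4 : m / M + 1 ≤ 4 * r ^ 2 := le_trans h1 h3
        have : m ≤ 4 * M * r ^ 2 := by nlinarith [Nat.mul_le_mul_left M h4]
        exact_mod_cast this
      have hsum : ((n - m : ℕ) : ℝ) * a n
          ≤ A * (r : ℝ) ^ 2 * a m + ((n - m : ℕ) : ℝ) * (1 / (c * (r : ℝ) ^ (2 * k))) := by
        calc ((n - m : ℕ) : ℝ) * a n = ∑ _j ∈ range (n - m), a n := by simp
          _ ≤ ∑ j ∈ range (n - m), (A * (r : ℝ) ^ 2 * (a (m + j) - a (m + (j + 1)))
                + 1 / (c * (r : ℝ) ^ (2 * k))) := by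
              refine sum_le_sum fun j hj => (hanti ?_).trans (hr (m + j) r hr1)
              have := mem_range.1 hj
              omega
          _ ≤ _ := by
              rw [sum_add_distrib, ← mul_sum, sum_range_sub' (fun j => a (m + j)), sum_const,
                card_range, nsmul_eq_mul]
              gcongr
              rw [add_zero]
              linarith [h0 (m + (n - m))]
      have hlt : m < n := by omega
      have ihm : a m * ((m : ℝ) + 1) ^ k ≤ C := (le_div_iff₀ (by positivity)).1 (ih m hlt)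
      have hnm : (m : ℝ) ≤ ((n - m : ℕ) : ℝ) := by exact_mod_cast (by omega : m ≤ n - m)
      have hmpos : (0 : ℝ) < m := Nat.cast_pos.2 hm
      have hmn : (n : ℝ) + 1 ≤ 4 * m := by exact_mod_cast (by omega : n + 1 ≤ 4 * m)
      have hnm0 : (0 : ℝ) < ((n - m : ℕ) : ℝ) := hmpos.trans_le hnm
      -- the first term
      have h4k : (4 : ℝ) ^ (k + 1) * A * (r : ℝ) ^ 2 ≤ m :=
        (mul_le_mul_of_nonneg_right hM' (sq_nonneg _)).trans hr2
      have t1 : A * (r : ℝ) ^ 2 * a m / ((n - m : ℕ) : ℝ) * ((n : ℝ) + 1) ^ k ≤ C / 4 := by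
        calc A * (r : ℝ) ^ 2 * a m / ((n - m : ℕ) : ℝ) * ((n : ℝ) + 1) ^ k
            ≤ A * (r : ℝ) ^ 2 * a m / m * (4 * ((m : ℝ) + 1)) ^ k := by
              have := h0 m
              gcongr
              linarith
          _ = (4 : ℝ) ^ (k + 1) * A * (r : ℝ) ^ 2 / m * (a m * ((m : ℝ) + 1) ^ k) / 4 := by
              rw [mul_pow, pow_succ]; ring
          _ ≤ 1 * C / 4 := by
              gcongr
              · exact mul_nonneg (h0 m) (by positivity)
              · exact (div_le_one hmpos).2 h4k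
          _ = C / 4 := by rw [one_mul]
      have t2 : 1 / (c * (r : ℝ) ^ (2 * k)) * ((n : ℝ) + 1) ^ k ≤ 4 ^ k * ((4 * (M : ℝ)) ^ k / c) := by
        have hr0 : (0 : ℝ) < (r : ℝ) := Nat.cast_pos.2 hr1
        calc 1 / (c * (r : ℝ) ^ (2 * k)) * ((n : ℝ) + 1) ^ k
            ≤ 1 / (c * (r : ℝ) ^ (2 * k)) * (4 * (4 * M * (r : ℝ) ^ 2)) ^ k := by
              gcongr; linarith
          _ = _ := by
              rw [pow_mul, mul_pow (4 : ℝ), mul_pow (4 * (M : ℝ))]
              field_simp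
      have han : a n ≤ A * (r : ℝ) ^ 2 * a m / ((n - m : ℕ) : ℝ) + 1 / (c * (r : ℝ) ^ (2 * k)) := by
        rw [div_add' _ _ _ hnm0.ne', le_div_iff₀ hnm0]
        linarith
      have hC : 4 ^ k * ((4 * (M : ℝ)) ^ k / c) * 2 ≤ C := by
        have : (0 : ℝ) ≤ 4 ^ k * (((M : ℝ) + 1) ^ k + 1) := by positivity
        calc 4 ^ k * ((4 * (M : ℝ)) ^ k / c) * 2
            ≤ 4 ^ k * ((4 * (M : ℝ)) ^ k / c) * 2 + 4 ^ k * (((M : ℝ) + 1) ^ k + 1) :=
              le_add_of_nonneg_right this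
          _ = C := by simp only [C]; ring
      calc a n * ((n : ℝ) + 1) ^ k
          ≤ (A * (r : ℝ) ^ 2 * a m / ((n - m : ℕ) : ℝ) + 1 / (c * (r : ℝ) ^ (2 * k)))
              * ((n : ℝ) + 1) ^ k := by gcongr
        _ ≤ C / 4 + 4 ^ k * ((4 * (M : ℝ)) ^ k / c) := by rw [add_mul]; exact add_le_add t1 t2
        _ ≤ C := by linarith

/-- **Return probabilities on spread-out Cayley graphs**: if balls of `S` grow at least like
`r ^ (2 k)` then the lazy walks on all `B_S(R + 1) \ {1}` return with probability at most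
`C / (n + 1) ^ k`, with `C` independent of `R`. -/
theorem walk_one_le {S : Finset Γ} (hS : ∀ s ∈ S, s⁻¹ ∈ S) (hS0 : ∃ s ∈ S, s ≠ 1) (k : ℕ) {c : ℝ}
    (hc : 0 < c) (hg : ∀ r : ℕ, 1 ≤ r → c * (r : ℝ) ^ (2 * k) ≤ #(wball S r)) :
    ∃ C : ℝ, ∀ R n : ℕ, walk ((wball S (R + 1)).erase 1) n 1 ≤ C / ((n : ℝ) + 1) ^ k := by
  obtain ⟨C, hC⟩ := nash_decay k (A := 8 * ((#S : ℝ) + 1)) (by positivity) hc
  refine ⟨4 ^ k * C, fun R n => ?_⟩
  set T := (wball S (R + 1)).erase 1
  have hsym : ∀ t ∈ T, t⁻¹ ∈ T := fun t ht => mem_erase.2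
    ⟨inv_ne_one.2 (ne_of_mem_erase ht), inv_mem_wball hS (mem_of_mem_erase ht)⟩
  obtain ⟨s₀, hs₀, hs₀1⟩ := hS0
  have hT : T.Nonempty :=
    ⟨s₀, mem_erase.2 ⟨hs₀1, wball_mono S (Nat.le_add_left 1 R) (mem_wball_one hs₀)⟩⟩
  set a : ℕ → ℝ := fun n => ip (walk T n) (walk T n)
  have hdir : ∀ n, (0 : ℝ) ≤ (∑ t ∈ T, inc (walk T n) t) / #T := fun n =>
    div_nonneg (sum_nonneg fun t _ => inc_nonneg _ t) (Nat.cast_nonneg _)
  have hstep : ∀ n, (∑ t ∈ T, inc (walk T n) t) / #T ≤ 4 * (a n - a (n + 1)) := fun n => by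
    have : a (n + 1) ≤ _ := ip_lazy_lazy_le hT (fin0_walk T n)
    linarith
  have hanti : Antitone a := antitone_nat_of_succ_le fun n => by linarith [hstep n, hdir n]
  have ha0 : ∀ n, 0 ≤ a n := fun n => tsum_nonneg fun x => mul_self_nonneg _
  have hrec : ∀ n (r : ℕ), 1 ≤ r → a n
      ≤ 8 * ((#S : ℝ) + 1) * (r : ℝ) ^ 2 * (a n - a (n + 1)) + 1 / (c * (r : ℝ) ^ (2 * k)) := by
    intro n r hr
    set K := 4 * ((#S : ℝ) + 1) * ((∑ t ∈ T, inc (walk T n) t) / #T)
    have hK0 : 0 ≤ K := mul_nonneg (by positivity) (hdir n)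
    refine (ip_self_le (fin0_walk T n) (walk_nonneg T n) (tsum_walk hT n) hK0
      (fun s hs => inc_le_spread hS (fin0_walk T n) hs R) r).trans (add_le_add ?_ ?_)
    · calc (r : ℝ) ^ 2 * K / 2 = 2 * ((#S : ℝ) + 1) * (r : ℝ) ^ 2
            * ((∑ t ∈ T, inc (walk T n) t) / #T) := by simp only [K]; ring
        _ ≤ 2 * ((#S : ℝ) + 1) * (r : ℝ) ^ 2 * (4 * (a n - a (n + 1))) := by
            gcongr; exact hstep n
        _ = _ := by ring
    · exact one_div_le_one_div_of_le (mul_pos hc (pow_pos (Nat.cast_pos.2 hr) _)) (hg r hr)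
  have ha1 : a 0 ≤ 1 := by
    refine le_of_eq ?_
    show ip (walk T 0) (walk T 0) = 1
    rw [← walk_one_add hsym 0 0]
    simp [walk]
  have hC' := hC a ha0 hanti ha1 hrec
  have hq : walk T n 1 ≤ a (n / 2) := by
    rcases Nat.even_or_odd' n with ⟨i, rfl | rfl⟩
    · rw [Nat.mul_div_cancel_left i two_pos, two_mul, walk_one_add hsym i i]
    · rw [show (2 * i + 1) / 2 = i by omega, show 2 * i + 1 = i + (i + 1) by omega,
        walk_one_add hsym i (i + 1)]
      have h2 : ip (walk T i) (walk T (i + 1)) ≤ (a i + a (i + 1)) / 2 := by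
        simp only [a, ip]
        rw [← (summable_of_fin0 (fin0_mul_left (fin0_walk T i) _)).tsum_add
          (summable_of_fin0 (fin0_mul_left (fin0_walk T (i + 1)) _)), ← tsum_div_const]
        refine (summable_of_fin0 (fin0_mul_left (fin0_walk T i) _)).tsum_le_tsum (fun x => ?_)
          (((summable_of_fin0 (fin0_mul_left (fin0_walk T i) _)).add
            (summable_of_fin0 (fin0_mul_left (fin0_walk T (i + 1)) _))).div_const _)
        nlinarith [sq_nonneg (walk T i x - walk T (i + 1) x)]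
      linarith [hanti (Nat.le_succ i)]
  have hC0 : 0 ≤ C := by simpa using (ha0 0).trans (hC' 0)
  refine (hq.trans (hC' _)).trans ?_
  rw [div_le_div_iff₀ (by positivity) (by positivity)]
  have h4 : ((n : ℝ) + 1) ≤ 4 * (((n / 2 : ℕ) : ℝ) + 1) := by
    exact_mod_cast (by omega : n + 1 ≤ 4 * (n / 2 + 1))
  calc C * ((n : ℝ) + 1) ^ k ≤ C * (4 * (((n / 2 : ℕ) : ℝ) + 1)) ^ k := by gcongr
    _ = _ := by rw [mul_pow]; ring

/-- The moments `∑ (n + 1) ^ j q_n` of the return probabilities are bounded uniformly in `R`. -/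
theorem sum_walk_one_le {S : Finset Γ} (hS : ∀ s ∈ S, s⁻¹ ∈ S) (hS0 : ∃ s ∈ S, s ≠ 1) {j k : ℕ}
    (hjk : j + 2 ≤ k) {c : ℝ} (hc : 0 < c)
    (hg : ∀ r : ℕ, 1 ≤ r → c * (r : ℝ) ^ (2 * k) ≤ #(wball S r)) :
    ∃ C : ℝ, ∀ R N : ℕ,
      ∑ n ∈ range N, ((n : ℝ) + 1) ^ j * walk ((wball S (R + 1)).erase 1) n 1 ≤ C := by
  obtain ⟨C, hC⟩ := walk_one_le hS hS0 k hc hg
  have hC0 : 0 ≤ C := by simpa using (walk_nonneg _ 0 1).trans (hC 0 0)
  have hs : Summable fun n : ℕ => C * (1 / ((n : ℝ) + 1) ^ 2) := by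
    refine Summable.mul_left C ?_
    simpa using (summable_nat_add_iff 1).2 (Real.summable_one_div_nat_pow.2 one_lt_two)
  refine ⟨∑' n : ℕ, C * (1 / ((n : ℝ) + 1) ^ 2), fun R N => ?_⟩
  refine (sum_le_sum fun n _ => ?_).trans (hs.sum_le_tsum _ fun n _ => by positivity)
  have hn : (1 : ℝ) ≤ (n : ℝ) + 1 := by simp
  calc ((n : ℝ) + 1) ^ j * walk ((wball S (R + 1)).erase 1) n 1
      ≤ ((n : ℝ) + 1) ^ j * (C / ((n : ℝ) + 1) ^ (j + 2)) := by
        gcongr
        exact (hC R n).trans (div_le_div_of_nonneg_left hC0 (by positivity)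
          (pow_le_pow_right₀ hn hjk))
    _ = C * (1 / ((n : ℝ) + 1) ^ 2) := by rw [pow_add]; field_simp

end Vale.Agent.P151.Return
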