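import Mathlib
import Vale.Agent.P165.Defs
import Vale.Agent.P151.Events
import Vale.Agent.P151.Return

/-!
Cayley graphs, kernels on a group and the interfaces of the spread-out percolation proof.
-/

namespace Vale.Agent.P151

open scoped ENNReal NNReal Classical

variable {Γ : Type} [Group Γ]

/-- The Cayley graph of a finite set. -/
abbrev cg (S : Finset Γ) : SimpleGraph Γ := SimpleGraph.mulCayley (S : Set Γ)

/-- A symmetric set avoiding the identity. -/
structure Gen (S : Finset Γ) : Prop where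
  inv_mem : ∀ s ∈ S, s⁻¹ ∈ S
  one_notMem : (1 : Γ) ∉ S

lemma Gen.adj_iff {S : Finset Γ} (hS : Gen S) {x y : Γ} : (cg S).Adj x y ↔ x⁻¹ * y ∈ S := by
  rw [cg, SimpleGraph.mulCayley_adj']
  constructor
  · rintro ⟨-, g, hg, rfl | rfl⟩
    · simpa using hg
    · simpa using hS.inv_mem g hg
  · intro h
    refine ⟨?_, _, h, Or.inl (by simp)⟩
    rintro rfl
    exact hS.one_notMem (by simpa using h)

lemma finite_neighborSet (S : Finset Γ) (x : Γ) : ((cg S).neighborSet x).Finite := by
  refine ((S.finite_toSet.image fun g => x * g).union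
    (S.finite_toSet.image fun g => x * g⁻¹)).subset fun y hy => ?_
  obtain ⟨-, g, hg, h | h⟩ := (SimpleGraph.mulCayley_adj' _ _ _).1 hy
  · exact Or.inl ⟨g, hg, h⟩
  · exact Or.inr ⟨g, hg, by simp [h]⟩

noncomputable instance instLocallyFinite (S : Finset Γ) : (cg S).LocallyFinite :=
  fun x => (finite_neighborSet S x).fintype

/-- Kernels. -/
abbrev Ker (Γ : Type) : Type := Γ → Γ → ℝ≥0∞

/-- The two-point function of a Cayley graph. -/
noncomputable abbrev two (S : Finset Γ) (p : unitInterval) : Ker Γ := tau (cg S) p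

/-- The identity kernel. -/
noncomputable def kone : Ker Γ := fun x y => if x = y then 1 else 0

/-- Composition of kernels. -/
noncomputable def kmul (K L : Ker Γ) : Ker Γ := fun x y => ∑' z, K x z * L z y

/-- Powers of a kernel. -/
noncomputable def kpow (K : Ker Γ) : ℕ → Ker Γ
  | 0 => kone
  | n + 1 => kmul (kpow K n) K

/-- Two kernels composed with the step `s` between them. -/
noncomputable def ins (s : Γ) (K L : Ker Γ) : Ker Γ := fun x y => ∑' z, K x z * L (z * s) y

/-- The expected cluster size. -/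
noncomputable def chi (S : Finset Γ) (p : unitInterval) : ℝ≥0∞ := ∑' x, two S p 1 x

/-- A length: zero at the identity and subadditive. -/
structure IsLen (l : Γ → ℝ≥0) : Prop where
  one : l 1 = 0
  mul_le : ∀ x y, l (x * y) ≤ l x + l y

/-- The lace expansion with coefficient of total mass and spread at most `ε`. -/
def Lace (S : Finset Γ) (p : unitInterval) (ε : ℝ) : Prop :=
  ∃ q : Γ → ℝ, Summable (fun x => |q x|) ∧ ∑' x, |q x| ≤ ε ∧
    (∀ x, (two S p 1 x).toReal = (if x = 1 then 1 else 0) + q x + (p : ℝ) *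
      ∑' y, ((if y = 1 then 1 else 0) + q y) * ∑ s ∈ S, (two S p (y * s) x).toReal) ∧
    ∀ l : Γ → ℝ≥0, IsLen l → Summable (fun x => |q x| * (l x : ℝ) ^ 2) ∧
      ∑' x, |q x| * (l x : ℝ) ^ 2 ≤ ε * ((p : ℝ) * ∑ s ∈ S, (l s : ℝ) ^ 2)

/-- The weighted return sums of the lazy walk. -/
def GreenLE (S : Finset Γ) (g : ℝ) : Prop :=
  ∀ N : ℕ, ∑ n ∈ Finset.range N, ((n + 16).choose 16 : ℝ) * Return.walk S n 1 ≤ g

/-- The estimates that make the diagrams small. -/
structure Small (S : Finset Γ) (p : unitInterval) (K ε : ℝ≥0∞) : Prop where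
  pow_le : ∀ j ≤ 16, ∀ x y, kpow (two S p) j x y ≤ K
  off_le : ∀ j ≤ 8, ∀ x y, x ≠ y → kpow (two S p) j x y ≤ ε
  step_le : ∀ j ≤ 8, ∀ x y, ENNReal.ofReal p * ∑ s ∈ S, kpow (two S p) j (x * s) y ≤ ε
  step_ins_le : ∀ i ≤ 4, ∀ j ≤ 8, ∀ t x y,
    ENNReal.ofReal p * ∑ s ∈ S, ins t (kpow (two S p) i) (kpow (two S p) j) (x * s) y ≤ ε
  mid_le : ∀ x y, ∑ s ∈ S, ins s (two S p) (kpow (two S p) 2) x y ≤ ε * S.card

end Vale.Agent.P151
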