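import Mathlib
import Vale.Agent.P151.Defs

/-!
Algebra of nonnegative kernels on a group.
-/

namespace Vale.Agent.P151

open scoped ENNReal NNReal

variable {Γ : Type}

lemma kmul_mono {K K' L L' : Ker Γ} (hK : ∀ x y, K x y ≤ K' x y) (hL : ∀ x y, L x y ≤ L' x y)
    (x y : Γ) : kmul K L x y ≤ kmul K' L' x y :=
  ENNReal.tsum_le_tsum fun z => mul_le_mul' (hK x z) (hL z y)

lemma kone_kmul (K : Ker Γ) : kmul kone K = K := by
  funext x y
  rw [kmul, tsum_eq_single x fun z hz => by simp [kone, Ne.symm hz]]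
  simp [kone]

lemma kmul_kone (K : Ker Γ) : kmul K kone = K := by
  funext x y
  rw [kmul, tsum_eq_single y fun z hz => by simp [kone, hz]]
  simp [kone]

lemma kmul_assoc (K L M : Ker Γ) : kmul (kmul K L) M = kmul K (kmul L M) := by
  funext x y
  simp only [kmul, ← ENNReal.tsum_mul_right, ← ENNReal.tsum_mul_left]
  rw [ENNReal.tsum_comm]
  simp only [mul_assoc]

lemma kpow_one (K : Ker Γ) : kpow K 1 = K := kone_kmul K

lemma kpow_two (K : Ker Γ) : kpow K 2 = kmul K K := by rw [kpow, kpow_one]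

lemma kpow_add (K : Ker Γ) (i : ℕ) : ∀ j, kpow K (i + j) = kmul (kpow K i) (kpow K j)
  | 0 => (kmul_kone _).symm
  | j + 1 => by
    rw [← add_assoc, kpow, kpow, kpow_add K i j, kmul_assoc]

lemma kpow_succ' (K : Ker Γ) (n : ℕ) : kpow K (n + 1) = kmul K (kpow K n) := by
  rw [add_comm, kpow_add, kpow_one]

/-- The kernel dominates the identity. -/
def OneLE (K : Ker Γ) : Prop := ∀ x y, kone x y ≤ K x y

lemma OneLE.le_kmul_right {K : Ker Γ} (hK : OneLE K) (L : Ker Γ) (x y : Γ) :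
    L x y ≤ kmul L K x y := by
  conv_lhs => rw [← kmul_kone L]
  exact kmul_mono (fun _ _ => le_rfl) hK x y

lemma kpow_mono {K : Ker Γ} (hK : OneLE K) {i j : ℕ} (h : i ≤ j) (x y : Γ) :
    kpow K i x y ≤ kpow K j x y := by
  induction j, h using Nat.le_induction with
  | base => exact le_rfl
  | succ j _ ih => exact ih.trans (hK.le_kmul_right _ x y)

variable [Group Γ]

/-- Invariance under left translations. -/
def Inv (K : Ker Γ) : Prop := ∀ g x y, K (g * x) (g * y) = K x y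

/-- Symmetry. -/
def Symm (K : Ker Γ) : Prop := ∀ x y, K x y = K y x

lemma inv_kone : Inv (kone : Ker Γ) := fun g x y => by by_cases h : x = y <;> simp [kone, h]

omit [Group Γ] in
lemma symm_kone : Symm (kone : Ker Γ) := fun x y => by by_cases h : x = y <;> simp [kone, h, Ne.symm]

lemma Inv.kmul {K L : Ker Γ} (hK : Inv K) (hL : Inv L) : Inv (kmul K L) := by
  intro g x y
  simp only [Vale.Agent.P151.kmul]
  rw [← (Equiv.mulLeft g).tsum_eq]
  simp [hK g, hL g]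

lemma inv_kpow {K : Ker Γ} (hK : Inv K) : ∀ n, Inv (kpow K n)
  | 0 => inv_kone
  | n + 1 => (inv_kpow hK n).kmul hK

omit [Group Γ] in
lemma kmul_swap {K L : Ker Γ} (hK : Symm K) (hL : Symm L) (x y : Γ) :
    kmul K L x y = kmul L K y x :=
  tsum_congr fun z => by rw [hK x z, hL z y, mul_comm]

omit [Group Γ] in
lemma symm_kpow {K : Ker Γ} (hK : Symm K) : ∀ n, Symm (kpow K n)
  | 0 => symm_kone
  | n + 1 => fun x y => by rw [kpow, kmul_swap (symm_kpow hK n) hK, ← kpow_succ', kpow]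

lemma ins_mono {K K' L L' : Ker Γ} (hK : ∀ x y, K x y ≤ K' x y) (hL : ∀ x y, L x y ≤ L' x y)
    (s x y : Γ) : ins s K L x y ≤ ins s K' L' x y :=
  ENNReal.tsum_le_tsum fun z => mul_le_mul' (hK x z) (hL (z * s) y)

lemma ins_kmul (s : Γ) (K L M : Ker Γ) : kmul (ins s K L) M = ins s K (kmul L M) := by
  funext x y
  simp only [kmul, ins, ← ENNReal.tsum_mul_right, ← ENNReal.tsum_mul_left]
  rw [ENNReal.tsum_comm]
  simp only [mul_assoc]

lemma kmul_ins (s : Γ) (K L M : Ker Γ) : kmul K (ins s L M) = ins s (kmul K L) M := by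
  funext x y
  simp only [kmul, ins, ← ENNReal.tsum_mul_right, ← ENNReal.tsum_mul_left]
  rw [ENNReal.tsum_comm]
  simp only [mul_assoc]

lemma ins_kpow_mono {K : Ker Γ} (hK : OneLE K) {i i' j j' : ℕ} (hi : i ≤ i') (hj : j ≤ j')
    (s x y : Γ) : ins s (kpow K i) (kpow K j) x y ≤ ins s (kpow K i') (kpow K j') x y :=
  ins_mono (kpow_mono hK hi) (kpow_mono hK hj) s x y

lemma ins_diag {K L : Ker Γ} (hK : Inv K) (hK' : Symm K) (hL : Inv L) (hL' : Symm L) (s x : Γ) :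
    ins s K L x x = kmul K L 1 s := by
  simp only [ins, kmul]
  rw [← (Equiv.mulLeft x).tsum_eq, ← (Equiv.inv Γ).tsum_eq]
  refine tsum_congr fun z => ?_
  simp only [Equiv.coe_mulLeft, Equiv.inv_apply]
  have h1 : K x (x * z⁻¹) = K 1 z := by
    rw [← hK x⁻¹]
    simp only [inv_mul_cancel, inv_mul_cancel_left]
    rw [hK' 1 z, ← hK z 1 z⁻¹, mul_one, mul_inv_cancel, hK']
  have h2 : L (x * z⁻¹ * s) x = L z s := by
    rw [← hL x⁻¹, inv_mul_cancel, mul_assoc, inv_mul_cancel_left, ← hL z, mul_inv_cancel_left,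
      mul_one, hL']
  rw [h1, h2]

/-- Weighted arithmetic and geometric means. -/
lemma two_mul_le_sq (t : ℝ≥0) (ht : t ≠ 0) (a b : ℝ≥0∞) :
    2 * (a * b) ≤ t * a ^ 2 + (t : ℝ≥0∞)⁻¹ * b ^ 2 := by
  rcases eq_or_ne a ⊤ with rfl | ha
  · simp [ht, ENNReal.top_pow (two_ne_zero), ENNReal.mul_top]
  rcases eq_or_ne b ⊤ with rfl | hb
  · simp [ENNReal.top_pow (two_ne_zero), ENNReal.mul_top]
  lift a to ℝ≥0 using ha
  lift b to ℝ≥0 using hb
  rw [← ENNReal.coe_inv ht]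
  norm_cast
  rw [← NNReal.coe_le_coe]
  push_cast
  have h : (t : ℝ) ≠ 0 := by exact_mod_cast ht
  have e : (t : ℝ) * (a : ℝ) ^ 2 + (t : ℝ)⁻¹ * (b : ℝ) ^ 2 - 2 * (a * b)
      = ((t : ℝ) * a - b) ^ 2 / t := by field_simp; ring
  nlinarith [div_nonneg (sq_nonneg ((t : ℝ) * a - b)) t.coe_nonneg]

omit [Group Γ] in
lemma two_mul_tsum_le {ι : Type} (t : ℝ≥0) (ht : t ≠ 0) (a b : ι → ℝ≥0∞) :
    2 * ∑' i, a i * b i ≤ t * ∑' i, a i ^ 2 + (t : ℝ≥0∞)⁻¹ * ∑' i, b i ^ 2 := by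
  rw [← ENNReal.tsum_mul_left, ← ENNReal.tsum_mul_left, ← ENNReal.tsum_mul_left, ← ENNReal.tsum_add]
  exact ENNReal.tsum_le_tsum fun i => two_mul_le_sq t ht _ _

lemma tsum_sq_eq {K : Ker Γ} (hK : Inv K) (hK' : Symm K) (x : Γ) :
    ∑' z, K x z ^ 2 = kmul K K 1 1 := by
  rw [← (Equiv.mulLeft x).tsum_eq]
  refine tsum_congr fun z => ?_
  rw [sq, hK' z 1]
  have : K x (x * z) = K 1 z := by rw [← hK x 1 z, mul_one]
  simp [Equiv.coe_mulLeft, this]

end Vale.Agent.P151
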