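import Mathlib
import Vale.Agent.P151.Kernel
import Vale.Agent.P165.Product.Susc

/-!
Percolation on Cayley graphs: invariance and the diagram bounds.
-/

namespace Vale.Agent.P151

open MeasureTheory
open Vale.Agent.P165 (perc openGraph pc perc_map)
open scoped ENNReal NNReal

variable {Γ : Type} [Group Γ] {S : Finset Γ} {p : unitInterval}

lemma conn_iff_reachable {W : Type} {H : SimpleGraph W} {ω : Sym2 W → Bool} {x y : W} :
    Conn H ω x y ↔ (openGraph H ω).Reachable x y := by
  constructor
  · rintro ⟨q, hq⟩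
    exact Vale.Agent.P165.reachable_openGraph_of_walk q hq
  · rintro ⟨q⟩
    refine ⟨q.mapLe (Vale.Agent.P165.openGraph_le ω), fun e he => ?_⟩
    rw [SimpleGraph.Walk.edges_mapLe_eq_edges] at he
    have := q.edges_subset_edgeSet he
    induction e using Sym2.ind with
    | _ a b => exact this.2

/-- Left translation. -/
def shift (S : Finset Γ) (g : Γ) : cg S ≃g cg S where
  toEquiv := Equiv.mulLeft g
  map_rel_iff' := SimpleGraph.mulCayley_adj_mul_iff_right

variable [Countable Γ]

lemma inv_two (S : Finset Γ) (p : unitInterval) : Inv (two S p) := by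
  intro g x y
  simp only [two, tau]
  conv_rhs => rw [← perc_map (shift S g).toEquiv]
  rw [Measure.map_apply (measurable_pi_lambda _ fun e => measurable_pi_apply _)
    (measurableSet_conn x y)]
  congr 1
  ext ω
  simp only [Set.mem_preimage, Set.mem_ofPred_eq, conn_iff_reachable]
  exact (Vale.Agent.P165.openGraph_map_iso (shift S g) ω x y).symm

omit [Countable Γ] in
lemma symm_two (S : Finset Γ) (p : unitInterval) : Symm (two S p) := tau_symm

omit [Countable Γ] in
lemma oneLE_two (S : Finset Γ) (p : unitInterval) : OneLE (two S p) := by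
  intro x y
  rcases eq_or_ne x y with rfl | h
  · simp [kone, two, tau_self]
  · simp [kone, h]

lemma kpow_le_of_sixteen {K : ℝ≥0∞} (h : kpow (two S p) 16 1 1 ≤ K) {j : ℕ} (hj : j ≤ 16)
    (x y : Γ) : kpow (two S p) j x y ≤ K := by
  refine (kpow_mono (oneLE_two S p) hj x y).trans ?_
  rw [show (16 : ℕ) = 8 + 8 from rfl, kpow_add] at h ⊢
  have hI := inv_kpow (inv_two S p) 8
  have hS := symm_kpow (symm_two S p) 8
  refine le_trans ?_ h
  have key := two_mul_tsum_le 1 one_ne_zero (fun z => kpow (two S p) 8 x z)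
    (fun z => kpow (two S p) 8 z y)
  have e : ∑' z, kpow (two S p) 8 z y ^ 2 = kmul (kpow (two S p) 8) (kpow (two S p) 8) 1 1 := by
    rw [← tsum_sq_eq hI hS y]
    exact tsum_congr fun z => by rw [hS z y]
  rw [tsum_sq_eq hI hS x, e] at key
  simp only [ENNReal.coe_one, one_mul, inv_one] at key
  rw [← two_mul] at key
  exact (ENNReal.mul_le_mul_iff_right two_ne_zero ENNReal.ofNat_ne_top).1 key

omit [Countable Γ] in
lemma dart_adj (hS : Gen S) {y s : Γ} (hs : s ∈ S) : (cg S).Adj y (y * s) :=
  hS.adj_iff.2 (by simpa using hs)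

/-- Darts correspond to a vertex and a step. -/
noncomputable def dartEquiv (hS : Gen S) : Γ × S ≃ (cg S).Dart where
  toFun e := ⟨(e.1, e.1 * e.2), dart_adj hS e.2.2⟩
  invFun d := (d.fst, ⟨d.fst⁻¹ * d.snd, hS.adj_iff.1 d.adj⟩)
  left_inv e := by ext <;> simp
  right_inv d := by ext <;> simp

omit [Countable Γ] in
lemma tsum_darts (hS : Gen S) (f : Γ → Γ → ℝ≥0∞) :
    ∑' d : (cg S).Dart, f d.fst d.snd = ∑' y, ∑ s ∈ S, f y (y * s) := by
  rw [← (dartEquiv hS).tsum_eq, ENNReal.tsum_prod']
  exact tsum_congr fun y => by rw [tsum_fintype]; exact Finset.sum_coe_sort S fun s => f y (y * s)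

/-- The first step. -/
lemma two_le_step (hS : Gen S) (x y : Γ) :
    two S p x y ≤ kone x y + ENNReal.ofReal p * ∑ s ∈ S, two S p (x * s) y := by
  classical
  rcases eq_or_ne x y with rfl | h
  · simp [two, kone, tau_self]
  refine le_add_left ?_
  refine (measure_mono (first_edge_subset h)).trans ?_
  have hN : (cg S).neighborSet x = ↑(S.image fun s => x * s) := by
    ext w
    simp only [SimpleGraph.mem_neighborSet, hS.adj_iff, Finset.coe_image, Set.mem_image,
      Finset.mem_coe]
    exact ⟨fun h => ⟨_, h, by simp⟩, by rintro ⟨s, hs, rfl⟩; simpa using hs⟩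
  rw [hN]
  simp only [Finset.mem_coe]
  refine (measure_biUnion_finset_le _ _).trans ?_
  rw [Finset.sum_image fun a _ b _ hab => mul_left_cancel hab, Finset.mul_sum]
  exact Finset.sum_le_sum fun s _ => (occE_le _ _ _).trans (le_of_eq (by simp [two]))

/-- Insertion of a marked step. -/
noncomputable def J (S : Finset Γ) (p : unitInterval) (l : Γ → ℝ≥0) : Ker Γ := fun x y =>
  ENNReal.ofReal p * ∑ s ∈ S, (l s : ℝ≥0∞) ^ 2 *
    (ins s (kpow (two S p) 2) (two S p) x y + ins s (two S p) (kpow (two S p) 2) x y)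

lemma two_mul_len_le (hS : Gen S) {l : Γ → ℝ≥0} (hl : IsLen l) (v x : Γ) :
    two S p v x * (l (v⁻¹ * x) : ℝ≥0∞) ^ 2 ≤ J S p l v x := by
  classical
  set d : Γ → Γ → ℝ≥0 := fun a b => l (a⁻¹ * b)
  have h0 : ∀ a, d a a = 0 := fun a => by simp [d, hl.one]
  have htri : ∀ a b c, d a c ≤ d a b + d b c := fun a b c => by
    simpa [d, mul_assoc] using hl.mul_le (a⁻¹ * b) (b⁻¹ * c)
  set E₁ : (cg S).Dart → Γ → Set (Sym2 Γ → Bool) := fun e z =>
    OccE (cg S) e.fst e.snd [(v, z), (z, e.fst), (e.snd, x)]
  set E₂ : (cg S).Dart → Γ → Set (Sym2 Γ → Bool) := fun e z =>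
    OccE (cg S) e.fst e.snd [(v, e.fst), (e.snd, z), (z, x)]
  have hm : ∀ a b L, MeasurableSet (OccE (cg S) a b L) := by
    intro a b L
    have : OccE (cg S) a b L = ⋃ Es : List (Finset (Sym2 Γ)),
        {ω | ω s(a, b) = true ∧ List.Forall₂ (Seg (cg S) ω) L Es ∧ Es.Pairwise Disjoint ∧
          ∀ E ∈ Es, s(a, b) ∉ E} := by
      ext ω; simp [OccE]
    rw [this]
    refine MeasurableSet.iUnion fun Es => ?_
    refine DepOn.measurableSet (S := insert s(a, b) (Es.toFinset.biUnion id)) ?_
    rintro ω ω' hag ⟨ho, hF, hd, he⟩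
    refine ⟨(hag _ (Finset.mem_insert_self _ _)).symm.trans ho, ?_, hd, he⟩
    clear hd he this
    induction hF with
    | nil => exact .nil
    | @cons l₀ E L Es hh hF ih =>
      refine .cons ⟨hh.1, fun f hf => (hag f ?_).symm.trans (hh.2 f hf)⟩ (ih fun f hf => hag f ?_)
      · exact Finset.mem_insert_of_mem (Finset.mem_biUnion.2 ⟨E, by simp, hf⟩)
      · rcases Finset.mem_insert.1 hf with rfl | hf
        · exact Finset.mem_insert_self _ _
        · obtain ⟨E', hE', hf⟩ := Finset.mem_biUnion.1 hf
          exact Finset.mem_insert_of_mem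
            (Finset.mem_biUnion.2 ⟨E', by simp [List.mem_toFinset.1 hE'], hf⟩)
  have : Countable (cg S).Dart := Function.Injective.countable fun a b => SimpleGraph.Dart.ext a b
  calc two S p v x * (l (v⁻¹ * x) : ℝ≥0∞) ^ 2
      = ∫⁻ ω, ({ω | Conn (cg S) ω v x}.indicator (fun _ => (d v x : ℝ≥0∞) ^ 2) ω) ∂perc Γ p := by
        rw [lintegral_indicator (measurableSet_conn v x), setLIntegral_const, mul_comm]
        rfl
    _ ≤ ∫⁻ ω, ∑' e : (cg S).Dart, (d e.fst e.snd : ℝ≥0∞) ^ 2 *
          ∑' z, ((E₁ e z).indicator 1 ω + (E₂ e z).indicator 1 ω) ∂perc Γ p := by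
        refine lintegral_mono fun ω => ?_
        by_cases h : ω ∈ {ω | Conn (cg S) ω v x}
        · rw [Set.indicator_of_mem h]
          exact insertion_pointwise d h0 htri h
        · simp [Set.indicator_of_notMem h]
    _ = ∑' e : (cg S).Dart, (d e.fst e.snd : ℝ≥0∞) ^ 2 *
          ∑' z, (perc Γ p (E₁ e z) + perc Γ p (E₂ e z)) := by
        have h1 : ∀ e z, Measurable fun ω => (E₁ e z).indicator (1 : (Sym2 Γ → Bool) → ℝ≥0∞) ω :=
          fun e z => measurable_const.indicator (hm _ _ _)
        have h2 : ∀ e z, Measurable fun ω => (E₂ e z).indicator (1 : (Sym2 Γ → Bool) → ℝ≥0∞) ω :=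
          fun e z => measurable_const.indicator (hm _ _ _)
        have h3 : ∀ e, Measurable fun ω =>
            ∑' z, ((E₁ e z).indicator 1 ω + (E₂ e z).indicator (1 : (Sym2 Γ → Bool) → ℝ≥0∞) ω) :=
          fun e => Measurable.tsum fun z => (h1 e z).add (h2 e z)
        rw [lintegral_tsum fun e => (Measurable.const_mul (h3 e) _).aemeasurable]
        refine tsum_congr fun e => ?_
        rw [lintegral_const_mul _ (h3 e),
          lintegral_tsum fun z => (show Measurable fun ω => (E₁ e z).indicator 1 ω +
            (E₂ e z).indicator (1 : (Sym2 Γ → Bool) → ℝ≥0∞) ω from (h1 e z).add (h2 e z)).aemeasurable]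
        refine congrArg _ (tsum_congr fun z => ?_)
        rw [lintegral_add_left (h1 e z)]
        exact congrArg₂ _ (lintegral_indicator_one (hm _ _ _)) (lintegral_indicator_one (hm _ _ _))
    _ ≤ ∑' e : (cg S).Dart, (d e.fst e.snd : ℝ≥0∞) ^ 2 * (ENNReal.ofReal p * ∑' z,
          (two S p v z * (two S p z e.fst * two S p e.snd x)
            + two S p v e.fst * (two S p e.snd z * two S p z x))) := by
        refine ENNReal.tsum_le_tsum fun e => mul_le_mul_right ?_ _
        rw [← ENNReal.tsum_mul_left]
        refine ENNReal.tsum_le_tsum fun z => ?_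
        rw [mul_add]
        exact add_le_add ((occE_le _ _ _).trans (le_of_eq (by simp [two])))
          ((occE_le _ _ _).trans (le_of_eq (by simp [two])))
    _ = J S p l v x := by
        rw [tsum_darts hS fun a b => (d a b : ℝ≥0∞) ^ 2 * (ENNReal.ofReal p * ∑' z,
          (two S p v z * (two S p z a * two S p b x) + two S p v a * (two S p b z * two S p z x)))]
        simp only [J, Finset.mul_sum, d, inv_mul_cancel_left]
        rw [Summable.tsum_finsetSum fun _ _ => ENNReal.summable]
        refine Finset.sum_congr rfl fun s _ => ?_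
        simp only [ins, kpow_two, kmul]
        have e₁ : ∑' a, ∑' z, two S p v z * two S p z a * two S p (a * s) x
            = ∑' z, (∑' w, two S p v w * two S p w z) * two S p (z * s) x :=
          tsum_congr fun a => ENNReal.tsum_mul_right
        have e₂ : ∑' a, ∑' z, two S p v a * (two S p (a * s) z * two S p z x)
            = ∑' z, two S p v z * ∑' w, two S p (z * s) w * two S p w x :=
          tsum_congr fun a => ENNReal.tsum_mul_left
        rw [← e₁, ← e₂, ← ENNReal.tsum_add, ← ENNReal.tsum_mul_left, ← ENNReal.tsum_mul_left]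
        refine tsum_congr fun a => ?_
        rw [mul_left_comm, ENNReal.tsum_add]
        simp only [mul_assoc]

/-- The bound on the connection through a set without early pivotal edge. -/
lemma perc_ev_le (A : Set Γ) (v x : Γ) :
    perc Γ p {ω | Ev (cg S) A ω v x} ≤
      ∑' a : A, ∑' z, two S p v z * two S p z a * two S p a x * two S p z x := by
  classical
  have : Countable A := inferInstance
  refine (measure_mono ev_subset).trans ?_
  rw [Set.biUnion_eq_iUnion]
  refine (measure_iUnion_le _).trans (ENNReal.tsum_le_tsum fun a => ?_)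
  refine (measure_iUnion_le _).trans (ENNReal.tsum_le_tsum fun z => ?_)
  exact (occL_le _).trans (le_of_eq (by simp [two, mul_assoc]))

/-- The four cases of a diagram with a fifth leg. -/
noncomputable def four (S : Finset Γ) (p : unitInterval) (v a u t : Γ) : ℝ≥0∞ :=
  ∑' z, (two S p v t * two S p t z * two S p z a * two S p a u * two S p z u
    + two S p v z * two S p z t * two S p t a * two S p a u * two S p z u
    + two S p v z * two S p z a * two S p a t * two S p t u * two S p z u
    + two S p v z * two S p z a * two S p a u * two S p z t * two S p t u)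

lemma perc_ev_conn_le (A : Set Γ) (v u b : Γ) :
    perc Γ p {ω | Ev (cg S) A ω v u ∧ Conn (cg S) ω v b} ≤
      ∑' a : A, ∑' t, four S p v a u t * two S p t b := by
  classical
  refine (measure_mono ev_conn_subset).trans ?_
  rw [Set.biUnion_eq_iUnion]
  refine (measure_iUnion_le _).trans (ENNReal.tsum_le_tsum fun a => ?_)
  refine (measure_iUnion_le _).trans ?_
  refine (ENNReal.tsum_le_tsum fun z => measure_iUnion_le _).trans ?_
  rw [ENNReal.tsum_comm]
  refine ENNReal.tsum_le_tsum fun t => ?_
  rw [four, ← ENNReal.tsum_mul_right]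
  refine ENNReal.tsum_le_tsum fun z => ?_
  simp only [five, List.mem_cons, List.not_mem_nil, or_false, Set.iUnion_iUnion_eq_or_left,
    Set.iUnion_iUnion_eq_left]
  refine (measure_union_le _ _).trans ?_
  refine (add_le_add le_rfl ((measure_union_le _ _).trans (add_le_add le_rfl
    (measure_union_le _ _)))).trans ?_
  refine (add_le_add (occL_le _) (add_le_add (occL_le _) (add_le_add (occL_le _) (occL_le _)))).trans
    (le_of_eq ?_)
  simp only [two, List.map_cons, List.map_nil, List.prod_cons, List.prod_nil]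
  ring

lemma perc_ev_univ_le (v x : Γ) :
    perc Γ p {ω | Ev (cg S) Set.univ ω v x} ≤ two S p v x ^ 2 := by
  classical
  exact (measure_mono ev_univ_subset).trans ((occL_le _).trans (le_of_eq (by simp [two, sq])))

lemma perc_ev_univ_conn_le (v u b : Γ) :
    perc Γ p {ω | Ev (cg S) Set.univ ω v u ∧ Conn (cg S) ω v b} ≤
      ∑' t, two S p v t * two S p t u * two S p v u * two S p t b := by
  classical
  refine (measure_mono ev_univ_conn_subset).trans ((measure_iUnion_le _).trans
    (ENNReal.tsum_le_tsum fun t => ?_))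
  exact (occL_le _).trans (le_of_eq (by simp [two, mul_assoc]))

/-- Below the critical point the susceptibility is finite. -/
lemma chi_ne_top (hp : (p : ℝ) < pc (cg S)) : chi S p ≠ ⊤ := by
  classical
  obtain ⟨C, hC⟩ := Vale.Agent.P165.Product.susceptibility_bound
    ⟨{1}, fun v => ⟨shift S v⁻¹, Finset.mem_singleton.2 (inv_mul_cancel v)⟩⟩ hp
  refine ne_top_of_le_ne_top (ENNReal.ofReal_ne_top (r := C)) ?_
  rw [chi, ENNReal.tsum_eq_iSup_sum]
  refine iSup_le fun T => ?_
  refine le_trans (le_of_eq ?_) (ENNReal.ofReal_le_ofReal (hC 1 T))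
  rw [ENNReal.ofReal_sum_of_nonneg fun _ _ => measureReal_nonneg]
  refine Finset.sum_congr rfl fun y _ => ?_
  rw [ofReal_measureReal (measure_ne_top _ _), two, tau]
  congr 1
  ext ω
  exact conn_iff_reachable

end Vale.Agent.P151
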