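import Mathlib
import Vale.Agent.P151.Defs

/-!
The module interfaces of the spread-out percolation proof.
-/

namespace Vale.Agent.P151

open MeasureTheory
open Vale.Agent.P165 (perc openGraph pc)
open scoped ENNReal

/-- A bound on the sixteenth power of the two-point function makes the diagrams small in large
degree. -/
def SmallStmt : Prop :=
  ∀ K : ℝ, ∀ ε : ℝ, 0 < ε → ∃ K' : ℝ, ∃ D₀ : ℕ, ∀ (Γ : Type) [Group Γ] [DecidableEq Γ] [Countable Γ]
    (S : Finset Γ) (p : unitInterval), Gen S → D₀ ≤ S.card → (p : ℝ) * S.card ≤ 3 →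
    kpow (two S p) 16 1 1 ≤ ENNReal.ofReal K → Small S p (ENNReal.ofReal K') (ENNReal.ofReal ε)

/-- The lace expansion converges in large degree. -/
def LaceStmt : Prop :=
  ∀ K : ℝ, ∀ ε : ℝ, 0 < ε → ∃ D₀ : ℕ, ∀ (Γ : Type) [Group Γ] [DecidableEq Γ] [Countable Γ]
    (S : Finset Γ) (p : unitInterval), Gen S → D₀ ≤ S.card → (p : ℝ) * S.card ≤ 3 →
    chi S p ≠ ⊤ → kpow (two S p) 16 1 1 ≤ ENNReal.ofReal K → Lace S p ε

/-- The expansion makes the two-point function as small as the Green function, in the trace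
sense. -/
def TraceStmt : Prop :=
  ∃ ε₀ : ℝ, 0 < ε₀ ∧ ∃ κ : ℝ, 0 < κ ∧ ∀ (Γ : Type) [Group Γ] [DecidableEq Γ] [Countable Γ]
    (S : Finset Γ) (p : unitInterval) (g : ℝ), Gen S → S.Nonempty → (p : ℝ) * S.card ≤ 3 →
    chi S p ≠ ⊤ → Lace S p ε₀ → GreenLE S g →
    (p : ℝ) * S.card ≤ 2 ∧ kpow (two S p) 17 1 1 ≤ ENNReal.ofReal (κ * g)

/-- The mean-field lower bound on the susceptibility gives no percolation at the critical point. -/
def CriticalStmt : Prop :=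
  ∃ ε₀ : ℝ, 0 < ε₀ ∧ ∃ D₀ : ℕ, ∀ (Γ : Type) [Group Γ] [DecidableEq Γ] [Countable Γ] (S : Finset Γ),
    Gen S → D₀ ≤ S.card →
    (∀ p : unitInterval, (p : ℝ) < pc (cg S) → chi S p ≠ ⊤ ∧ (p : ℝ) * S.card ≤ 2 ∧
      ∀ x y, ∑ s ∈ S, ins s (two S p) (kpow (two S p) 2) x y ≤ ENNReal.ofReal ε₀ * S.card) →
    ∀ p : unitInterval, (p : ℝ) = pc (cg S) →
      perc Γ p {ω | ∃ x, {y | (openGraph (cg S) ω).Reachable x y}.Infinite} = 0

end Vale.Agent.P151
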