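import Mathlib
import Vale.Agent.P151.Cayley
import Vale.Agent.P151.Interfaces

/-!
The bootstrap: below the critical point the two-point function is as small as the Green function.
-/

namespace Vale.Agent.P151

open MeasureTheory Filter
open Vale.Agent.P165 (perc openGraph pc Dep)
open Vale.Agent.P165.Product (connIn dep_connIn real_mono connIn_subset_conn measurableSet_connIn)
open scoped ENNReal NNReal Topology

section Continuity

variable {W : Type}

/-- The weight of one edge state. -/
noncomputable def edgeWeight (q : ℝ) (b : Bool) : ℝ := if b then q else 1 - q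

lemma real_cylinder (S : Finset (Sym2 W)) (η : S → Bool) (p : unitInterval) :
    (perc W p).real ((S.restrict : (Sym2 W → Bool) → S → Bool) ⁻¹' {η})
      = ∏ e : S, edgeWeight p (η e) := by
  classical
  set t : Sym2 W → Set Bool := fun e => if h : e ∈ S then {η ⟨e, h⟩} else Set.univ
  have : (S.restrict : (Sym2 W → Bool) → S → Bool) ⁻¹' {η} = Set.pi (S : Set (Sym2 W)) t := by
    ext ω
    simp only [Set.mem_preimage, Set.mem_singleton_iff, Set.mem_pi, Finset.mem_coe, funext_iff,
      Finset.restrict_def, Subtype.forall]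
    exact forall₂_congr fun e he => by simp [t, he]
  rw [this, measureReal_def, perc,
    Measure.infinitePi_pi _ fun e _ => MeasurableSet.of_discrete,
    ← Finset.prod_coe_sort, ENNReal.toReal_prod]
  refine Finset.prod_congr rfl fun e _ => ?_
  simp only [t, dif_pos e.2, Subtype.coe_eta, edgeWeight]
  cases η e <;> simp

lemma continuous_real_dep {A : Set (Sym2 W → Bool)} {S : Finset (Sym2 W)} (h : Dep A S) :
    Continuous fun p : unitInterval => (perc W p).real A := by
  classical
  set B : Finset (S → Bool) := (Set.toFinite (S.restrict '' A)).toFinset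
  have e : ∀ p : unitInterval, (perc W p).real A = ∑ η ∈ B, ∏ e : S, edgeWeight p (η e) := by
    intro p
    have hA : A = ⋃ η ∈ B, (S.restrict : (Sym2 W → Bool) → S → Bool) ⁻¹' {η} := by
      conv_lhs => rw [h.eq_preimage]
      ext ω; simp [B, eq_comm]
    rw [hA, measureReal_biUnion_finset]
    · exact Finset.sum_congr rfl fun η _ => real_cylinder S η p
    · exact fun η _ η' _ hne => (Set.disjoint_singleton.2 hne).preimage _
    · exact fun η _ => Finset.measurable_restrict S MeasurableSet.of_discrete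
  simp only [e]
  refine continuous_finsetSum _ fun η _ => continuous_finsetProd _ fun i _ => ?_
  cases η i <;> simp [edgeWeight] <;> fun_prop

end Continuity

variable {Γ : Type} [Group Γ] [Countable Γ] {S : Finset Γ} {p q q₀ : unitInterval}

omit [Countable Γ] in
lemma tau_ne_top (S : Finset Γ) (p : unitInterval) (x y : Γ) : two S p x y ≠ ⊤ :=
  measure_ne_top _ _

omit [Countable Γ] in
lemma two_eq_real (S : Finset Γ) (p : unitInterval) (x y : Γ) :
    two S p x y = ENNReal.ofReal ((perc Γ p).real (Vale.Agent.P165.conn (cg S) x y)) := by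
  rw [ofReal_measureReal (measure_ne_top _ _), two, tau]
  congr 1
  ext ω
  exact conn_iff_reachable

lemma two_mono (h : (q : ℝ) ≤ q₀) (x y : Γ) : two S q x y ≤ two S q₀ x y := by
  rw [two_eq_real, two_eq_real]
  refine ENNReal.ofReal_le_ofReal (real_mono ?_ ?_ h)
  · have : Vale.Agent.P165.conn (cg S) x y = {ω | Conn (cg S) ω x y} :=
      Set.ext fun ω => conn_iff_reachable.symm
    rw [this]
    exact measurableSet_conn x y
  · exact fun ω η he hω => SimpleGraph.Reachable.mono (G := openGraph (cg S) ω)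
      (G' := openGraph (cg S) η) (fun a b hab => ⟨hab.1, he _ hab.2⟩) hω

omit [Group Γ] [Countable Γ] in
lemma kpow_le_kpow {K L : Ker Γ} (h : ∀ x y, K x y ≤ L x y) :
    ∀ n x y, kpow K n x y ≤ kpow L n x y
  | 0, _, _ => le_rfl
  | n + 1, x, y => kmul_mono (kpow_le_kpow h n) h x y

lemma tsum_row (S : Finset Γ) (p : unitInterval) (z : Γ) : ∑' y, two S p z y = chi S p := by
  rw [← (Equiv.mulLeft z).tsum_eq, chi]
  exact tsum_congr fun y => by
    simpa using inv_two S p z 1 y

lemma tsum_kpow_row (S : Finset Γ) (p : unitInterval) :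
    ∀ n x, ∑' y, kpow (two S p) n x y = chi S p ^ n
  | 0, x => by
    rw [tsum_eq_single x fun y hy => by simp [kpow, kone, Ne.symm hy]]
    simp [kpow, kone]
  | n + 1, x => by
    simp only [kpow, kmul]
    rw [ENNReal.tsum_comm]
    simp only [ENNReal.tsum_mul_left, tsum_row, ENNReal.tsum_mul_right, tsum_kpow_row S p n x]
    rw [pow_succ]

lemma kpow_ne_top (h : chi S p ≠ ⊤) (n : ℕ) (x y : Γ) : kpow (two S p) n x y ≠ ⊤ :=
  ne_top_of_le_ne_top (ENNReal.pow_ne_top h)
    ((ENNReal.le_tsum y).trans (le_of_eq (tsum_kpow_row S p n x)))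

omit [Countable Γ] in
lemma connIn_of_conn {T : Finset Γ} {ω : Sym2 Γ → Bool} {x y : Γ}
    (h : ∀ z, z ∉ T → ¬Conn (cg S) ω x z) (hc : Conn (cg S) ω x y) :
    ω ∈ connIn (cg S) T x y := by
  obtain ⟨w⟩ := conn_iff_reachable.1 hc
  clear hc
  induction w with
  | nil => exact SimpleGraph.Reachable.refl _
  | @cons a b c hab w ih =>
    have ha : a ∈ T := by
      by_contra ha
      exact h a ha (Conn.refl a)
    have hb : b ∈ T := by
      by_contra hb
      exact h b hb (conn_iff_reachable.2 hab.reachable)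
    refine (SimpleGraph.Adj.reachable
      (show (openGraph (Vale.Agent.P165.Product.inG (cg S) T) ω).Adj a b from
        ⟨⟨hab.1, ha, hb⟩, hab.2⟩)).trans (ih fun z hz hz' => h z hz ?_)
    exact conn_iff_reachable.2 (hab.reachable.trans (conn_iff_reachable.1 hz'))

lemma continuousOn_two (h : chi S q₀ ≠ ⊤) (x y : Γ) :
    ContinuousOn (fun q => (two S q x y).toReal) {q : unitInterval | (q : ℝ) ≤ q₀} := by
  classical
  have hlim : Tendsto (fun T : Finset Γ => (∑' z : {z // z ∉ T}, two S q₀ x z).toReal) atTop (𝓝 0) := by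
    have h1 := ENNReal.tendsto_tsum_compl_atTop_zero (f := fun z => two S q₀ x z)
      (by rw [tsum_row]; exact h)
    simpa [Function.comp_def] using (ENNReal.tendsto_toReal ENNReal.zero_ne_top).comp h1
  have key : TendstoUniformlyOn (fun T q => (perc Γ q).real (connIn (cg S) T x y))
      (fun q => (two S q x y).toReal) atTop {q : unitInterval | (q : ℝ) ≤ q₀} := by
    rw [Metric.tendstoUniformlyOn_iff]
    intro ε hε
    filter_upwards [(tendsto_order.1 hlim).2 ε hε] with T hT
    intro q hq
    have hsub : connIn (cg S) T x y ⊆ {ω | Conn (cg S) ω x y} := fun ω hω =>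
      conn_iff_reachable.2 (connIn_subset_conn T x y hω)
    have hdiff : ∀ ω, Conn (cg S) ω x y → ω ∉ connIn (cg S) T x y →
        ∃ z : {z // z ∉ T}, Conn (cg S) ω x z := by
      intro ω hc hn
      by_contra hall
      push Not at hall
      exact hn (connIn_of_conn (fun z hz hc' => hall ⟨z, hz⟩ hc') hc)
    have hle : two S q x y ≤ ENNReal.ofReal ((perc Γ q).real (connIn (cg S) T x y))
        + ∑' z : {z // z ∉ T}, two S q₀ x z := by
      rw [ofReal_measureReal (measure_ne_top _ _)]
      calc two S q x y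
          ≤ perc Γ q (connIn (cg S) T x y ∪ ⋃ z : {z // z ∉ T}, {ω | Conn (cg S) ω x z}) := by
            refine measure_mono fun ω hω => ?_
            by_cases h' : ω ∈ connIn (cg S) T x y
            · exact Or.inl h'
            · exact Or.inr (Set.mem_iUnion.2 (hdiff ω hω h'))
        _ ≤ _ := (measure_union_le _ _).trans (add_le_add le_rfl ((measure_iUnion_le _).trans
            (ENNReal.tsum_le_tsum fun z => two_mono hq x z)))
    have htop : ∑' z : {z // z ∉ T}, two S q₀ x z ≠ ⊤ := by
      refine ne_top_of_le_ne_top h ?_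
      rw [← tsum_row S q₀ x]
      exact ENNReal.tsum_comp_le_tsum_of_injective Subtype.val_injective (fun z => two S q₀ x z)
    have hle' := ENNReal.toReal_mono (ENNReal.add_ne_top.2 ⟨ENNReal.ofReal_ne_top, htop⟩) hle
    rw [ENNReal.toReal_add ENNReal.ofReal_ne_top htop,
      ENNReal.toReal_ofReal measureReal_nonneg] at hle'
    have hge : (perc Γ q).real (connIn (cg S) T x y) ≤ (two S q x y).toReal :=
      measureReal_mono hsub (measure_ne_top _ _)
    rw [Real.dist_eq, abs_sub_lt_iff]
    constructor <;> linarith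
  exact key.continuousOn (Frequently.of_forall fun T =>
    (continuous_real_dep (dep_connIn T x y)).continuousOn)

lemma continuousOn_kpow (h : chi S q₀ ≠ ⊤) :
    ∀ n x y, ContinuousOn (fun q => (kpow (two S q) n x y).toReal)
      {q : unitInterval | (q : ℝ) ≤ q₀}
  | 0, x, y => by simpa only [kpow] using continuousOn_const
  | n + 1, x, y => by
    have hb : ∀ q : unitInterval, (q : ℝ) ≤ q₀ → ∀ z, kpow (two S q) n x z ≤ kpow (two S q₀) n x z :=
      fun q hq z => kpow_le_kpow (two_mono hq) n x z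
    have hfin : ∑' z, kpow (two S q₀) n x z * two S q₀ z y ≠ ⊤ := kpow_ne_top h (n + 1) x y
    refine ContinuousOn.congr (f := fun q => ∑' z, (kpow (two S q) n x z).toReal
      * (two S q z y).toReal) (continuousOn_tsum (fun z => (continuousOn_kpow h n x z).mul
      (continuousOn_two h z y)) (ENNReal.summable_toReal hfin) fun z q hq => ?_) fun q hq => ?_
    · rw [Real.norm_eq_abs, abs_of_nonneg (mul_nonneg ENNReal.toReal_nonneg ENNReal.toReal_nonneg),
        ← ENNReal.toReal_mul]
      exact ENNReal.toReal_mono (ENNReal.ne_top_of_tsum_ne_top hfin z)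
        (mul_le_mul' (hb q hq z) (two_mono hq z y))
    · simp only [kpow, kmul]
      rw [ENNReal.tsum_toReal_eq fun z => ?_]
      · simp only [ENNReal.toReal_mul]
      · exact ne_top_of_le_ne_top (ENNReal.ne_top_of_tsum_ne_top hfin z)
          (mul_le_mul' (hb q hq z) (two_mono hq z y))

lemma kpow_zero_one (hS : Gen S) : ∀ n, kpow (two S 0) n 1 1 = 1 := by
  have h0 : two S (0 : unitInterval) = kone := by
    funext x y
    refine le_antisymm ?_ (oneLE_two S 0 x y)
    simpa using two_le_step (p := 0) hS x y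
  have h1 : ∀ n, kpow (kone : Ker Γ) n = kone := by
    intro n
    induction n with
    | zero => rfl
    | succ n ih => rw [kpow, ih, kone_kmul]
  intro n
  rw [h0, h1]
  simp [kone]

/-- The bootstrap. -/
theorem boot (hsm : SmallStmt) (hl : LaceStmt) (ht : TraceStmt) (g eps : ℝ) (heps : 0 < eps) :
    ∃ K : ℝ, ∃ D₀ : ℕ, ∀ (Γ : Type) [Group Γ] [DecidableEq Γ] [Countable Γ] (S : Finset Γ),
      Gen S → D₀ ≤ S.card → GreenLE S g → ∀ p : unitInterval, (p : ℝ) < pc (cg S) →
        chi S p ≠ ⊤ ∧ (p : ℝ) * S.card ≤ 2 ∧ kpow (two S p) 16 1 1 ≤ ENNReal.ofReal K ∧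
        ∀ x y, ∑ s ∈ S, ins s (two S p) (kpow (two S p) 2) x y
          ≤ ENNReal.ofReal eps * S.card := by
  obtain ⟨e₀, he₀, κ, hκ, htr⟩ := ht
  set K : ℝ := |κ * g| + 1
  have hK : 1 ≤ K := le_add_of_nonneg_left (abs_nonneg _)
  obtain ⟨K', D₁, hD₁⟩ := hsm K eps heps
  obtain ⟨D₂, hD₂⟩ := hl (3 * K) e₀ he₀
  refine ⟨K, max (max D₁ D₂) 1, ?_⟩
  intro Γ _ _ _ S hS hD hG p hp
  have hne : S.Nonempty := Finset.card_pos.1 (lt_of_lt_of_le Nat.one_pos ((le_max_right _ _).trans hD))
  have htop : ∀ q : unitInterval, (q : ℝ) ≤ p → chi S q ≠ ⊤ := fun q hq =>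
    chi_ne_top (lt_of_le_of_lt hq hp)
  have step : ∀ q : unitInterval, (q : ℝ) ≤ p → (q : ℝ) * S.card ≤ 3 →
      (kpow (two S q) 17 1 1).toReal ≤ 3 * K →
      (q : ℝ) * S.card ≤ 2 ∧ (kpow (two S q) 17 1 1).toReal ≤ K := by
    intro q hq hqD hF
    have h17 : kpow (two S q) 17 1 1 ≤ ENNReal.ofReal (3 * K) :=
      (ENNReal.le_ofReal_iff_toReal_le (kpow_ne_top (htop q hq) _ _ _) (by linarith)).2 hF
    have h16 := (kpow_mono (oneLE_two S q) (by norm_num : (16 : ℕ) ≤ 17) 1 1).trans h17
    obtain ⟨h2, hT⟩ := htr Γ S q g hS hne hqD (htop q hq)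
      (hD₂ Γ S q hS (((le_max_right _ _).trans (le_max_left _ _)).trans hD) hqD (htop q hq) h16) hG
    refine ⟨h2, (ENNReal.toReal_mono ENNReal.ofReal_ne_top hT).trans ?_⟩
    rw [ENNReal.toReal_ofReal']
    exact max_le (by linarith [le_abs_self (κ * g)]) (by linarith)
  set f : ℝ → ℝ := fun r =>
    max ((kpow (two S (Set.projIcc 0 1 zero_le_one r)) 17 1 1).toReal / (3 * K))
      (((Set.projIcc (0 : ℝ) 1 zero_le_one r : unitInterval) : ℝ) * S.card / 3)
  have hproj : ∀ r ∈ Set.Icc (0 : ℝ) p,
      ((Set.projIcc (0 : ℝ) 1 zero_le_one r : unitInterval) : ℝ) = r := fun r hr => by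
    rw [Set.projIcc_of_mem zero_le_one ⟨hr.1, hr.2.trans p.2.2⟩]
  have hc : ContinuousOn f (Set.Icc 0 p) := by
    refine ContinuousOn.sup (ContinuousOn.div_const ?_ _) ?_
    · exact (continuousOn_kpow (htop p le_rfl) 17 1 1).comp continuous_projIcc.continuousOn
        fun r hr => by
          simp only [Set.mem_ofPred_eq]
          rw [hproj r hr]
          exact hr.2
    · fun_prop
  have gap : ∀ r ∈ Set.Icc (0 : ℝ) p, f r ≤ 1 → f r ≤ 2 / 3 := by
    intro r hr hf
    obtain ⟨h1, h2⟩ := max_le_iff.1 hf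
    rw [div_le_one (by positivity)] at h1 h2
    obtain ⟨h3, h4⟩ := step (Set.projIcc 0 1 zero_le_one r) (by rw [hproj r hr]; exact hr.2) h2 h1
    refine max_le ?_ ?_
    · rw [div_le_iff₀ (by positivity)]; linarith
    · rw [div_le_iff₀ (by norm_num)]; linarith
  have f0 : f 0 ≤ 1 := by
    refine max_le ?_ ?_
    · rw [Set.projIcc_left, div_le_one (by positivity)]
      have := kpow_zero_one hS 17
      rw [show (⟨0, Set.left_mem_Icc.2 zero_le_one⟩ : unitInterval) = 0 from rfl, this]
      simp only [ENNReal.toReal_one]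
      linarith
    · simp
  have fp : f p ≤ 1 := by
    by_contra hgt
    obtain ⟨r, hr, hr1⟩ := intermediate_value_Icc p.2.1 hc ⟨f0, (not_le.1 hgt).le⟩
    linarith [gap r hr hr1.le]
  have hpp : Set.projIcc 0 1 zero_le_one (p : ℝ) = p := Set.projIcc_val _ p
  obtain ⟨h1, h2⟩ := max_le_iff.1 fp
  rw [hpp, div_le_one (by positivity)] at h1 h2
  obtain ⟨h3, h4⟩ := step p le_rfl h2 h1
  have h16 : kpow (two S p) 16 1 1 ≤ ENNReal.ofReal K :=
    (kpow_mono (oneLE_two S p) (by norm_num : (16 : ℕ) ≤ 17) 1 1).trans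
      ((ENNReal.le_ofReal_iff_toReal_le (kpow_ne_top (htop p le_rfl) _ _ _) (by linarith)).2 h4)
  refine ⟨htop p le_rfl, h3, h16, ?_⟩
  exact (hD₁ Γ S p hS (((le_max_left _ _).trans (le_max_left _ _)).trans hD)
    (by linarith) h16).mid_le

end Vale.Agent.P151
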