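import Mathlib
import Vale.Agent.P151.Cayley

/-!
The lace expansion: the first pivotal decomposition and the factorisation at the pivotal edge.
-/

namespace Vale.Agent.P151

open MeasureTheory SimpleGraph
open Vale.Agent.P165 (perc openGraph)
open scoped ENNReal NNReal

section Generic

variable {α : Type} [Countable α] {p : unitInterval}

lemma bern_inter_openOcc {A : Set (α → Bool)} {T : Finset α} (hA : DepOn A T)
    (F : Set (Finset α)) (hF : ∀ s ∈ F, Disjoint s T) :
    bern α p (A ∩ openOcc F) = bern α p A * bern α p (openOcc F) := by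
  classical
  have := Encodable.ofCountable α
  set G : ℕ → Set (Finset α) := fun k => {s | s ∈ F ∧ Encodable.encode s < k} with hG
  have hU : openOcc F = ⋃ k, openOcc (G k) := by
    ext ω
    refine ⟨fun ⟨s, hs, ho⟩ => Set.mem_iUnion.2 ⟨Encodable.encode s + 1, s, ⟨hs, Nat.lt_succ_self _⟩, ho⟩,
      fun h => ?_⟩
    obtain ⟨k, s, hs, ho⟩ := Set.mem_iUnion.1 h
    exact ⟨s, hs.1, ho⟩
  have hmono : Monotone fun k => openOcc (G k) :=
    fun k l hkl ω ⟨s, hs, ho⟩ => ⟨s, ⟨hs.1, hs.2.trans_le hkl⟩, ho⟩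
  have hmono' : Monotone fun k => A ∩ openOcc (G k) :=
    fun k l hkl => Set.inter_subset_inter_right _ (hmono hkl)
  rw [hU, Set.inter_iUnion, hmono'.measure_iUnion, hmono.measure_iUnion, ENNReal.mul_iSup]
  refine iSup_congr fun k => ?_
  have hfin : (G k).Finite :=
    ((Set.finite_lt_nat k).preimage Encodable.encode_injective.injOn).subset fun s hs => hs.2
  refine bern_inter_of_disjoint hA
    (depOn_openOcc (E := hfin.toFinset.biUnion id) fun s hs a ha =>
      Finset.mem_biUnion.2 ⟨s, hfin.mem_toFinset.2 hs, ha⟩) ?_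
  refine Finset.disjoint_left.2 fun a ha ha' => ?_
  obtain ⟨s, hs, has⟩ := Finset.mem_biUnion.1 ha'
  exact Finset.disjoint_left.1 (hF s (hfin.mem_toFinset.1 hs).1) has ha

end Generic

section Congr

variable {W : Type} {H : SimpleGraph W} {ω σ : Sym2 W → Bool} {C : Set W} {v u a b : W}

/-- The configurations agree on the edges touching `C`, and `C` is closed. -/
def Sealed (H : SimpleGraph W) (C : Set W) (ω σ : Sym2 W → Bool) : Prop :=
  (∀ c d, H.Adj c d → ω s(c, d) = true → c ∈ C → d ∈ C) ∧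
    ∀ c d, H.Adj c d → c ∈ C → ω s(c, d) = σ s(c, d)

lemma Sealed.symm (h : Sealed H C ω σ) : Sealed H C σ ω :=
  ⟨fun c d hcd ho hc => h.1 c d hcd ((h.2 c d hcd hc).trans ho) hc,
    fun c d hcd hc => (h.2 c d hcd hc).symm⟩

lemma Sealed.del (h : Sealed H C ω σ) (e : Sym2 W) :
    Sealed H C (Vale.Agent.P151.del e ω) (Vale.Agent.P151.del e σ) := by
  refine ⟨fun c d hcd ho hc => h.1 c d hcd (del_eq_true.1 ho).2 hc, fun c d hcd hc => ?_⟩
  have := h.2 c d hcd hc
  rcases eq_or_ne (s(c, d)) e with rfl | hne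
  · simp [Vale.Agent.P151.del]
  · simp [Vale.Agent.P151.del, hne, this]

lemma Sealed.avoid (h : Sealed H C ω σ) (A : Set W) :
    Sealed H C (Vale.Agent.P151.avoid A ω) (Vale.Agent.P151.avoid A σ) :=
  ⟨fun c d hcd ho hc => h.1 c d hcd (avoid_eq_true.1 ho).1 hc,
    fun c d hcd hc => by simp [Vale.Agent.P151.avoid, h.2 c d hcd hc]⟩

lemma Sealed.conn_iff (h : Sealed H C ω σ) (ha : a ∈ C) : Conn H ω a b ↔ Conn H σ a b :=
  ⟨fun h' => (h'.congr_closed h.1 h.2 ha).2, fun h' => (h'.congr_closed h.symm.1 h.symm.2 ha).2⟩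

lemma Sealed.mem (h : Sealed H C ω σ) (ha : a ∈ C) (hc : Conn H ω a b) : b ∈ C :=
  (hc.congr_closed h.1 h.2 ha).1

lemma Sealed.thru_iff (h : Sealed H C ω σ) (hv : v ∈ C) (A : Set W) :
    Thru H A ω v b ↔ Thru H A σ v b := by
  simp only [Thru, Off, h.conn_iff hv, (h.avoid A).conn_iff hv]

lemma Sealed.ev_imp (h : Sealed H C ω σ) (hv : v ∈ C) {A : Set W} (he : Ev H A ω v u) :
    Ev H A σ v u := by
  refine ⟨(h.thru_iff hv A).1 he.1, fun u' w' hp ht => ?_⟩
  obtain ⟨ha, ho, h1, h2, h3⟩ := hp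
  have hu' : u' ∈ C := h.symm.mem hv h1.of_del
  have hw' : w' ∈ C := h.symm.mem hu' (conn_of_adj ha ho)
  refine he.2 u' w' ⟨ha, (h.2 u' w' ha hu').trans ho, ((h.del _).conn_iff hv).2 h1,
    ((h.del _).conn_iff hw').2 h2, fun h' => h3 (((h.del _).conn_iff hv).1 h')⟩
    ((h.thru_iff hv A).2 ht)

lemma sealed_cl (hag : ∀ c d, H.Adj c d → c ∈ cl H ω v → ω s(c, d) = σ s(c, d)) :
    Sealed H (cl H ω v) ω σ := ⟨cl_closed v, hag⟩

lemma Sealed.cl_eq (h : Sealed H (cl H ω v) ω σ) : cl H σ v = cl H ω v := by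
  ext y
  exact (h.conn_iff (Conn.refl v)).symm

end Congr

variable {Γ : Type} [Group Γ] [Countable Γ] {S : Finset Γ} {p : unitInterval}

/-- Almost surely every cluster is finite when the susceptibility is finite. -/
lemma ae_cl_finite (hχ : chi S p ≠ ⊤) (v : Γ) :
    perc Γ p {ω | (cl (cg S) ω v).Infinite} = 0 := by
  classical
  have hint : ∫⁻ ω, ∑' x, {ω | Conn (cg S) ω v x}.indicator (fun _ => (1 : ℝ≥0∞)) ω ∂perc Γ p ≠ ⊤ := by
    have hm : ∀ x, Measurable fun ω =>
        {ω | Conn (cg S) ω v x}.indicator (fun _ => (1 : ℝ≥0∞)) ω :=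
      fun x => measurable_const.indicator (measurableSet_conn v x)
    rw [lintegral_tsum fun x => (hm x).aemeasurable]
    simp only [lintegral_indicator_const (measurableSet_conn v _), one_mul]
    convert hχ using 1
    show ∑' x, two S p v x = chi S p
    rw [chi, ← (Equiv.mulLeft v).tsum_eq]
    exact tsum_congr fun x => by simpa using inv_two S p v 1 x
  have h1 := ae_lt_top (Measurable.tsum fun x => (measurable_const (a := (1 : ℝ≥0∞))).indicator
    (measurableSet_conn v x)) hint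
  refine measure_mono_null (fun ω hω => ?_) (ae_iff.1 h1)
  simp only [Set.mem_ofPred_eq, not_lt, top_le_iff]
  have : ∀ x ∈ cl (cg S) ω v, {ω | Conn (cg S) ω v x}.indicator (fun _ => (1 : ℝ≥0∞)) ω = 1 :=
    fun x hx => Set.indicator_of_mem (show ω ∈ {ω | Conn (cg S) ω v x} from hx) _
  refine eq_top_iff.2 ?_
  refine le_trans ?_ (ENNReal.tsum_comp_le_tsum_of_injective
    (Subtype.val_injective : Function.Injective (Subtype.val : cl (cg S) ω v → Γ)) _)
  have hi : Infinite (cl (cg S) ω v) := hω.to_subtype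
  rw [tsum_congr fun x : cl (cg S) ω v => this x x.2]
  exact le_of_eq (ENNReal.tsum_const_eq_top_of_ne_zero one_ne_zero).symm

/-- The weight of the cluster `C` of `v` in the expansion step at (u, w). -/
noncomputable def ker (S : Finset Γ) (p : unitInterval) (A : Set Γ) (v u w : Γ) (C : Finset Γ) :
    ℝ≥0∞ :=
  perc Γ p {ω | cl (cg S) (del s(u, w) ω) v = ↑C ∧ Ev (cg S) A ω v u}

lemma measurableSet_cl (e : Sym2 Γ) (v : Γ) (C : Set Γ) :
    MeasurableSet {ω | cl (cg S) (del e ω) v = C} := by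
  have : {ω | cl (cg S) (del e ω) v = C} = ⋂ y, {ω | Conn (cg S) (del e ω) v y ↔ y ∈ C} := by
    ext ω; simp [cl, Set.ext_iff]
  rw [this]
  refine MeasurableSet.iInter fun y => ?_
  by_cases hy : y ∈ C
  · simp only [hy, iff_true]; exact measurable_del e (measurableSet_conn v y)
  · simp only [hy, iff_false]; exact (measurable_del e (measurableSet_conn v y)).compl

/-- The factorisation at the first pivotal edge. -/
lemma perc_ev_piv (hS : Gen S) (hχ : chi S p ≠ ⊤) (A : Set Γ) (v x u : Γ) {t : Γ} (ht : t ∈ S) :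
    perc Γ p {ω | Ev (cg S) A ω v u ∧ Piv (cg S) ω v x u (u * t)} =
      ENNReal.ofReal p * ∑' C : Finset Γ,
        ker S p A v u (u * t) C * perc Γ p {ω | Off (cg S) ↑C ω (u * t) x} := by
  classical
  set w := u * t
  have hadj : (cg S).Adj u w := dart_adj hS ht
  set E := {ω | Ev (cg S) A ω v u ∧ Piv (cg S) ω v x u w}
  have hEm : MeasurableSet E := (measurableSet_ev A v u).inter (measurableSet_piv v x u w)
  set F := fun C : Finset Γ => E ∩ {ω | cl (cg S) (del s(u, w) ω) v = ↑C}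
  have hE : perc Γ p E = ∑' C, perc Γ p (F C) := by
    rw [← measure_iUnion (fun C C' hne => Set.disjoint_left.2 fun ω h h' =>
      hne (Finset.coe_injective (h.2.symm.trans h'.2))) fun C => hEm.inter (measurableSet_cl _ v _)]
    refine le_antisymm ?_ (measure_mono (Set.iUnion_subset fun C => Set.inter_subset_left))
    refine le_trans (measure_mono (t := (⋃ C, F C) ∪ {ω | (cl (cg S) ω v).Infinite}) ?_)
      ((measure_union_le _ _).trans (by rw [ae_cl_finite hχ v, add_zero]))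
    intro ω hω
    by_cases h : (cl (cg S) (del s(u, w) ω) v).Finite
    · exact Or.inl (Set.mem_iUnion.2 ⟨h.toFinset, hω, h.coe_toFinset.symm⟩)
    · exact Or.inr (Set.Infinite.mono (fun y hy => hy.of_del) h)
  rw [hE, ← ENNReal.tsum_mul_left]
  refine tsum_congr fun C => ?_
  set e := s(u, w)
  by_cases hw : w ∈ C
  · have h1 : F C = ∅ := Set.eq_empty_of_forall_notMem fun ω ⟨⟨_, hp⟩, hc⟩ =>
      hp.2.2.2.2 (show w ∈ cl (cg S) (del e ω) v from hc ▸ hw)
    have h2 : {ω : Sym2 Γ → Bool | Off (cg S) ↑C ω w x} = ∅ :=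
      Set.eq_empty_of_forall_notMem fun ω h => h.2 hw
    simp [h1, h2]
  set X := {ω | cl (cg S) (del e ω) v = ↑C ∧ Ev (cg S) A (del e ω) v u}
  have hker : ker S p A v u w C = perc Γ p X := by
    refine congrArg _ (Set.ext fun ω => and_congr_right fun hc => ?_)
    have hn : ¬Conn (cg S) (del e ω) v w := fun h => hw (Finset.mem_coe.1 (hc ▸ h))
    by_cases hu : Conn (cg S) (del e ω) v u
    · exact ev_del_iff hu hn
    refine iff_of_false (fun h => hu ?_) fun h => hu h.1.1
    refine (h.1.1.congr_closed (C := cl (cg S) (del e ω) v) (σ := del e ω) ?_ ?_ (Conn.refl v)).1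
    · intro c d hcd ho hc'
      refine cl_closed v c d hcd (del_eq_true.2 ⟨fun hce => ?_, ho⟩) hc'
      rcases Sym2.eq_iff.1 hce with ⟨rfl, rfl⟩ | ⟨rfl, rfl⟩
      · exact hu hc'
      · exact hn hc'
    · intro c d hcd hc'
      have : s(c, d) ≠ e := fun hce => by
        rcases Sym2.eq_iff.1 hce with ⟨rfl, rfl⟩ | ⟨rfl, rfl⟩
        · exact hu hc'
        · exact hn hc'
      simp [del, this]
  have hF : F C = (X ∩ isOpen e) ∩ {ω | Off (cg S) ↑C ω w x} := by
    ext ω
    constructor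
    · rintro ⟨⟨hev, hp⟩, hc⟩
      obtain ⟨-, ho, hvu, hwx, hn⟩ := hp
      refine ⟨⟨⟨hc, (ev_del_iff hvu hn).1 hev⟩, ho⟩, off_iff.2 ?_⟩
      obtain ⟨q, hq⟩ := hwx
      refine ⟨q, hq.imp fun f hf => (del_eq_true.1 hf).2, fun z hz hzC => hn ?_⟩
      exact (show z ∈ cl (cg S) (del e ω) v from hc ▸ hzC).trans (hq.conn_start_mem hz).symm
    · rintro ⟨⟨⟨hc, hev⟩, ho⟩, hoff⟩
      have hvu : Conn (cg S) (del e ω) v u := hev.1.1
      have hn : ¬Conn (cg S) (del e ω) v w := fun h => hw (Finset.mem_coe.1 (hc ▸ h))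
      obtain ⟨q, hq, hqs⟩ := off_iff.1 hoff
      have hqe : e ∉ q.edges := fun he =>
        hqs u (q.fst_mem_support_of_mem_edges he) (hc ▸ hvu)
      exact ⟨⟨(ev_del_iff hvu hn).2 hev, hadj, ho, hvu, hq.conn_del hqe, hn⟩, hc⟩
  set T : Finset (Sym2 Γ) := (Vale.Agent.P165.Product.edgesAt (cg S) C).erase e
  have hX : DepOn X T := by
    rintro ω σ hag ⟨hc, hev⟩
    have hsl : Sealed (cg S) (cl (cg S) (del e ω) v) (del e ω) (del e σ) := by
      refine sealed_cl fun c d hcd hc' => ?_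
      rcases eq_or_ne (s(c, d)) e with h | h
      · simp [del, h]
      · simp only [del, Function.update_of_ne h]
        exact hag _ (Finset.mem_erase.2 ⟨h,
          Vale.Agent.P165.Product.mem_edgesAt (Finset.mem_coe.1 (hc ▸ hc')) hcd⟩)
    exact ⟨hsl.cl_eq.trans hc, hsl.ev_imp (Conn.refl v) hev⟩
  by_cases hu : u ∈ C
  · have h1 : perc Γ p (X ∩ isOpen e) = perc Γ p X * ENNReal.ofReal p := by
      rw [← bern_isOpen (p := p) e]
      exact bern_inter_of_disjoint hX (depOn_isOpen e) (by simp [T])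
    set T' := Vale.Agent.P165.Product.edgesAt (cg S) C
    have heT : e ∈ T' := Vale.Agent.P165.Product.mem_edgesAt hu hadj
    let Fo : Set (Finset (Sym2 Γ)) := {s | ∃ q : (cg S).Walk w x,
      (∀ z ∈ q.support, z ∉ (↑C : Set Γ)) ∧ q.edges.toFinset = s}
    have hY : {ω : Sym2 Γ → Bool | Off (cg S) ↑C ω w x} = openOcc Fo := by
      ext ω
      simp only [Set.mem_ofPred_eq, off_iff, openOcc, Fo]
      constructor
      · rintro ⟨q, hq, hs⟩
        exact ⟨_, ⟨q, hs, rfl⟩, fun f hf => hq f (List.mem_toFinset.1 hf)⟩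
      · rintro ⟨_, ⟨q, hs, rfl⟩, ho⟩
        exact ⟨q, fun f hf => ho f (List.mem_toFinset.2 hf), hs⟩
    have hXT : DepOn (X ∩ isOpen e) T' :=
      (hX.mono (Finset.erase_subset _ _)).inter ((depOn_isOpen e).mono (by simpa using heT))
    have hFo : ∀ s ∈ Fo, Disjoint s T' := by
      rintro _ ⟨q, hs, rfl⟩
      refine Finset.disjoint_left.2 fun f hf hf' => ?_
      obtain ⟨z, hzC, hz⟩ := Finset.mem_biUnion.1 hf'
      obtain ⟨y, -, rfl⟩ := Finset.mem_image.1 hz
      exact hs z (q.fst_mem_support_of_mem_edges (List.mem_toFinset.1 hf)) (Finset.mem_coe.2 hzC)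
    have h2 : perc Γ p ((X ∩ isOpen e) ∩ openOcc Fo)
        = perc Γ p (X ∩ isOpen e) * perc Γ p (openOcc Fo) := bern_inter_openOcc hXT Fo hFo
    rw [hF, hker, hY, h2, h1]
    ring
  · have h0 : X = ∅ := Set.eq_empty_of_forall_notMem fun ω ⟨hc, hev⟩ =>
      hu (Finset.mem_coe.1 (hc ▸ (hev.1.1 : u ∈ cl (cg S) (del e ω) v)))
    rw [hF, hker, h0]
    simp

lemma tsum_ker_le (A : Set Γ) (v u w : Γ) :
    ∑' C, ker S p A v u w C ≤ perc Γ p {ω | Ev (cg S) A ω v u} := by
  classical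
  set Fc : Finset Γ → Set (Sym2 Γ → Bool) := fun C =>
    {ω | cl (cg S) (del s(u, w) ω) v = ↑C ∧ Ev (cg S) A ω v u}
  refine le_trans (le_of_eq ?_) (measure_mono (s := ⋃ C, Fc C)
    (Set.iUnion_subset fun C ω h => h.2))
  have hm : ∀ C, MeasurableSet (Fc C) := fun C =>
    (measurableSet_cl _ v _).inter (measurableSet_ev A v u)
  rw [measure_iUnion (fun C C' hne => Set.disjoint_left.2 fun ω h h' =>
    hne (Finset.coe_injective (h.1.symm.trans h'.1))) hm]
  rfl

lemma tsum_ker (hχ : chi S p ≠ ⊤) (A : Set Γ) (v u w : Γ) :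
    ∑' C, ker S p A v u w C = perc Γ p {ω | Ev (cg S) A ω v u} := by
  classical
  refine le_antisymm (tsum_ker_le A v u w) (le_trans (measure_mono (t := (⋃ C : Finset Γ,
    {ω | cl (cg S) (del s(u, w) ω) v = ↑C ∧ Ev (cg S) A ω v u}) ∪ {ω | (cl (cg S) ω v).Infinite})
    fun ω hω => ?_) ((measure_union_le _ _).trans ?_))
  · by_cases h : (cl (cg S) (del s(u, w) ω) v).Finite
    · exact Or.inl (Set.mem_iUnion.2 ⟨h.toFinset, h.coe_toFinset.symm, hω⟩)
    · exact Or.inr (Set.Infinite.mono (fun y hy => hy.of_del) h)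
  · rw [ae_cl_finite hχ v, add_zero]
    exact measure_iUnion_le _

lemma tsum_ker_mem_le (A : Set Γ) (v u w b : Γ) :
    ∑' C : Finset Γ, ker S p A v u w C * (↑C : Set Γ).indicator 1 b ≤
      perc Γ p {ω | Ev (cg S) A ω v u ∧ Conn (cg S) ω v b} := by
  classical
  set Fc : Finset Γ → Set (Sym2 Γ → Bool) := fun C =>
    {ω | (cl (cg S) (del s(u, w) ω) v = ↑C ∧ Ev (cg S) A ω v u) ∧ b ∈ C}
  refine le_trans (le_of_eq ?_) (measure_mono (s := ⋃ C, Fc C)
    (Set.iUnion_subset fun C ω h => ⟨h.1.2, (show b ∈ cl (cg S) (del s(u, w) ω) v from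
      h.1.1 ▸ Finset.mem_coe.2 h.2).of_del⟩))
  have hm : ∀ C, MeasurableSet (Fc C) := fun C =>
    ((measurableSet_cl _ v _).inter (measurableSet_ev A v u)).inter (MeasurableSet.const _)
  rw [measure_iUnion (fun C C' hne => Set.disjoint_left.2 fun ω h h' =>
    hne (Finset.coe_injective (h.1.1.symm.trans h'.1.1))) hm]
  refine tsum_congr fun C => ?_
  by_cases hb : b ∈ C
  · simp [ker, Fc, hb]
  · simp [Fc, hb]

/-- The step of the expansion. -/
noncomputable def estep (S : Finset Γ) (p : unitInterval) (f : Set Γ → Γ → Γ → ℝ≥0∞)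
    (A : Set Γ) (v x : Γ) : ℝ≥0∞ :=
  ENNReal.ofReal p * ∑' u, ∑ s ∈ S, ∑' C : Finset Γ, ker S p A v u (u * s) C * f ↑C (u * s) x

/-- The lace expansion coefficients. -/
noncomputable def pie (S : Finset Γ) (p : unitInterval) : ℕ → Set Γ → Γ → Γ → ℝ≥0∞
  | 0 => fun A v x => perc Γ p {ω | Ev (cg S) A ω v x}
  | n + 1 => estep S p (pie S p n)

/-- The remainders of the expansion. -/
noncomputable def rest (S : Finset Γ) (p : unitInterval) : ℕ → Set Γ → Γ → Γ → ℝ≥0∞
  | 0 => fun A v x => perc Γ p {ω | Thru (cg S) A ω v x}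
  | n + 1 => estep S p (rest S p n)

/-- A coefficient composed with a step and the two-point function. -/
noncomputable def tail (S : Finset Γ) (p : unitInterval) (f : Set Γ → Γ → Γ → ℝ≥0∞)
    (A : Set Γ) (v x : Γ) : ℝ≥0∞ :=
  ENNReal.ofReal p * ∑' u, ∑ s ∈ S, f A v u * two S p (u * s) x

lemma rest_zero_add (hS : Gen S) (hχ : chi S p ≠ ⊤) (A : Set Γ) (v x : Γ) :
    rest S p 0 A v x + rest S p 1 A v x =
      pie S p 0 A v x + tail S p (pie S p 0) A v x := by
  classical
  set E : Γ × S → Set (Sym2 Γ → Bool) := fun i =>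
    {ω | Ev (cg S) A ω v i.1 ∧ Piv (cg S) ω v x i.1 (i.1 * i.2)}
  have hEm : ∀ i, MeasurableSet (E i) := fun i =>
    (measurableSet_ev A v _).inter (measurableSet_piv v x _ _)
  have h0 : rest S p 0 A v x = pie S p 0 A v x + ∑' i, perc Γ p (E i) := by
    simp only [rest, pie]
    rw [← measure_iUnion ?_ hEm, ← measure_union ?_ (MeasurableSet.iUnion hEm)]
    · congr 1
      ext ω
      simp only [E, Set.mem_ofPred_eq, Set.mem_union, Set.mem_iUnion, ev_or_piv]
      refine or_congr_right ⟨fun ⟨u, w, he, hp⟩ => ?_, fun ⟨i, he, hp⟩ => ⟨_, _, he, hp⟩⟩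
      exact ⟨(u, ⟨u⁻¹ * w, hS.adj_iff.1 hp.1⟩), he, by simpa using hp⟩
    · refine Set.disjoint_left.2 fun ω hω hω' => ?_
      obtain ⟨i, he, hp⟩ := Set.mem_iUnion.1 hω'
      exact Ev.not_piv hω ⟨_, _, he, hp⟩
    · intro i j hij
      refine Set.disjoint_left.2 fun ω hi hj => hij ?_
      obtain ⟨h1, h2⟩ := ev_piv_unique hi.1 hi.2 hj.1 hj.2
      exact Prod.ext h1 (Subtype.ext (mul_left_cancel (h1 ▸ h2)))
  have h1 : ∀ (C : Finset Γ) w, perc Γ p {ω | Thru (cg S) ↑C ω w x}
      + perc Γ p {ω | Off (cg S) ↑C ω w x} = two S p w x := by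
    intro C w
    rw [← measure_union ?_ ?_]
    · congr 1
      ext ω
      refine ⟨?_, fun h => (em _).elim Or.inr fun h' => Or.inl ⟨h, h'⟩⟩
      rintro (h | h)
      · exact h.1
      · obtain ⟨q, hq, -⟩ := off_iff.1 h
        exact ⟨q, hq⟩
    · exact Set.disjoint_left.2 fun ω h h' => h.2 h'
    · exact (measurable_avoid _ (measurableSet_conn w x)).inter (MeasurableSet.const _)
  rw [h0, add_assoc]
  congr 1
  rw [ENNReal.tsum_prod']
  simp only [E, rest, pie, estep, tail, tsum_fintype]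
  rw [← ENNReal.tsum_mul_left, ← ENNReal.tsum_mul_left, ← ENNReal.tsum_add]
  refine tsum_congr fun u => ?_
  rw [Finset.sum_coe_sort S
      fun s => perc Γ p {ω | Ev (cg S) A ω v u ∧ Piv (cg S) ω v x u (u * s)},
    Finset.mul_sum, Finset.mul_sum, ← Finset.sum_add_distrib]
  refine Finset.sum_congr rfl fun s hs => ?_
  rw [perc_ev_piv hS hχ A v x u hs, ← mul_add, ← ENNReal.tsum_add]
  congr 1
  rw [← tsum_ker hχ A v u (u * s), ← ENNReal.tsum_mul_right]
  exact tsum_congr fun C => by rw [← mul_add, add_comm, h1]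

omit [Countable Γ] in
lemma estep_add (f g : Set Γ → Γ → Γ → ℝ≥0∞) (A : Set Γ) (v x : Γ) :
    estep S p (fun A v x => f A v x + g A v x) A v x = estep S p f A v x + estep S p g A v x := by
  simp only [estep, mul_add, ENNReal.tsum_add, Finset.sum_add_distrib]

omit [Countable Γ] in
lemma estep_tail (f : Set Γ → Γ → Γ → ℝ≥0∞) (A : Set Γ) (v x : Γ) :
    estep S p (tail S p f) A v x = tail S p (estep S p f) A v x := by
  classical
  have sw : ∀ g : Γ → S → Finset Γ → Γ → S → ℝ≥0∞,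
      ∑' a, ∑' b, ∑' c, ∑' d, ∑' e, g a b c d e = ∑' d, ∑' e, ∑' a, ∑' b, ∑' c, g a b c d e := by
    intro g
    have := ENNReal.tsum_comm
      (f := fun (x : Γ × S × Finset Γ) (y : Γ × S) => g x.1 x.2.1 x.2.2 y.1 y.2)
    simp only [ENNReal.tsum_prod'] at this
    exact this
  simp only [estep, tail, ← Finset.sum_coe_sort S, ← tsum_fintype (L := .unconditional _),
    ← ENNReal.tsum_mul_left, ← ENNReal.tsum_mul_right]
  rw [sw]
  refine tsum_congr fun d => tsum_congr fun e => tsum_congr fun a => tsum_congr fun b =>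
    tsum_congr fun c => by ring

/-- The expansion identity. -/
theorem rest_add (hS : Gen S) (hχ : chi S p ≠ ⊤) : ∀ n (A : Set Γ) (v x : Γ),
    rest S p n A v x + rest S p (n + 1) A v x = pie S p n A v x + tail S p (pie S p n) A v x
  | 0 => rest_zero_add hS hχ
  | n + 1 => fun A v x => by
    show estep S p (rest S p n) A v x + estep S p (rest S p (n + 1)) A v x = _
    rw [← estep_add]
    have : (fun A v x => rest S p n A v x + rest S p (n + 1) A v x) =
        fun A v x => pie S p n A v x + tail S p (pie S p n) A v x := by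
      funext A v x; exact rest_add hS hχ n A v x
    rw [this, estep_add, estep_tail]
    rfl

end Vale.Agent.P151
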