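import Mathlib
import Vale.Agent.P151.Expansion

/-!
Bounds on the coefficients of the expansion, with and without a squared length.
-/

namespace Vale.Agent.P151

open scoped ENNReal NNReal

variable {Γ : Type} [Group Γ] {S : Finset Γ} {p : unitInterval} {K ε : ℝ≥0∞} {l : Γ → ℝ≥0}

/-- The squared length of the displacement from `x` to `y`. -/
noncomputable def dsq (l : Γ → ℝ≥0) (x y : Γ) : ℝ≥0∞ := (l (x⁻¹ * y) : ℝ≥0∞) ^ 2

/-- The energy of a length. -/
noncomputable def energy (S : Finset Γ) (p : unitInterval) (l : Γ → ℝ≥0) : ℝ≥0∞ :=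
  ENNReal.ofReal p * ∑ s ∈ S, (l s : ℝ≥0∞) ^ 2

/-- The bound kernel for weighted diagrams. -/
noncomputable def omega (S : Finset Γ) (p : unitInterval) (l : Γ → ℝ≥0) : Ker Γ := fun x y =>
  ENNReal.ofReal p * ∑ s ∈ S, (l s : ℝ≥0∞) ^ 2 *
    (ins s (kpow (two S p) 4) (kpow (two S p) 4) x y + kpow (two S p) 4 x y)

lemma dsq_triangle (hl : IsLen l) (x y z : Γ) :
    dsq l x z ≤ 2 * (dsq l x y + dsq l y z) := by
  have h : l (x⁻¹ * z) ≤ l (x⁻¹ * y) + l (y⁻¹ * z) := by
    simpa [mul_assoc] using hl.mul_le (x⁻¹ * y) (y⁻¹ * z)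
  unfold dsq
  norm_cast
  exact (pow_le_pow_left₀ zero_le h 2).trans (by
    rw [← NNReal.coe_le_coe]; push_cast; nlinarith [sq_nonneg ((l (x⁻¹ * y) : ℝ) - l (y⁻¹ * z))])

lemma dsq_step (x s : Γ) : dsq l x (x * s) = (l s : ℝ≥0∞) ^ 2 := by simp [dsq]

lemma omega_ge_kpow {j : ℕ} (hj : j ≤ 4) (v a : Γ) :
    energy S p l * kpow (two S p) j v a ≤ omega S p l v a := by
  rw [energy, omega, mul_assoc, Finset.sum_mul]
  refine mul_le_mul_right (Finset.sum_le_sum fun s _ => mul_le_mul_right ?_ _) _
  exact (kpow_mono (oneLE_two S p) hj v a).trans le_add_self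

variable [Countable Γ]

/-- The standing assumptions on the diagrams. -/
structure Ctx (S : Finset Γ) (p : unitInterval) (K ε : ℝ≥0∞) : Prop where
  gen : Gen S
  small : Small S p K ε

namespace Ctx

variable (h : Ctx S p K ε)
include h

omit [Countable Γ] in
lemma pow_le {j : ℕ} (hj : j ≤ 16) (x y : Γ) : kpow (two S p) j x y ≤ K := h.small.pow_le j hj x y

omit [Countable Γ] in
lemma one_le : 1 ≤ K := by
  have := h.pow_le (Nat.zero_le 16) (1 : Γ) 1
  simpa [kpow, kone] using this

lemma ins_le {i j : ℕ} (hi : i ≤ 8) (hj : j ≤ 8) (s x y : Γ) :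
    ins s (kpow (two S p) i) (kpow (two S p) j) x y ≤ K := by
  have hI := inv_kpow (inv_two S p)
  have hs := symm_kpow (symm_two S p)
  have key := two_mul_tsum_le 1 one_ne_zero (fun z => kpow (two S p) i x z)
    (fun z => kpow (two S p) j (z * s) y)
  have e : ∑' z, kpow (two S p) j (z * s) y ^ 2 = kpow (two S p) (j + j) 1 1 := by
    rw [kpow_add, ← tsum_sq_eq (hI j) (hs j) y, ← (Equiv.mulRight s⁻¹).tsum_eq]
    exact tsum_congr fun z => by simp [hs j z y]
  rw [tsum_sq_eq (hI i) (hs i) x, ← kpow_add, e, ENNReal.coe_one, inv_one, one_mul, one_mul] at key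
  refine (ENNReal.mul_le_mul_iff_right two_ne_zero ENNReal.ofNat_ne_top).1 (key.trans ?_)
  rw [two_mul]
  exact add_le_add (h.pow_le (by omega) _ _) (h.pow_le (by omega) _ _)

omit [Countable Γ] h in
lemma kJ_eq (a b : ℕ) (v x : Γ) :
    kmul (kmul (kpow (two S p) a) (J S p l)) (kpow (two S p) b) v x =
      ENNReal.ofReal p * ∑ s ∈ S, (l s : ℝ≥0∞) ^ 2 *
        (ins s (kpow (two S p) (a + 2)) (kpow (two S p) (1 + b)) v x
          + ins s (kpow (two S p) (a + 1)) (kpow (two S p) (2 + b)) v x) := by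
  have e : ∀ (s : Γ) (i j : ℕ),
      ins s (kpow (two S p) (a + i)) (kpow (two S p) (j + b)) v x
        = ∑' z, (∑' w, kpow (two S p) a v w
            * ins s (kpow (two S p) i) (kpow (two S p) j) w z) * kpow (two S p) b z x := by
    intro s i j
    rw [kpow_add, kpow_add, ← ins_kmul, ← kmul_ins]
    rfl
  simp only [e, kpow_one]
  simp only [kmul, J, Finset.mul_sum, Finset.sum_mul, ← ENNReal.tsum_mul_left,
    ← ENNReal.tsum_mul_right, Summable.tsum_finsetSum fun _ _ => ENNReal.summable,
    ← ENNReal.tsum_add, mul_add, add_mul]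
  refine Finset.sum_congr rfl fun s _ => ?_
  exact tsum_congr fun z => tsum_congr fun w => by ring

omit [Countable Γ] h in
lemma kJ_le {a b : ℕ} (ha : a + 2 ≤ 4) (hb : 2 + b ≤ 4) (v x : Γ) :
    kmul (kmul (kpow (two S p) a) (J S p l)) (kpow (two S p) b) v x ≤ 2 * omega S p l v x := by
  rw [kJ_eq, omega, mul_left_comm 2, Finset.mul_sum (a := (2 : ℝ≥0∞))]
  refine mul_le_mul_right (Finset.sum_le_sum fun s _ => ?_) _
  rw [mul_left_comm 2]
  refine mul_le_mul_right ?_ _
  have h1 := ins_kpow_mono (oneLE_two S p) (i := a + 2) (i' := 4) (j := 1 + b) (j' := 4) ha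
    (by omega) s v x
  have h2 := ins_kpow_mono (oneLE_two S p) (i := a + 1) (i' := 4) (j := 2 + b) (j' := 4) (by omega)
    hb s v x
  rw [two_mul]
  exact (add_le_add h1 h2).trans (add_le_add le_self_add le_self_add)

lemma kJ_sup {a b : ℕ} (ha : a + 2 ≤ 8) (hb : 2 + b ≤ 8) (v x : Γ) :
    kmul (kmul (kpow (two S p) a) (J S p l)) (kpow (two S p) b) v x ≤ 2 * K * energy S p l := by
  rw [kJ_eq, energy, mul_left_comm (2 * K), Finset.mul_sum (a := 2 * K)]
  refine mul_le_mul_right (Finset.sum_le_sum fun s _ => ?_) _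
  rw [mul_comm (2 * K)]
  refine mul_le_mul_right ?_ _
  rw [two_mul]
  exact add_le_add (h.ins_le ha (by omega) s v x) (h.ins_le (by omega) hb s v x)

omit [Countable Γ] h in
lemma kJ_zero (b : ℕ) : kmul (kmul (kpow (two S p) 0) (J S p l)) (kpow (two S p) b)
    = kmul (J S p l) (kpow (two S p) b) := by
  rw [kpow, kone_kmul]

lemma mark (hl : IsLen l) (v x : Γ) : two S p v x * dsq l v x ≤ J S p l v x :=
  two_mul_len_le h.gen hl v x

/-- Two marked legs. -/
lemma mark₂ (hl : IsLen l) (v z : Γ) :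
    ∑' t, two S p v t * two S p t z * dsq l v z ≤
      2 * (kmul (J S p l) (two S p) v z + kmul (two S p) (J S p l) v z) := by
  unfold kmul
  rw [← ENNReal.tsum_add, ← ENNReal.tsum_mul_left]
  refine ENNReal.tsum_le_tsum fun t => ?_
  calc two S p v t * two S p t z * dsq l v z
      ≤ two S p v t * two S p t z * (2 * (dsq l v t + dsq l t z)) :=
        mul_le_mul_right (dsq_triangle hl v t z) _
    _ = 2 * (two S p v t * dsq l v t * two S p t z + two S p v t * (two S p t z * dsq l t z)) := by
        ring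
    _ ≤ _ := mul_le_mul_right
        (add_le_add (mul_le_mul_left (h.mark hl v t) _) (mul_le_mul_right (h.mark hl t z) _)) _

omit [Group Γ] [Countable Γ] h in
lemma tsum_sep (f g : Γ → Γ → ℝ≥0∞) :
    ∑' u, ∑' t, ∑' z, f z t * g z u = ∑' z, (∑' t, f z t) * ∑' u, g z u := by
  calc ∑' u, ∑' t, ∑' z, f z t * g z u = ∑' u, ∑' z, (∑' t, f z t) * g z u :=
        tsum_congr fun u => by
          rw [ENNReal.tsum_comm]; exact tsum_congr fun z => ENNReal.tsum_mul_right
    _ = _ := by rw [ENNReal.tsum_comm]; exact tsum_congr fun z => ENNReal.tsum_mul_left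

omit [Group Γ] [Countable Γ] h in
lemma tsum_out (f : Γ → ℝ≥0∞) (g : Γ → Γ → Γ → ℝ≥0∞) :
    ∑' u, ∑' t, ∑' z, f z * g z u t = ∑' z, f z * ∑' u, ∑' t, g z u t := by
  calc ∑' u, ∑' t, ∑' z, f z * g z u t = ∑' u, ∑' z, f z * ∑' t, g z u t :=
        tsum_congr fun u => by
          rw [ENNReal.tsum_comm]; exact tsum_congr fun z => ENNReal.tsum_mul_left
    _ = _ := by rw [ENNReal.tsum_comm]; exact tsum_congr fun z => ENNReal.tsum_mul_left

omit [Countable Γ] h in
/-- The sum of the four cases, with weights on the first and the last displacement. -/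
lemma four_weight_eq (α β : Γ → Γ → ℝ≥0∞) (v a : Γ) :
    ∑' u, ∑' t, ∑' z, (two S p v t * two S p t z * two S p z a * two S p a u * two S p z u
      + two S p v z * two S p z t * two S p t a * two S p a u * two S p z u
      + two S p v z * two S p z a * two S p a t * two S p t u * two S p z u
      + two S p v z * two S p z a * two S p a u * two S p z t * two S p t u) * (α v z * β z u) =
    (∑' z, (∑' t, two S p v t * two S p t z * α v z) * two S p z a *
        ∑' u, two S p a u * (two S p z u * β z u))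
    + (∑' z, two S p v z * α v z * (∑' t, two S p z t * two S p t a) *
        ∑' u, two S p a u * (two S p z u * β z u))
    + (∑' z, two S p v z * α v z * two S p z a *
        ∑' u, (∑' t, two S p a t * two S p t u) * (two S p z u * β z u))
    + (∑' z, two S p v z * α v z * two S p z a *
        ∑' u, two S p a u * ∑' t, two S p z t * two S p t u * β z u) := by
  simp only [add_mul, ENNReal.tsum_add]
  refine congrArg₂ _ (congrArg₂ _ (congrArg₂ _ ?_ ?_) ?_) ?_
  · calc _ = ∑' u, ∑' t, ∑' z, (two S p v t * two S p t z * α v z * two S p z a) *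
          (two S p a u * (two S p z u * β z u)) :=
        tsum_congr fun u => tsum_congr fun t => tsum_congr fun z => by ring
      _ = _ := by rw [tsum_sep]; simp only [ENNReal.tsum_mul_right]
  · calc _ = ∑' u, ∑' t, ∑' z, (two S p v z * α v z * (two S p z t * two S p t a)) *
          (two S p a u * (two S p z u * β z u)) :=
        tsum_congr fun u => tsum_congr fun t => tsum_congr fun z => by ring
      _ = _ := by rw [tsum_sep]; simp only [ENNReal.tsum_mul_left]
  · calc _ = ∑' u, ∑' t, ∑' z, (two S p v z * α v z * two S p z a) *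
          (two S p a t * two S p t u * (two S p z u * β z u)) :=
        tsum_congr fun u => tsum_congr fun t => tsum_congr fun z => by ring
      _ = _ := by rw [tsum_out]; simp only [ENNReal.tsum_mul_right]
  · calc _ = ∑' u, ∑' t, ∑' z, (two S p v z * α v z * two S p z a) *
          (two S p a u * (two S p z t * two S p t u * β z u)) :=
        tsum_congr fun u => tsum_congr fun t => tsum_congr fun z => by ring
      _ = _ := by rw [tsum_out]; simp only [ENNReal.tsum_mul_left]

omit [Countable Γ] h in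
lemma leg₁ (x y : Γ) : ∑' t, two S p x t * two S p t y = kpow (two S p) 2 x y := by
  rw [kpow_two]; rfl

omit [Countable Γ] h in
lemma leg₂ (z a : Γ) : ∑' u, two S p a u * two S p z u = kpow (two S p) 2 a z := by
  rw [kpow_two]; exact tsum_congr fun u => by rw [symm_two S p z u]

omit [Countable Γ] h in
lemma leg₃ (z a : Γ) :
    ∑' u, (∑' t, two S p a t * two S p t u) * two S p z u = kpow (two S p) 3 a z := by
  rw [kpow, kmul]; exact tsum_congr fun u => by rw [leg₁, symm_two S p z u]

omit [Countable Γ] h in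
lemma leg₄ (z a : Γ) :
    ∑' u, two S p a u * ∑' t, two S p z t * two S p t u = kpow (two S p) 3 a z := by
  rw [kpow_succ', kmul]
  exact tsum_congr fun u => by rw [leg₁, symm_kpow (symm_two S p) 2 z u]

omit [Countable Γ] in
lemma four_sum_le (v a : Γ) :
    ∑' u, ∑' t, four S p v a u t ≤ 4 * K * kpow (two S p) 3 v a := by
  have h1 := four_weight_eq (S := S) (p := p) (fun _ _ => 1) (fun _ _ => 1) v a
  simp only [mul_one] at h1
  simp only [four]
  rw [h1]
  have b : ∀ {X Y : Γ → ℝ≥0∞}, (∀ z, Y z ≤ K) → ∑' z, X z * Y z ≤ K * ∑' z, X z := by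
    intro X Y hY
    rw [← ENNReal.tsum_mul_left]
    exact ENNReal.tsum_le_tsum fun z => (mul_le_mul_right (hY z) _).trans (le_of_eq (mul_comm _ _))
  have hle := kpow_mono (oneLE_two S p) (show 2 ≤ 3 by norm_num) v a
  calc _ ≤ K * (∑' z, (∑' t, two S p v t * two S p t z) * two S p z a)
        + K * (∑' z, two S p v z * ∑' t, two S p z t * two S p t a)
        + K * (∑' z, two S p v z * two S p z a) + K * (∑' z, two S p v z * two S p z a) :=
      add_le_add (add_le_add (add_le_add
        (b fun z => (leg₂ z a).le.trans (h.pow_le (by norm_num) _ _))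
        (b fun z => (leg₂ z a).le.trans (h.pow_le (by norm_num) _ _)))
        (b fun z => (leg₃ z a).le.trans (h.pow_le (by norm_num) _ _)))
        (b fun z => (leg₄ z a).le.trans (h.pow_le (by norm_num) _ _))
    _ ≤ K * kpow (two S p) 3 v a + K * kpow (two S p) 3 v a + K * kpow (two S p) 3 v a
        + K * kpow (two S p) 3 v a := by
      refine add_le_add (add_le_add (add_le_add (le_of_eq ?_) (le_of_eq ?_)) ?_) ?_
      · rw [kpow, kmul]; exact congrArg _ (tsum_congr fun z => by rw [leg₁])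
      · rw [kpow_succ', kmul]; exact congrArg _ (tsum_congr fun z => by rw [leg₁])
      · rw [leg₁]; exact mul_le_mul_right hle _
      · rw [leg₁]; exact mul_le_mul_right hle _
    _ = _ := by ring

omit [Group Γ] [Countable Γ] h in
lemma sum_bound {X Y : Γ → ℝ≥0∞} {B : ℝ≥0∞} (hY : ∀ z, Y z ≤ B) :
    ∑' z, X z * Y z ≤ B * ∑' z, X z := by
  rw [← ENNReal.tsum_mul_left]
  exact ENNReal.tsum_le_tsum fun z => (mul_le_mul_right (hY z) _).trans (le_of_eq (mul_comm _ _))

lemma four_alpha_le (hl : IsLen l) (v a : Γ) :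
    ∑' u, ∑' t, ∑' z, (two S p v t * two S p t z * two S p z a * two S p a u * two S p z u
      + two S p v z * two S p z t * two S p t a * two S p a u * two S p z u
      + two S p v z * two S p z a * two S p a t * two S p t u * two S p z u
      + two S p v z * two S p z a * two S p a u * two S p z t * two S p t u) * dsq l v z ≤
      14 * K * omega S p l v a := by
  have h1 := four_weight_eq (S := S) (p := p) (fun x y => dsq l x y) (fun _ _ => 1) v a
  simp only [mul_one] at h1
  rw [h1]
  set T := two S p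
  have hTs : Symm T := symm_two S p
  set Jk := J S p l
  have k1 : ∀ {i : ℕ}, i ≤ 2 → kmul Jk (kpow T i) v a ≤ 2 * omega S p l v a := fun {i} hi => by
    rw [← kJ_zero]; exact kJ_le (by omega) (by omega) v a
  have c1 : ∑' z, (∑' t, T v t * T t z * dsq l v z) * T z a
      ≤ 8 * omega S p l v a := by
    calc _ ≤ ∑' z, (2 * (kmul Jk T v z + kmul T Jk v z)) * T z a :=
          ENNReal.tsum_le_tsum fun z => mul_le_mul_left (h.mark₂ hl v z) _
      _ = 2 * (kmul (kmul Jk T) T v a + kmul (kmul T Jk) T v a) := by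
          simp only [kmul, mul_add, add_mul, ENNReal.tsum_add, mul_assoc, ENNReal.tsum_mul_left]
      _ ≤ 2 * (2 * omega S p l v a + 2 * omega S p l v a) := by
          refine mul_le_mul_right (add_le_add ?_ ?_) _
          · rw [kmul_assoc, ← kpow_two]; exact k1 le_rfl
          · have := kJ_le (S := S) (p := p) (l := l) (a := 1) (b := 1) (by norm_num) (by norm_num) v a
            rwa [kpow_one] at this
      _ = _ := by ring
  have c2 : ∑' z, T v z * dsq l v z * (∑' t, T z t * T t a) ≤ 2 * omega S p l v a := by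
    refine le_trans (ENNReal.tsum_le_tsum fun z => ?_) (k1 (i := 2) le_rfl)
    rw [leg₁]; exact mul_le_mul_left (h.mark hl v z) _
  have c3 : ∑' z, T v z * dsq l v z * T z a ≤ 2 * omega S p l v a := by
    refine le_trans (ENNReal.tsum_le_tsum fun z => ?_) (k1 (i := 1) (by norm_num))
    rw [kpow_one]; exact mul_le_mul_left (h.mark hl v z) _
  calc _ ≤ K * (8 * omega S p l v a) + K * (2 * omega S p l v a) + K * (2 * omega S p l v a)
        + K * (2 * omega S p l v a) :=
      add_le_add (add_le_add (add_le_add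
        ((sum_bound fun z => (leg₂ z a).le.trans (h.pow_le (by norm_num) _ _)).trans
          (mul_le_mul_right c1 _))
        ((sum_bound fun z => (leg₂ z a).le.trans (h.pow_le (by norm_num) _ _)).trans
          (mul_le_mul_right c2 _)))
        ((sum_bound fun z => (leg₃ z a).le.trans (h.pow_le (by norm_num) _ _)).trans
          (mul_le_mul_right c3 _)))
        ((sum_bound fun z => (leg₄ z a).le.trans (h.pow_le (by norm_num) _ _)).trans
          (mul_le_mul_right c3 _))
    _ = _ := by ring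

lemma four_beta_le (hl : IsLen l) (v a : Γ) :
    ∑' u, ∑' t, ∑' z, (two S p v t * two S p t z * two S p z a * two S p a u * two S p z u
      + two S p v z * two S p z t * two S p t a * two S p a u * two S p z u
      + two S p v z * two S p z a * two S p a t * two S p t u * two S p z u
      + two S p v z * two S p z a * two S p a u * two S p z t * two S p t u) * dsq l z u ≤
      14 * K * omega S p l v a := by
  have h1 := four_weight_eq (S := S) (p := p) (fun _ _ => 1) (fun x y => dsq l x y) v a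
  simp only [one_mul, mul_one] at h1
  rw [h1]
  set T := two S p
  have hTs : Symm T := symm_two S p
  set Jk := J S p l
  set E := energy S p l
  have hsup : ∀ {i : ℕ}, i ≤ 2 → ∀ z, kmul Jk (kpow T i) z a ≤ 2 * K * E := fun {i} hi z => by
    rw [← kJ_zero]; exact h.kJ_sup (by omega) (by omega) z a
  have m1 : ∀ z, ∑' u, T a u * (T z u * dsq l z u) ≤ 2 * K * E := fun z => by
    refine le_trans (ENNReal.tsum_le_tsum fun u => ?_) (hsup (i := 1) (by norm_num) z)
    rw [kpow_one, mul_comm, hTs a u]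
    exact mul_le_mul_left (h.mark hl z u) _
  have m3 : ∀ z, ∑' u, (∑' t, T a t * T t u) * (T z u * dsq l z u) ≤ 2 * K * E := fun z => by
    refine le_trans (ENNReal.tsum_le_tsum fun u => ?_) (hsup (i := 2) le_rfl z)
    rw [leg₁, mul_comm, symm_kpow (symm_two S p) 2 a u]
    exact mul_le_mul_left (h.mark hl z u) _
  have m4 : ∀ z, ∑' u, T a u * ∑' t, T z t * T t u * dsq l z u ≤ 8 * K * E := fun z => by
    calc _ ≤ ∑' u, T a u * (2 * (kmul Jk T z u + kmul T Jk z u)) :=
          ENNReal.tsum_le_tsum fun u => mul_le_mul_right (h.mark₂ hl z u) _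
      _ = 2 * (kmul (kmul Jk T) T z a + kmul (kmul T Jk) T z a) := by
          simp only [kmul]
          rw [← ENNReal.tsum_add, ← ENNReal.tsum_mul_left]
          exact tsum_congr fun u => by rw [hTs a u]; ring
      _ ≤ 2 * (2 * K * E + 2 * K * E) := by
          refine mul_le_mul_right (add_le_add ?_ ?_) _
          · rw [kmul_assoc, ← kpow_two]; exact hsup le_rfl z
          · have := h.kJ_sup (l := l) (a := 1) (b := 1) (by norm_num) (by norm_num) z a
            rwa [kpow_one] at this
      _ = _ := by ring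
  have hΩ : ∀ {j : ℕ}, j ≤ 4 → K * E * kpow T j v a ≤ K * omega S p l v a := fun hj => by
    rw [mul_assoc]; exact mul_le_mul_right (omega_ge_kpow hj v a) _
  calc _ ≤ (2 * K * E) * kpow T 3 v a + (2 * K * E) * kpow T 3 v a
        + (2 * K * E) * kpow T 2 v a + (8 * K * E) * kpow T 2 v a :=
      add_le_add (add_le_add (add_le_add
        ((sum_bound m1).trans (le_of_eq (congrArg _ (by
          rw [kpow, kmul]; exact tsum_congr fun z => by rw [leg₁]))))
        ((sum_bound m1).trans (le_of_eq (congrArg _ (by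
          rw [kpow_succ', kmul]; exact tsum_congr fun z => by rw [leg₁])))))
        ((sum_bound m3).trans (le_of_eq (congrArg _ (leg₁ v a)))))
        ((sum_bound m4).trans (le_of_eq (congrArg _ (leg₁ v a))))
    _ = 2 * (K * E * kpow T 3 v a) + 2 * (K * E * kpow T 3 v a) + 2 * (K * E * kpow T 2 v a)
        + 8 * (K * E * kpow T 2 v a) := by ring
    _ ≤ 2 * (K * omega S p l v a) + 2 * (K * omega S p l v a) + 2 * (K * omega S p l v a)
        + 8 * (K * omega S p l v a) :=
      add_le_add (add_le_add (add_le_add (mul_le_mul_right (hΩ (by norm_num)) _)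
        (mul_le_mul_right (hΩ (by norm_num)) _)) (mul_le_mul_right (hΩ (by norm_num)) _))
        (mul_le_mul_right (hΩ (by norm_num)) _)
    _ = _ := by ring

lemma four_dsq_le (hl : IsLen l) (v a : Γ) :
    ∑' u, ∑' t, four S p v a u t * dsq l v u ≤ 56 * K * omega S p l v a := by
  refine le_trans ?_ (le_trans (mul_le_mul_right
    (add_le_add (h.four_alpha_le hl v a) (h.four_beta_le hl v a)) 2) (le_of_eq (by ring)))
  simp only [four, ← ENNReal.tsum_add, ← ENNReal.tsum_mul_left, ← ENNReal.tsum_mul_right]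
  refine ENNReal.tsum_le_tsum fun u => ENNReal.tsum_le_tsum fun t => ENNReal.tsum_le_tsum fun z => ?_
  rw [← mul_add, mul_left_comm]
  exact mul_le_mul_right (dsq_triangle hl v z u) _

omit h in
/-- Summing one step of the expansion. -/
lemma step_sum (f : Set Γ → Γ → Γ → ℝ≥0∞) (F : Γ → Γ → Γ → ℝ≥0∞) (A : Set Γ) (v : Γ)
    (wt : Γ → ℝ≥0∞) (D : Γ → Γ → ℝ≥0∞)
    (hD : ∀ u b, Vale.Agent.P165.perc Γ p {ω | Ev (cg S) A ω v u ∧ Conn (cg S) ω v b} ≤
      ∑' t, D u t * two S p t b)
    (hF : ∀ u, ∀ s ∈ S, ∀ C : Finset Γ,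
      ∑' x, f ↑C (u * s) x * wt x ≤ ∑' b, (↑C : Set Γ).indicator 1 b * F u s b) :
    ∑' x, estep S p f A v x * wt x ≤
      ∑' u, ∑' t, D u t * (ENNReal.ofReal p * ∑ s ∈ S, ∑' b, two S p t b * F u s b) := by
  classical
  have e : ∑' x, estep S p f A v x * wt x = ENNReal.ofReal p * ∑' u, ∑ s ∈ S, ∑' C : Finset Γ,
      ker S p A v u (u * s) C * ∑' x, f ↑C (u * s) x * wt x := by
    simp only [estep, ← Finset.sum_coe_sort S, ← tsum_fintype (L := .unconditional _),
      ← ENNReal.tsum_mul_left, ← ENNReal.tsum_mul_right]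
    rw [ENNReal.tsum_comm]
    refine tsum_congr fun u => ?_
    rw [ENNReal.tsum_comm]
    refine tsum_congr fun s => ?_
    rw [ENNReal.tsum_comm]
    exact tsum_congr fun C => tsum_congr fun x => by ring
  rw [e, ← ENNReal.tsum_mul_left]
  refine ENNReal.tsum_le_tsum fun u => ?_
  calc ENNReal.ofReal p * ∑ s ∈ S, ∑' C : Finset Γ,
        ker S p A v u (u * s) C * ∑' x, f ↑C (u * s) x * wt x
      ≤ ENNReal.ofReal p * ∑ s ∈ S, ∑' b, (∑' t, D u t * two S p t b) * F u s b := by
        refine mul_le_mul_right (Finset.sum_le_sum fun s hs => ?_) _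
        refine (ENNReal.tsum_le_tsum fun C => mul_le_mul_right (hF u s hs C) _).trans ?_
        simp only [← ENNReal.tsum_mul_left]
        rw [ENNReal.tsum_comm]
        refine ENNReal.tsum_le_tsum fun b => ?_
        simp only [← mul_assoc, ENNReal.tsum_mul_right]
        exact mul_le_mul_left ((tsum_ker_mem_le A v u (u * s) b).trans (hD u b)) _
    _ = ∑' t, D u t * (ENNReal.ofReal p * ∑ s ∈ S, ∑' b, two S p t b * F u s b) := by
        simp only [← Finset.sum_coe_sort S, ← tsum_fintype (L := .unconditional _),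
          ← ENNReal.tsum_mul_left, ← ENNReal.tsum_mul_right]
        conv_rhs => rw [ENNReal.tsum_comm]
        refine tsum_congr fun s => ?_
        rw [ENNReal.tsum_comm]
        exact tsum_congr fun t => tsum_congr fun b => by ring

omit [Countable Γ] h in
lemma tail_kpow (t w : Γ) (j : ℕ) :
    ∑' b, two S p t b * kpow (two S p) j w b = kpow (two S p) (j + 1) w t := by
  rw [kpow, kmul]
  exact tsum_congr fun b => by rw [symm_two S p t b, mul_comm]

omit [Countable Γ] in
lemma head_plain (u t : Γ) :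
    ENNReal.ofReal p * ∑ s ∈ S, ∑' b, two S p t b * kpow (two S p) 3 (u * s) b ≤ ε := by
  simp only [tail_kpow]
  exact h.small.step_le 4 (by norm_num) u t

omit [Countable Γ] in
lemma head_omega (u t : Γ) :
    ENNReal.ofReal p * ∑ s ∈ S, ∑' b, two S p t b * omega S p l (u * s) b ≤
      2 * ε * energy S p l := by
  set T := two S p
  have hTs : Symm T := symm_two S p
  have e : ∀ w, ∑' b, T t b * omega S p l w b = ENNReal.ofReal p * ∑ r ∈ S,
      (l r : ℝ≥0∞) ^ 2 * (ins r (kpow T 4) (kpow T 5) w t + kpow T 5 w t) := by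
    intro w
    have h1 : ∀ r, ins r (kpow T 4) (kpow T 5) w t
        = ∑' b, ins r (kpow T 4) (kpow T 4) w b * T b t := by
      intro r
      rw [show kpow T 5 = kmul (kpow T 4) T from rfl, ← ins_kmul]
      rfl
    have h2 : kpow T 5 w t = ∑' b, kpow T 4 w b * T b t := rfl
    simp only [h1, h2, omega, Finset.mul_sum, ← ENNReal.tsum_mul_left,
      ← Summable.tsum_finsetSum fun _ _ => ENNReal.summable, ← ENNReal.tsum_add]
    exact tsum_congr fun b => Finset.sum_congr rfl fun r _ => by rw [hTs t b]; ring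
  simp only [e, energy, Finset.mul_sum]
  rw [Finset.sum_comm]
  refine Finset.sum_le_sum fun r _ => ?_
  have b1 := h.small.step_ins_le 4 le_rfl 5 (by norm_num) r u t
  have b2 := h.small.step_le 5 (by norm_num) u t
  calc ∑ s ∈ S, ENNReal.ofReal p * (ENNReal.ofReal p * ((l r : ℝ≥0∞) ^ 2 *
        (ins r (kpow T 4) (kpow T 5) (u * s) t + kpow T 5 (u * s) t)))
      = ENNReal.ofReal p * (l r : ℝ≥0∞) ^ 2 *
        ((ENNReal.ofReal p * ∑ s ∈ S, ins r (kpow T 4) (kpow T 5) (u * s) t)
          + ENNReal.ofReal p * ∑ s ∈ S, kpow T 5 (u * s) t) := by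
        simp only [mul_add, Finset.mul_sum, ← Finset.sum_add_distrib]
        exact Finset.sum_congr rfl fun s _ => by ring
    _ ≤ ENNReal.ofReal p * (l r : ℝ≥0∞) ^ 2 * (ε + ε) := mul_le_mul_right (add_le_add b1 b2) _
    _ = _ := by ring

omit [Countable Γ] in
/-- The head of a weighted step. -/
lemma head_le (c w : ℝ≥0∞) (v u t : Γ) :
    ENNReal.ofReal p * ∑ s ∈ S, ∑' b, two S p t b *
        (3 * (dsq l v u + (l s : ℝ≥0∞) ^ 2) * (c * kpow (two S p) 3 (u * s) b)
          + 3 * (w * omega S p l (u * s) b)) ≤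
      3 * c * ε * dsq l v u
        + (3 * c * (ENNReal.ofReal p * ∑ s ∈ S, (l s : ℝ≥0∞) ^ 2 * kpow (two S p) 4 (u * s) t)
          + 6 * w * ε * energy S p l) := by
  calc ENNReal.ofReal p * ∑ s ∈ S, ∑' b, two S p t b *
        (3 * (dsq l v u + (l s : ℝ≥0∞) ^ 2) * (c * kpow (two S p) 3 (u * s) b)
          + 3 * (w * omega S p l (u * s) b))
      = 3 * c * dsq l v u * (ENNReal.ofReal p * ∑ s ∈ S,
            ∑' b, two S p t b * kpow (two S p) 3 (u * s) b)
        + (3 * c * (ENNReal.ofReal p * ∑ s ∈ S, (l s : ℝ≥0∞) ^ 2 *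
            ∑' b, two S p t b * kpow (two S p) 3 (u * s) b)
          + 3 * w * (ENNReal.ofReal p * ∑ s ∈ S,
            ∑' b, two S p t b * omega S p l (u * s) b)) := by
        simp only [Finset.mul_sum, ← ENNReal.tsum_mul_left, ← Finset.sum_add_distrib,
          ← ENNReal.tsum_add]
        exact Finset.sum_congr rfl fun s _ => tsum_congr fun b => by ring
    _ ≤ 3 * c * dsq l v u * ε
        + (3 * c * (ENNReal.ofReal p * ∑ s ∈ S, (l s : ℝ≥0∞) ^ 2 *
            ∑' b, two S p t b * kpow (two S p) 3 (u * s) b)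
          + 3 * w * (2 * ε * energy S p l)) :=
      add_le_add (mul_le_mul_right (h.head_plain u t) _)
        (add_le_add le_rfl (mul_le_mul_right (h.head_omega u t) _))
    _ = _ := by simp only [tail_kpow]; ring

omit [Countable Γ] h in
/-- The weighted bound carried by one step. -/
lemma carry (hl : IsLen l) {n : ℕ} {c w : ℝ≥0∞}
    (hM : ∀ (C : Set Γ) y, ∑' x, pie S p n C y x ≤ ∑' b, C.indicator 1 b * (c * kpow (two S p) 3 y b))
    (hW : ∀ (C : Set Γ) y, ∑' x, pie S p n C y x * dsq l y x ≤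
      ∑' b, C.indicator 1 b * (w * omega S p l y b))
    (v u s : Γ) (C : Set Γ) :
    ∑' x, pie S p n C (u * s) x * dsq l v x ≤ ∑' b, C.indicator 1 b *
      (3 * (dsq l v u + (l s : ℝ≥0∞) ^ 2) * (c * kpow (two S p) 3 (u * s) b)
        + 3 * (w * omega S p l (u * s) b)) := by
  have htri : ∀ x, dsq l v x ≤
      3 * (dsq l v u + (l s : ℝ≥0∞) ^ 2) + 3 * dsq l (u * s) x := by
    intro x
    have h1 : l (v⁻¹ * x) ≤ l (v⁻¹ * u) + l s + l ((u * s)⁻¹ * x) := by
      have a1 := hl.mul_le (v⁻¹ * (u * s)) ((u * s)⁻¹ * x)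
      have a2 := hl.mul_le (v⁻¹ * u) s
      rw [mul_assoc v⁻¹, mul_inv_cancel_left] at a1
      rw [mul_assoc v⁻¹] at a2
      exact a1.trans (add_le_add a2 le_rfl)
    simp only [dsq]
    norm_cast
    refine (pow_le_pow_left₀ zero_le h1 2).trans ?_
    rw [← NNReal.coe_le_coe]
    push_cast
    nlinarith [sq_nonneg ((l (v⁻¹ * u) : ℝ) - l s), sq_nonneg ((l s : ℝ) - l ((u * s)⁻¹ * x)),
      sq_nonneg ((l (v⁻¹ * u) : ℝ) - l ((u * s)⁻¹ * x))]
  calc ∑' x, pie S p n C (u * s) x * dsq l v x
      ≤ ∑' x, (3 * (dsq l v u + (l s : ℝ≥0∞) ^ 2) * pie S p n C (u * s) x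
          + 3 * (pie S p n C (u * s) x * dsq l (u * s) x)) :=
        ENNReal.tsum_le_tsum fun x => (mul_le_mul_right (htri x) _).trans (le_of_eq (by ring))
    _ ≤ 3 * (dsq l v u + (l s : ℝ≥0∞) ^ 2) * (∑' b, C.indicator 1 b * (c * kpow (two S p) 3 (u * s) b))
          + 3 * ∑' b, C.indicator 1 b * (w * omega S p l (u * s) b) := by
        rw [ENNReal.tsum_add, ENNReal.tsum_mul_left, ENNReal.tsum_mul_left]
        exact add_le_add (mul_le_mul_right (hM C _) _) (mul_le_mul_right (hW C _) _)
    _ = _ := by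
        rw [← ENNReal.tsum_mul_left, ← ENNReal.tsum_mul_left, ← ENNReal.tsum_add]
        exact tsum_congr fun b => by ring

omit [Group Γ] [Countable Γ] h in
lemma sub_eq_indicator (A : Set Γ) (g : Γ → ℝ≥0∞) :
    ∑' a : A, g a = ∑' b, A.indicator 1 b * g b := by
  rw [tsum_subtype A g]
  exact tsum_congr fun b => by by_cases hb : b ∈ A <;> simp [hb]

lemma base_sum (A : Set Γ) (v : Γ) :
    ∑' x, pie S p 0 A v x ≤ ∑' b, A.indicator 1 b * (K * kpow (two S p) 3 v b) := by
  set T := two S p
  have hTs : Symm T := symm_two S p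
  rw [← sub_eq_indicator A (fun b => K * kpow T 3 v b)]
  refine (ENNReal.tsum_le_tsum fun x => perc_ev_le A v x).trans ?_
  rw [ENNReal.tsum_comm]
  refine ENNReal.tsum_le_tsum fun a => ?_
  calc ∑' x, ∑' z, T v z * T z a * T a x * T z x
      = ∑' z, T v z * T z a * ∑' x, T a x * T z x := by
        rw [ENNReal.tsum_comm]
        exact tsum_congr fun z => by
          rw [← ENNReal.tsum_mul_left]; exact tsum_congr fun x => by ring
    _ ≤ K * ∑' z, T v z * T z a :=
        sum_bound fun z => (leg₂ z a).le.trans (h.pow_le (by norm_num) _ _)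
    _ ≤ _ := by
        rw [leg₁]; exact mul_le_mul_right (kpow_mono (oneLE_two S p) (by norm_num) v _) _

lemma base_weight (hl : IsLen l) (A : Set Γ) (v : Γ) :
    ∑' x, pie S p 0 A v x * dsq l v x ≤ ∑' b, A.indicator 1 b * (8 * K * omega S p l v b) := by
  set T := two S p
  have hTs : Symm T := symm_two S p
  rw [← sub_eq_indicator A (fun b => 8 * K * omega S p l v b)]
  refine (ENNReal.tsum_le_tsum fun x => mul_le_mul_left (perc_ev_le A v x) _).trans ?_
  simp only [← ENNReal.tsum_mul_right]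
  rw [ENNReal.tsum_comm]
  refine ENNReal.tsum_le_tsum fun a => ?_
  have m1 : ∀ z, ∑' x, T a x * (T z x * dsq l z x) ≤ 2 * K * energy S p l := fun z => by
    refine le_trans (ENNReal.tsum_le_tsum fun x => ?_)
      (le_trans (le_of_eq (congrFun (congrFun (kJ_zero (l := l) 1).symm z) (a : Γ)))
        (h.kJ_sup (by norm_num) (by norm_num) z a))
    rw [kpow_one, mul_comm, hTs a x]
    exact mul_le_mul_left (h.mark hl z x) _
  calc ∑' x, ∑' z, T v z * T z a * T a x * T z x * dsq l v x
      ≤ ∑' x, ∑' z, 2 * (T v z * dsq l v z * T z a * (T a x * T z x)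
          + T v z * T z a * (T a x * (T z x * dsq l z x))) :=
        ENNReal.tsum_le_tsum fun x => ENNReal.tsum_le_tsum fun z =>
          (mul_le_mul_right (dsq_triangle hl v z x) _).trans (le_of_eq (by ring))
    _ = 2 * ((∑' z, T v z * dsq l v z * T z a * ∑' x, T a x * T z x)
          + ∑' z, T v z * T z a * ∑' x, T a x * (T z x * dsq l z x)) := by
        rw [ENNReal.tsum_comm]
        simp only [← ENNReal.tsum_mul_left, ← ENNReal.tsum_add]
    _ ≤ 2 * (K * (∑' z, T v z * dsq l v z * T z a)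
          + 2 * K * energy S p l * ∑' z, T v z * T z a) :=
        mul_le_mul_right (add_le_add
          (sum_bound fun z => (leg₂ z a).le.trans (h.pow_le (by norm_num) _ _)) (sum_bound m1)) _
    _ ≤ 2 * (K * (2 * omega S p l v a) + 2 * K * omega S p l v a) := by
        refine mul_le_mul_right (add_le_add (mul_le_mul_right ?_ _) ?_) _
        · refine le_trans (ENNReal.tsum_le_tsum fun z => mul_le_mul_left (h.mark hl v z) _) ?_
          have := kJ_le (S := S) (p := p) (l := l) (a := 0) (b := 1) (by norm_num) (by norm_num) v a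
          rwa [kJ_zero, kpow_one] at this
        · rw [leg₁, mul_assoc (2 * K)]
          exact mul_le_mul_right (omega_ge_kpow (by norm_num) v _) _
    _ = _ := by ring

lemma step_plain {n : ℕ} {c : ℝ≥0∞}
    (hM : ∀ (C : Set Γ) y, ∑' x, pie S p n C y x ≤ ∑' b, C.indicator 1 b * (c * kpow (two S p) 3 y b))
    (A : Set Γ) (v : Γ) (D : Γ → Γ → ℝ≥0∞)
    (hD : ∀ u b, Vale.Agent.P165.perc Γ p {ω | Ev (cg S) A ω v u ∧ Conn (cg S) ω v b} ≤
      ∑' t, D u t * two S p t b) :
    ∑' x, pie S p (n + 1) A v x ≤ c * ε * ∑' u, ∑' t, D u t := by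
  have key := step_sum (pie S p n) (fun u s b => c * kpow (two S p) 3 (u * s) b) A v (fun _ => 1) D
    hD fun u s _ C => by simpa using hM (↑C) (u * s)
  simp only [mul_one] at key
  refine key.trans ?_
  simp only [← ENNReal.tsum_mul_left]
  refine ENNReal.tsum_le_tsum fun u => ENNReal.tsum_le_tsum fun t => ?_
  rw [mul_comm _ (D u t)]
  refine mul_le_mul_right ?_ _
  calc ENNReal.ofReal p * ∑ s ∈ S, ∑' b, two S p t b * (c * kpow (two S p) 3 (u * s) b)
      = c * (ENNReal.ofReal p * ∑ s ∈ S, ∑' b, two S p t b * kpow (two S p) 3 (u * s) b) := by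
        simp only [Finset.mul_sum, ← ENNReal.tsum_mul_left]
        exact Finset.sum_congr rfl fun s _ => tsum_congr fun b => by ring
    _ ≤ c * ε := mul_le_mul_right (h.head_plain u t) _

lemma step_weight (hl : IsLen l) {n : ℕ} {c w : ℝ≥0∞}
    (hM : ∀ (C : Set Γ) y, ∑' x, pie S p n C y x ≤ ∑' b, C.indicator 1 b * (c * kpow (two S p) 3 y b))
    (hW : ∀ (C : Set Γ) y, ∑' x, pie S p n C y x * dsq l y x ≤
      ∑' b, C.indicator 1 b * (w * omega S p l y b))
    (A : Set Γ) (v : Γ) (D : Γ → Γ → ℝ≥0∞)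
    (hD : ∀ u b, Vale.Agent.P165.perc Γ p {ω | Ev (cg S) A ω v u ∧ Conn (cg S) ω v b} ≤
      ∑' t, D u t * two S p t b) :
    ∑' x, pie S p (n + 1) A v x * dsq l v x ≤
      3 * c * ε * (∑' u, ∑' t, D u t * dsq l v u)
      + 3 * c * (∑' u, ∑' t, D u t *
          (ENNReal.ofReal p * ∑ s ∈ S, (l s : ℝ≥0∞) ^ 2 * kpow (two S p) 4 (u * s) t))
      + 6 * w * ε * energy S p l * ∑' u, ∑' t, D u t := by
  refine (step_sum (pie S p n) _ A v (dsq l v) D hD
    fun u s _ C => carry hl hM hW v u s ↑C).trans ?_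
  simp only [← ENNReal.tsum_mul_left, ← ENNReal.tsum_add]
  refine ENNReal.tsum_le_tsum fun u => ENNReal.tsum_le_tsum fun t => ?_
  exact (mul_le_mul_right (h.head_le c w v u t) _).trans (le_of_eq (by ring))

/-- The unweighted sums of the coefficients. -/
lemma pie_sum (hε : 8 * K * ε ≤ 1) : ∀ (n : ℕ) (A : Set Γ) (v : Γ),
    ∑' x, pie S p n A v x ≤ ∑' b, A.indicator 1 b * (K * 2⁻¹ ^ n * kpow (two S p) 3 v b)
  | 0, A, v => by simpa using h.base_sum A v
  | n + 1, A, v => by
    classical
    have ih : ∀ (C : Set Γ) y, _ := fun C y => pie_sum hε n C y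
    have hD := fun u b => perc_ev_conn_le (S := S) (p := p) A v u b
    refine (h.step_plain ih A v (fun u t => ∑' a : A, four S p v a u t) fun u b => (hD u b).trans
      (le_of_eq (by rw [ENNReal.tsum_comm]; exact tsum_congr fun t => ENNReal.tsum_mul_right))).trans ?_
    rw [← sub_eq_indicator A (fun b => K * 2⁻¹ ^ (n + 1) * kpow (two S p) 3 v b)]
    have e : ∑' u, ∑' t, ∑' a : A, four S p v a u t = ∑' a : A, ∑' u, ∑' t, four S p v a u t := by
      rw [tsum_congr fun u => ENNReal.tsum_comm, ENNReal.tsum_comm]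
    rw [e, ← ENNReal.tsum_mul_left]
    refine ENNReal.tsum_le_tsum fun a => (mul_le_mul_right (h.four_sum_le v a) _).trans ?_
    calc K * 2⁻¹ ^ n * ε * (4 * K * kpow (two S p) 3 v a)
        = K * 2⁻¹ ^ n * (8 * K * ε * 2⁻¹) * kpow (two S p) 3 v a := by
          rw [show (8 : ℝ≥0∞) = 4 * 2 by norm_num]
          have h2 : (2 : ℝ≥0∞) * 2⁻¹ = 1 := ENNReal.mul_inv_cancel two_ne_zero ENNReal.ofNat_ne_top
          calc K * 2⁻¹ ^ n * ε * (4 * K * kpow (two S p) 3 v a)
              = K * 2⁻¹ ^ n * ε * (4 * K * kpow (two S p) 3 v a) * (2 * 2⁻¹) := by rw [h2, mul_one]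
            _ = _ := by ring
      _ ≤ K * 2⁻¹ ^ n * (1 * 2⁻¹) * kpow (two S p) 3 v a := by gcongr
      _ = _ := by ring

/-- The weighted sums of the coefficients. -/
lemma pie_weight (hl : IsLen l) (hε : 8 * K * ε ≤ 1) (hε' : 96 * K * ε ≤ 1) (hε1 : ε ≤ 1) :
    ∀ (n : ℕ) (A : Set Γ) (v : Γ), ∑' x, pie S p n A v x * dsq l v x ≤
      ∑' b, A.indicator 1 b * (720 * K ^ 3 * 2⁻¹ ^ n * omega S p l v b)
  | 0, A, v => by
    refine (h.base_weight hl A v).trans (ENNReal.tsum_le_tsum fun b => mul_le_mul_right ?_ _)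
    rw [pow_zero, mul_one]
    refine mul_le_mul_left ?_ _
    calc 8 * K = 8 * K * 1 * 1 := by ring
      _ ≤ 720 * K * K * K :=
          mul_le_mul' (mul_le_mul' (mul_le_mul' (by norm_num) le_rfl) h.one_le) h.one_le
      _ = _ := by ring
  | n + 1, A, v => by
    classical
    have ihW : ∀ (C : Set Γ) y, _ := fun C y => pie_weight hl hε hε' hε1 n C y
    have hD := fun u b => perc_ev_conn_le (S := S) (p := p) A v u b
    refine (h.step_weight hl (h.pie_sum hε n) ihW A v (fun u t => ∑' a : A, four S p v a u t)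
      fun u b => (hD u b).trans
        (le_of_eq (by rw [ENNReal.tsum_comm]; exact tsum_congr fun t => ENNReal.tsum_mul_right))).trans ?_
    rw [← sub_eq_indicator A (fun b => 720 * K ^ 3 * 2⁻¹ ^ (n + 1) * omega S p l v b)]
    have e : ∀ g : Γ → Γ → ℝ≥0∞, ∑' u, ∑' t, (∑' a : A, four S p v a u t) * g u t
        = ∑' a : A, ∑' u, ∑' t, four S p v a u t * g u t := fun g => by
      simp only [← ENNReal.tsum_mul_right]
      rw [tsum_congr fun u => ENNReal.tsum_comm, ENNReal.tsum_comm]
    have e1 : ∑' u, ∑' t, ∑' a : A, four S p v a u t = ∑' a : A, ∑' u, ∑' t, four S p v a u t := by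
      rw [tsum_congr fun u => ENNReal.tsum_comm, ENNReal.tsum_comm]
    rw [e fun u _ => dsq l v u, e, e1]
    simp only [← ENNReal.tsum_mul_left, ← ENNReal.tsum_add]
    refine ENNReal.tsum_le_tsum fun a => ?_
    simp only [ENNReal.tsum_mul_left, ENNReal.tsum_add]
    set Ω := omega S p l v a
    set c := K * 2⁻¹ ^ n
    set w := 720 * K ^ 3 * 2⁻¹ ^ n
    have hT : energy S p l * kpow (two S p) 3 v a ≤ Ω := omega_ge_kpow (by norm_num) v _
    have hmid : ∀ u t, ENNReal.ofReal p * ∑ s ∈ S, (l s : ℝ≥0∞) ^ 2 * kpow (two S p) 4 (u * s) t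
        ≤ K * energy S p l := fun u t => by
      rw [energy, mul_left_comm K, Finset.mul_sum (a := K)]
      exact mul_le_mul_right (Finset.sum_le_sum fun s _ =>
        (mul_le_mul_right (h.pow_le (by norm_num) _ _) _).trans (le_of_eq (mul_comm _ _))) _
    calc 3 * c * ε * (∑' u, ∑' t, four S p v a u t * dsq l v u)
        + 3 * c * (∑' u, ∑' t, four S p v a u t *
            (ENNReal.ofReal p * ∑ s ∈ S, (l s : ℝ≥0∞) ^ 2 * kpow (two S p) 4 (u * s) t))
        + 6 * w * ε * energy S p l * (∑' u, ∑' t, four S p v a u t)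
      ≤ 3 * c * ε * (56 * K * Ω) + 3 * c * (K * energy S p l * (4 * K * kpow (two S p) 3 v a))
        + 6 * w * ε * energy S p l * (4 * K * kpow (two S p) 3 v a) := by
          refine add_le_add (add_le_add (mul_le_mul_right (h.four_dsq_le hl v a) _)
            (mul_le_mul_right ?_ _)) (mul_le_mul_right (h.four_sum_le v a) _)
          refine le_trans ?_ (mul_le_mul_right (h.four_sum_le v a) _)
          simp only [← ENNReal.tsum_mul_left]
          exact ENNReal.tsum_le_tsum fun u => ENNReal.tsum_le_tsum fun t =>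
            (mul_le_mul_right (hmid u t) _).trans (le_of_eq (mul_comm _ _))
      _ = 168 * c * K * ε * Ω + 12 * c * K * K * (energy S p l * kpow (two S p) 3 v a)
        + 24 * K * ε * w * (energy S p l * kpow (two S p) 3 v a) := by ring
      _ ≤ 168 * c * K * 1 * Ω + 12 * c * K * K * Ω + 24 * K * ε * w * Ω := by gcongr
      _ ≤ (180 * c * K * K + 24 * K * ε * w) * Ω := by
          rw [mul_one, add_mul, ← add_mul]
          refine add_le_add (mul_le_mul_left ?_ _) le_rfl
          calc 168 * c * K + 12 * c * K * K ≤ 168 * c * K * K + 12 * c * K * K := by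
                exact add_le_add (le_mul_of_one_le_right zero_le h.one_le) le_rfl
            _ = _ := by ring
      _ ≤ 720 * K ^ 3 * 2⁻¹ ^ (n + 1) * Ω := by
          refine mul_le_mul_left ?_ _
          have h4 : (4 : ℝ≥0∞) * 4⁻¹ = 1 := ENNReal.mul_inv_cancel (by norm_num) ENNReal.ofNat_ne_top
          have h2 : (2⁻¹ : ℝ≥0∞) = 2 * 4⁻¹ := by
            rw [show (4 : ℝ≥0∞) = 2 * 2 by norm_num,
              ENNReal.mul_inv (Or.inl two_ne_zero) (Or.inl ENNReal.ofNat_ne_top), ← mul_assoc,
              ENNReal.mul_inv_cancel two_ne_zero ENNReal.ofNat_ne_top, one_mul]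
          calc 180 * c * K * K + 24 * K * ε * w
              = 180 * c * K * K + 96 * K * ε * w * 4⁻¹ := by
                congr 1
                calc 24 * K * ε * w = 24 * K * ε * w * (4 * 4⁻¹) := by rw [h4, mul_one]
                  _ = _ := by ring
            _ ≤ 720 * K ^ 3 * 2⁻¹ ^ n * 4⁻¹ + 1 * w * 4⁻¹ := by
                refine add_le_add (le_of_eq ?_) (by gcongr)
                calc 180 * c * K * K = 180 * c * K * K * (4 * 4⁻¹) := by rw [h4, mul_one]
                  _ = _ := by ring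
            _ = _ := by
                rw [pow_succ, h2]
                simp only [w]
                rw [h2]
                ring

/-- The root sums. -/
lemma root_sum (hε : 8 * K * ε ≤ 1) (n : ℕ) :
    ∑' x, pie S p (n + 1) Set.univ 1 x ≤ ε * K ^ 2 * 2⁻¹ ^ n := by
  classical
  refine (h.step_plain (h.pie_sum hε n) Set.univ 1
    (fun u t => two S p 1 t * two S p t u * two S p 1 u)
    fun u b => perc_ev_univ_conn_le 1 u b).trans ?_
  have e : ∑' u, ∑' t, two S p 1 t * two S p t u * two S p 1 u = kpow (two S p) 3 1 1 := by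
    rw [kpow, kmul]
    exact tsum_congr fun u => by rw [ENNReal.tsum_mul_right, leg₁, symm_two S p 1 u]
  rw [e]
  calc K * 2⁻¹ ^ n * ε * kpow (two S p) 3 1 1 ≤ K * 2⁻¹ ^ n * ε * K :=
        mul_le_mul_right (h.pow_le (by norm_num) _ _) _
    _ = _ := by ring

lemma root_mid (s : Γ) (hs : s ∈ S) :
    ∑' u, ∑' t, two S p 1 t * two S p t u * two S p 1 u * kpow (two S p) 4 (u * s) t ≤
      2 * ε * K ^ 2 := by
  classical
  set T := two S p
  have hTs : Symm T := symm_two S p
  have hs1 : s ≠ 1 := fun hh => h.gen.one_notMem (hh ▸ hs)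
  have pt : ∀ u t, T t u * kpow T 4 (u * s) t ≤ ε * T t u + if t = u * s then K * ε else 0 := by
    intro u t
    split_ifs with hts
    · subst hts
      refine le_add_left (le_trans (mul_le_mul' ?_ (h.pow_le (by norm_num) _ _)) (le_of_eq (mul_comm _ _)))
      have := h.small.off_le 1 (by norm_num) (u * s) u (fun hh => hs1 (by simpa using hh))
      rwa [kpow_one] at this
    · rw [add_zero, mul_comm]
      exact mul_le_mul_left (h.small.off_le 4 (by norm_num) _ _ (Ne.symm hts)) _
  calc ∑' u, ∑' t, T 1 t * T t u * T 1 u * kpow T 4 (u * s) t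
      ≤ ∑' u, ∑' t, T 1 t * T 1 u * (ε * T t u + if t = u * s then K * ε else 0) :=
        ENNReal.tsum_le_tsum fun u => ENNReal.tsum_le_tsum fun t => by
          rw [show T 1 t * T t u * T 1 u * kpow T 4 (u * s) t
            = T 1 t * T 1 u * (T t u * kpow T 4 (u * s) t) by ring]
          exact mul_le_mul_right (pt u t) _
    _ = ε * (∑' u, (∑' t, T 1 t * T t u) * T 1 u) + K * ε * ∑' u, T 1 u * T 1 (u * s) := by
        simp only [mul_add, ENNReal.tsum_add, mul_ite, mul_zero, tsum_ite_eq,
          ← ENNReal.tsum_mul_left, ← ENNReal.tsum_mul_right]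
        exact congrArg₂ _ (tsum_congr fun u => tsum_congr fun t => by ring)
          (tsum_congr fun u => by ring)
    _ ≤ ε * K + K * ε * K := by
        refine add_le_add (mul_le_mul_right ?_ _) (mul_le_mul_right ?_ _)
        · rw [leg₃ 1 1]; exact h.pow_le (by norm_num) _ _
        · have := h.ins_le (i := 1) (j := 1) (by norm_num) (by norm_num) s 1 1
          rw [kpow_one] at this
          refine le_trans (le_of_eq (tsum_congr fun u => ?_)) this
          rw [hTs 1 (u * s)]
    _ ≤ _ := by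
        calc ε * K + K * ε * K ≤ ε * K * K + K * ε * K := by
              gcongr; exact le_mul_of_one_le_right zero_le h.one_le
          _ = _ := by ring

/-- The weighted root sums. -/
lemma root_weight (hl : IsLen l) (hε : 8 * K * ε ≤ 1) (hε' : 96 * K * ε ≤ 1) (hε1 : ε ≤ 1)
    (n : ℕ) :
    ∑' x, pie S p (n + 1) Set.univ 1 x * dsq l 1 x ≤
      ε * energy S p l * (4332 * K ^ 4) * 2⁻¹ ^ n := by
  classical
  set T := two S p
  have hTs : Symm T := symm_two S p
  set E := energy S p l
  refine (h.step_weight hl (h.pie_sum hε n) (h.pie_weight hl hε hε' hε1 n) Set.univ 1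
    (fun u t => T 1 t * T t u * T 1 u) fun u b => perc_ev_univ_conn_le 1 u b).trans ?_
  have h3 : ∑' u, ∑' t, T 1 t * T t u * T 1 u ≤ K := by
    simp only [ENNReal.tsum_mul_right]
    rw [leg₃ 1 1]; exact h.pow_le (by norm_num) _ _
  have h1 : ∑' u, ∑' t, T 1 t * T t u * T 1 u * dsq l 1 u ≤ 2 * K * E := by
    calc _ = ∑' u, T 1 u * dsq l 1 u * kpow T 2 1 u := by
          refine tsum_congr fun u => ?_
          rw [← leg₁, ← ENNReal.tsum_mul_left]
          exact tsum_congr fun t => by ring
      _ ≤ ∑' u, J S p l 1 u * kpow T 2 u 1 :=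
          ENNReal.tsum_le_tsum fun u => by
            rw [symm_kpow (symm_two S p) 2 1 u]; exact mul_le_mul_left (h.mark hl 1 u) _
      _ ≤ _ := by
          have := h.kJ_sup (l := l) (a := 0) (b := 2) (by norm_num) (by norm_num) 1 1
          rwa [kJ_zero] at this
  have h2 : ∑' u, ∑' t, T 1 t * T t u * T 1 u *
      (ENNReal.ofReal p * ∑ s ∈ S, (l s : ℝ≥0∞) ^ 2 * kpow T 4 (u * s) t) ≤ 2 * ε * K ^ 2 * E := by
    simp only [E, energy, Finset.mul_sum, Summable.tsum_finsetSum fun _ _ => ENNReal.summable]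
    refine Finset.sum_le_sum fun s hs => ?_
    calc _ = ENNReal.ofReal p * (l s : ℝ≥0∞) ^ 2 *
          ∑' u, ∑' t, T 1 t * T t u * T 1 u * kpow T 4 (u * s) t := by
          simp only [← ENNReal.tsum_mul_left]
          exact tsum_congr fun u => tsum_congr fun t => by ring
      _ ≤ ENNReal.ofReal p * (l s : ℝ≥0∞) ^ 2 * (2 * ε * K ^ 2) :=
          mul_le_mul_right (h.root_mid s hs) _
      _ = _ := by ring
  calc _ ≤ 3 * (K * 2⁻¹ ^ n) * ε * (2 * K * E) + 3 * (K * 2⁻¹ ^ n) * (2 * ε * K ^ 2 * E)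
        + 6 * (720 * K ^ 3 * 2⁻¹ ^ n) * ε * E * K :=
      add_le_add (add_le_add (mul_le_mul_right h1 _) (mul_le_mul_right h2 _))
        (mul_le_mul_right h3 _)
    _ = ε * E * (6 * K ^ 2 + 6 * K ^ 3 + 4320 * K ^ 4) * 2⁻¹ ^ n := by ring
    _ ≤ _ := by
      gcongr
      calc 6 * K ^ 2 + 6 * K ^ 3 + 4320 * K ^ 4 ≤ 6 * K ^ 4 + 6 * K ^ 4 + 4320 * K ^ 4 := by
            gcongr <;> first | exact h.one_le | norm_num
        _ = _ := by ring

/-- The root term without pivotal edge. -/
lemma root_zero (hp : ENNReal.ofReal p * S.card ≤ 3) :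
    ∑' x, ({1}ᶜ : Set Γ).indicator (fun x => pie S p 0 Set.univ 1 x) x ≤ 3 * ε := by
  classical
  set T := two S p
  have hTs : Symm T := symm_two S p
  calc _ ≤ ∑' x, ENNReal.ofReal p * ∑ s ∈ S, T 1 x * T (x * s) 1 := by
        refine ENNReal.tsum_le_tsum fun x => ?_
        by_cases hx : x = 1
        · simp [hx]
        rw [Set.indicator_of_mem (by simpa using hx)]
        refine (perc_ev_univ_le 1 x).trans ?_
        have h2 := two_le_step (p := p) h.gen x 1
        rw [kone, if_neg hx, zero_add] at h2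
        calc T 1 x ^ 2 = T 1 x * T x 1 := by rw [sq, hTs x 1]
          _ ≤ T 1 x * (ENNReal.ofReal p * ∑ s ∈ S, T (x * s) 1) := mul_le_mul_right h2 _
          _ = _ := by rw [mul_left_comm, Finset.mul_sum S _ (T 1 x)]
    _ = ENNReal.ofReal p * ∑ s ∈ S, ins s T T 1 1 := by
        rw [ENNReal.tsum_mul_left, Summable.tsum_finsetSum fun _ _ => ENNReal.summable]
        rfl
    _ ≤ ENNReal.ofReal p * ∑ s ∈ S, ε := by
        refine mul_le_mul_right (Finset.sum_le_sum fun s hs => ?_) _
        rw [ins_diag (inv_two S p) (symm_two S p) (inv_two S p) (symm_two S p), ← kpow_two]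
        exact h.small.off_le 2 (by norm_num) 1 s fun hh => h.gen.one_notMem (hh ▸ hs)
    _ ≤ 3 * ε := by
        rw [Finset.sum_const, nsmul_eq_mul, ← mul_assoc]
        exact mul_le_mul_left hp _

/-- The weighted root term without pivotal edge. -/
lemma root_zero_weight (hl : IsLen l) :
    ∑' x, pie S p 0 Set.univ 1 x * dsq l 1 x ≤ 2 * ε * energy S p l := by
  classical
  set T := two S p
  have hTs : Symm T := symm_two S p
  calc _ ≤ ∑' x, J S p l 1 x * T x 1 :=
        ENNReal.tsum_le_tsum fun x => by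
          refine (mul_le_mul_left (perc_ev_univ_le 1 x) _).trans ?_
          rw [hTs x 1, sq, mul_assoc, mul_comm (J S p l 1 x)]
          exact mul_le_mul_right (h.mark hl 1 x) _
    _ = kmul (kmul (kpow T 0) (J S p l)) (kpow T 1) 1 1 := by rw [kJ_zero, kpow_one]; rfl
    _ ≤ _ := by
        rw [kJ_eq, energy, mul_left_comm (2 * ε), Finset.mul_sum (a := 2 * ε)]
        refine mul_le_mul_right (Finset.sum_le_sum fun s hs => ?_) _
        rw [mul_comm (2 * ε)]
        refine mul_le_mul_right ?_ _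
        have hI := inv_kpow (inv_two S p)
        have hsy := symm_kpow (symm_two S p)
        rw [ins_diag (hI _) (hsy _) (hI _) (hsy _), ins_diag (hI _) (hsy _) (hI _) (hsy _),
          ← kpow_add, ← kpow_add, two_mul]
        exact add_le_add (h.small.off_le 4 (by norm_num) 1 s fun hh => h.gen.one_notMem (hh ▸ hs))
          (h.small.off_le 4 (by norm_num) 1 s fun hh => h.gen.one_notMem (hh ▸ hs))

end Ctx

end Vale.Agent.P151
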