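import Mathlib
import Vale.Agent.P151.Cayley
import Vale.Agent.P151.Interfaces

/-!
Smallness of the diagrams in large degree from a bound on the sixteenth power.
-/

namespace Vale.Agent.P151

open scoped ENNReal NNReal

variable {Γ : Type} [Group Γ] [Countable Γ] {S : Finset Γ} {p : unitInterval}

omit [Group Γ] [Countable Γ] in
lemma sum_sum_le_diag (S : Finset Γ) (a : Γ → Γ → ℝ≥0∞) (K o : ℝ≥0∞)
    (hd : ∀ s, a s s ≤ K) (ho : ∀ s t, s ≠ t → a s t ≤ o) :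
    ∑ s ∈ S, ∑ t ∈ S, a s t ≤ S.card * K + (S.card : ℝ≥0∞) ^ 2 * o := by
  classical
  calc ∑ s ∈ S, ∑ t ∈ S, a s t
      ≤ ∑ s ∈ S, ∑ t ∈ S, ((if t = s then K else 0) + o) := by
        refine Finset.sum_le_sum fun s _ => Finset.sum_le_sum fun t _ => ?_
        by_cases h : t = s
        · subst h
          rw [if_pos rfl]
          exact le_add_right (hd _)
        · rw [if_neg h, zero_add]
          exact ho s t (Ne.symm h)
    _ = _ := by
        simp only [Finset.sum_add_distrib, Finset.sum_ite_eq', Finset.sum_const, nsmul_eq_mul]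
        rw [Finset.sum_congr rfl (fun s hs => if_pos hs), Finset.sum_const, nsmul_eq_mul]
        ring

lemma tsum_sq_kpow (S : Finset Γ) (p : unitInterval) (n : ℕ) (x : Γ) :
    ∑' z, kpow (two S p) n x z ^ 2 = kpow (two S p) (n + n) 1 1 := by
  rw [tsum_sq_eq (inv_kpow (inv_two S p) n) (symm_kpow (symm_two S p) n) x, kpow_add]

lemma tsum_sq_kpow_shift (S : Finset Γ) (p : unitInterval) (n : ℕ) (t y : Γ) :
    ∑' z, kpow (two S p) n (z * t) y ^ 2 = kpow (two S p) (n + n) 1 1 := by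
  rw [← tsum_sq_kpow S p n y]
  rw [← (Equiv.mulRight t).tsum_eq (fun z => kpow (two S p) n y z ^ 2)]
  exact tsum_congr fun z => by rw [symm_kpow (symm_two S p) n (z * t) y]; rfl

lemma sum_sq_kpow_le (S : Finset Γ) (p : unitInterval) (n : ℕ) (x y : Γ) :
    ∑ s ∈ S, kpow (two S p) n (x * s) y ^ 2 ≤ kpow (two S p) (n + n) 1 1 := by
  classical
  rw [← tsum_sq_kpow S p n y]
  refine le_trans (le_of_eq ?_) (ENNReal.sum_le_tsum (S.image fun s => x * s))
  rw [Finset.sum_image fun a _ b _ hab => mul_left_cancel hab]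
  exact Finset.sum_congr rfl fun s _ => by rw [symm_kpow (symm_two S p) n (x * s) y]

lemma kpow_succ_le_step (hS : Gen S) (j : ℕ) (x y : Γ) :
    kpow (two S p) (j + 1) x y ≤ kpow (two S p) j x y
      + ENNReal.ofReal p * ∑ s ∈ S, kpow (two S p) (j + 1) (x * s) y := by
  rw [kpow_succ']
  refine (ENNReal.tsum_le_tsum fun z => mul_le_mul' (two_le_step hS x z) le_rfl).trans (le_of_eq ?_)
  simp only [add_mul, ENNReal.tsum_add]
  congr 1
  · exact congrFun (congrFun (kone_kmul (kpow (two S p) j)) x) y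
  · simp only [mul_assoc, ENNReal.tsum_mul_left, Finset.sum_mul]
    rw [Summable.tsum_finsetSum fun _ _ => ENNReal.summable]
    rfl

lemma kpow_le_kone_add (hS : Gen S) {δ : ℝ≥0∞} {n : ℕ}
    (h : ∀ j ≤ n, ∀ x y, ENNReal.ofReal p * ∑ s ∈ S, kpow (two S p) j (x * s) y ≤ δ) :
    ∀ j ≤ n, ∀ x y, kpow (two S p) j x y ≤ kone x y + j * δ := by
  intro j
  induction j with
  | zero => intro _ x y; simp [kpow]
  | succ j ih =>
    intro hj x y
    refine (kpow_succ_le_step hS j x y).trans ?_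
    refine (add_le_add (ih (by omega) x y) (h (j + 1) hj x y)).trans (le_of_eq ?_)
    rw [Nat.cast_succ, add_mul, one_mul, add_assoc]

omit [Group Γ] [Countable Γ] in
lemma tsum_finset_sq (S : Finset Γ) {ι : Type} (a : Γ → ι → ℝ≥0∞) :
    ∑' i, (∑ s ∈ S, a s i) ^ 2 = ∑ s ∈ S, ∑ t ∈ S, ∑' i, a s i * a t i := by
  simp only [sq, Finset.sum_mul_sum]
  rw [Summable.tsum_finsetSum fun _ _ => ENNReal.summable]
  exact Finset.sum_congr rfl fun s _ => Summable.tsum_finsetSum fun _ _ => ENNReal.summable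

omit [Countable Γ] in
lemma tsum_sq_left_le {K o : ℝ≥0∞} {i : ℕ} (hi : i + i ≤ 8)
    (hK : ∀ j ≤ 16, ∀ x y, kpow (two S p) j x y ≤ K)
    (ho : ∀ j ≤ 8, ∀ x y, x ≠ y → kpow (two S p) j x y ≤ o) (x : Γ) :
    ∑' z, (∑ s ∈ S, kpow (two S p) i (x * s) z) ^ 2 ≤ S.card * K + (S.card : ℝ≥0∞) ^ 2 * o := by
  rw [tsum_finset_sq]
  have e : ∀ s t : Γ, ∑' z, kpow (two S p) i (x * s) z * kpow (two S p) i (x * t) z
      = kpow (two S p) (i + i) (x * s) (x * t) := by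
    intro s t
    rw [kpow_add]
    exact tsum_congr fun z => by rw [symm_kpow (symm_two S p) i (x * t) z]
  refine sum_sum_le_diag S _ K o (fun s => ?_) (fun s t hst => ?_)
  · rw [e]; exact hK _ (by omega) _ _
  · rw [e]; exact ho _ hi _ _ (by simpa using hst)

lemma tsum_sq_right_le {K o : ℝ≥0∞}
    (hK : ∀ j ≤ 16, ∀ x y, kpow (two S p) j x y ≤ K)
    (ho : ∀ j ≤ 8, ∀ x y, x ≠ y → kpow (two S p) j x y ≤ o) (y : Γ) :
    ∑' z, (∑ s ∈ S, kpow (two S p) 2 (z * s) y) ^ 2 ≤ S.card * K + (S.card : ℝ≥0∞) ^ 2 * o := by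
  rw [tsum_finset_sq]
  have hI := inv_kpow (inv_two S p) 2
  have hY := symm_kpow (symm_two S p) 2
  have e : ∀ s t : Γ, ∑' z, kpow (two S p) 2 (z * s) y * kpow (two S p) 2 (z * t) y
      = kpow (two S p) (2 + 2) 1 (s⁻¹ * t) := by
    intro s t
    rw [kpow_add, ← ins_diag hI hY hI hY (s⁻¹ * t) y, ins, ← (Equiv.mulRight s⁻¹).tsum_eq]
    refine tsum_congr fun w => ?_
    rw [Equiv.coe_mulRight, inv_mul_cancel_right, hY w y, mul_assoc]
  refine sum_sum_le_diag S _ K o (fun s => ?_) (fun s t hst => ?_)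
  · rw [e]; exact hK _ (by omega) _ _
  · rw [e]
    exact ho _ (by omega) _ _ (by rw [ne_eq, eq_comm, inv_mul_eq_one]; exact hst)


lemma step_bound {k δ : ℝ≥0} (hδ : 0 < δ) (hD : 9 * k / δ ^ 2 + 1 ≤ (S.card : ℝ≥0))
    (hp : p.1.toNNReal * (S.card : ℝ≥0) ≤ 3)
    (hK : ∀ j ≤ 16, ∀ x y, kpow (two S p) j x y ≤ (k : ℝ≥0∞)) (j : ℕ) (hj : j ≤ 8) (x y : Γ) :
    ENNReal.ofReal p * ∑ s ∈ S, kpow (two S p) j (x * s) y ≤ (δ : ℝ≥0∞) := by
  set A := p.1.toNNReal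
  set D : ℝ≥0 := (S.card : ℝ≥0)
  set t : ℝ≥0 := 3 / δ with ht
  have ht0 : 0 < t := by positivity
  have h1 := two_mul_tsum_le t ht0.ne' (fun s : S => kpow (two S p) j (x * (s : Γ)) y) (fun _ => 1)
  simp only [tsum_fintype, mul_one, one_pow] at h1
  rw [Finset.sum_coe_sort S fun s => kpow (two S p) j (x * s) y,
    Finset.sum_coe_sort S fun s => kpow (two S p) j (x * s) y ^ 2,
    Finset.sum_coe_sort S fun _ => (1 : ℝ≥0∞), Finset.sum_const, nsmul_one] at h1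
  have h2 : 2 * (ENNReal.ofReal p * ∑ s ∈ S, kpow (two S p) j (x * s) y)
      ≤ (A : ℝ≥0∞) * (t * k + (t : ℝ≥0∞)⁻¹ * (S.card : ℝ≥0∞)) := by
    rw [mul_left_comm]
    refine mul_le_mul' le_rfl (h1.trans ?_)
    gcongr
    exact (sum_sq_kpow_le S p j x y).trans (hK _ (by omega) _ _)
  have h3 : A * (t * k + t⁻¹ * D) ≤ 2 * δ := by
    have hb : A * (t * k) ≤ δ := by
      have hc : 9 * k / δ ^ 2 ≤ D := le_trans le_self_add hD
      have h4 : A * (9 * k / δ ^ 2) ≤ 3 := le_trans (by gcongr) hp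
      calc A * (t * k) = (δ / 3) * (A * (9 * k / δ ^ 2)) := by rw [ht]; field_simp; ring
        _ ≤ (δ / 3) * 3 := by gcongr
        _ = δ := by field_simp
    calc A * (t * k + t⁻¹ * D) = A * (t * k) + t⁻¹ * (A * D) := by ring
      _ ≤ δ + (δ / 3) * 3 := by
          rw [ht, inv_div]
          exact add_le_add hb (by gcongr)
      _ = 2 * δ := by field_simp; ring
  have h5 : 2 * (ENNReal.ofReal p * ∑ s ∈ S, kpow (two S p) j (x * s) y) ≤ 2 * (δ : ℝ≥0∞) := by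
    refine h2.trans ?_
    rw [← ENNReal.coe_natCast, ← ENNReal.coe_inv ht0.ne', show (2 : ℝ≥0∞) = ((2 : ℝ≥0) : ℝ≥0∞) from rfl]
    exact_mod_cast h3
  exact (ENNReal.mul_le_mul_iff_right two_ne_zero ENNReal.ofNat_ne_top).1 h5

lemma ins_bound {k o ε : ℝ≥0} (hk : 0 < k) (hε : 0 < ε)
    (hD : 9 * k ^ 2 / ε ^ 2 + 1 ≤ (S.card : ℝ≥0)) (ho : 9 * k * o ≤ ε ^ 2)
    (hp : p.1.toNNReal * (S.card : ℝ≥0) ≤ 3)
    (hK : ∀ j ≤ 16, ∀ x y, kpow (two S p) j x y ≤ (k : ℝ≥0∞))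
    (hoff : ∀ j ≤ 8, ∀ x y, x ≠ y → kpow (two S p) j x y ≤ (o : ℝ≥0∞))
    (i : ℕ) (hi : i ≤ 4) (j : ℕ) (hj : j ≤ 8) (t x y : Γ) :
    ENNReal.ofReal p * ∑ s ∈ S, ins t (kpow (two S p) i) (kpow (two S p) j) (x * s) y
      ≤ ((2 * ε : ℝ≥0) : ℝ≥0∞) := by
  set A := p.1.toNNReal
  set D : ℝ≥0 := (S.card : ℝ≥0)
  have hD0 : 0 < D := lt_of_lt_of_le (by positivity) hD
  set u : ℝ≥0 := 3 * k / (ε * D) with hu
  have hu0 : 0 < u := by positivity
  have h1 := two_mul_tsum_le u hu0.ne' (fun z => ∑ s ∈ S, kpow (two S p) i (x * s) z)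
    (fun z => kpow (two S p) j (z * t) y)
  rw [tsum_sq_kpow_shift] at h1
  have h2 : 2 * (ENNReal.ofReal p *
      ∑ s ∈ S, ins t (kpow (two S p) i) (kpow (two S p) j) (x * s) y)
      ≤ (A : ℝ≥0∞) * (u * ((S.card : ℝ≥0∞) * k + (S.card : ℝ≥0∞) ^ 2 * o)
        + (u : ℝ≥0∞)⁻¹ * k) := by
    rw [mul_left_comm]
    refine mul_le_mul' le_rfl (le_trans (le_of_eq ?_) (h1.trans ?_))
    · simp only [ins, Finset.sum_mul]
      rw [Summable.tsum_finsetSum fun _ _ => ENNReal.summable]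
    · gcongr
      · exact tsum_sq_left_le (by omega) hK hoff x
      · exact hK _ (by omega) _ _
  have h3 : A * (u * (D * k + D ^ 2 * o) + u⁻¹ * k) ≤ 2 * (2 * ε) := by
    have hb : 9 * k ^ 2 / D ≤ ε ^ 2 := by
      rw [div_le_iff₀ hD0, ← div_le_iff₀' (by positivity)]
      exact le_trans le_self_add hD
    calc A * (u * (D * k + D ^ 2 * o) + u⁻¹ * k)
        = (A * D) * (k / ε) * (3 * k / D) + (A * D) * (3 * k * o) / ε + (A * D) * (ε / 3) := by
          rw [hu]; field_simp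
      _ ≤ 3 * (k / ε) * (3 * k / D) + 3 * (3 * k * o) / ε + 3 * (ε / 3) := by gcongr
      _ = (9 * k ^ 2 / D) / ε + (9 * k * o) / ε + ε := by field_simp; ring
      _ ≤ ε ^ 2 / ε + ε ^ 2 / ε + ε := by gcongr
      _ ≤ 2 * (2 * ε) := by
          have e : ε ^ 2 / ε = ε := by field_simp
          rw [e, ← mul_assoc]
          refine le_trans (le_of_eq (by ring : ε + ε + ε = 3 * ε)) ?_
          gcongr
          norm_num
  refine (ENNReal.mul_le_mul_iff_right two_ne_zero ENNReal.ofNat_ne_top).1 (h2.trans ?_)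
  rw [← ENNReal.coe_natCast, ← ENNReal.coe_inv hu0.ne', show (2 : ℝ≥0∞) = ((2 : ℝ≥0) : ℝ≥0∞) from rfl]
  simp only [D] at h3
  exact_mod_cast h3

lemma mid_bound {k o ε : ℝ≥0} (hk : 0 < k) (hε : 0 < ε)
    (hD : k ^ 2 / ε ^ 2 + 1 ≤ (S.card : ℝ≥0)) (ho : k * o ≤ ε ^ 2)
    (hK : ∀ j ≤ 16, ∀ x y, kpow (two S p) j x y ≤ (k : ℝ≥0∞))
    (hoff : ∀ j ≤ 8, ∀ x y, x ≠ y → kpow (two S p) j x y ≤ (o : ℝ≥0∞)) (x y : Γ) :
    ∑ s ∈ S, ins s (two S p) (kpow (two S p) 2) x y ≤ ((2 * ε : ℝ≥0) : ℝ≥0∞) * S.card := by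
  set D : ℝ≥0 := (S.card : ℝ≥0)
  have hD0 : 0 < D := lt_of_lt_of_le (by positivity) hD
  set u : ℝ≥0 := ε * D / k with hu
  have hu0 : 0 < u := by positivity
  have h1 := two_mul_tsum_le u hu0.ne' (fun z => two S p x z)
    (fun z => ∑ s ∈ S, kpow (two S p) 2 (z * s) y)
  have e1 : ∑' z, two S p x z ^ 2 = kpow (two S p) (1 + 1) 1 1 := by
    rw [← tsum_sq_kpow S p 1 x, kpow_one]
  rw [e1] at h1
  have h2 : 2 * ∑ s ∈ S, ins s (two S p) (kpow (two S p) 2) x y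
      ≤ u * (k : ℝ≥0∞) + (u : ℝ≥0∞)⁻¹ * ((S.card : ℝ≥0∞) * k + (S.card : ℝ≥0∞) ^ 2 * o) := by
    refine le_trans (le_of_eq ?_) (h1.trans ?_)
    · congr 1
      simp only [ins, Finset.mul_sum]
      rw [Summable.tsum_finsetSum fun _ _ => ENNReal.summable]
    · gcongr
      · exact hK _ (by omega) _ _
      · exact tsum_sq_right_le hK hoff y
  have h3 : u * k + u⁻¹ * (D * k + D ^ 2 * o) ≤ 2 * (2 * ε * D) := by
    have hb : k ^ 2 ≤ ε ^ 2 * D := by
      rw [← div_le_iff₀' (by positivity)]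
      exact le_trans le_self_add hD
    calc u * k + u⁻¹ * (D * k + D ^ 2 * o) = ε * D + k ^ 2 / ε + D * (k * o) / ε := by
          rw [hu]; field_simp; ring
      _ ≤ ε * D + ε ^ 2 * D / ε + D * ε ^ 2 / ε := by gcongr
      _ = 3 * (ε * D) := by field_simp; ring
      _ ≤ 2 * (2 * ε * D) := by
          rw [show 2 * (2 * ε * D) = 4 * (ε * D) by ring]
          gcongr
          norm_num
  refine (ENNReal.mul_le_mul_iff_right two_ne_zero ENNReal.ofNat_ne_top).1 (h2.trans ?_)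
  rw [← ENNReal.coe_natCast, ← ENNReal.coe_inv hu0.ne', show (2 : ℝ≥0∞) = ((2 : ℝ≥0) : ℝ≥0∞) from rfl]
  simp only [D] at h3
  exact_mod_cast h3

/-- A bound on the sixteenth power makes the diagrams small. -/
theorem smallStmt_ok : SmallStmt := by
  intro K ε hε
  set k : ℝ≥0 := K.toNNReal + 1 with hk'
  have hk : 0 < k := by positivity
  set e : ℝ≥0 := ε.toNNReal with he'
  have he : 0 < e := Real.toNNReal_pos.2 hε
  set h : ℝ≥0 := e / 2 with hh'
  have hh : 0 < h := by positivity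
  set δ : ℝ≥0 := min (e / 8) (h ^ 2 / (8 * (9 * k))) with hδ'
  have hδ : 0 < δ := by positivity
  refine ⟨(k : ℝ), ⌈max (9 * k / δ ^ 2 + 1) (9 * k ^ 2 / h ^ 2 + 1)⌉₊, ?_⟩
  intro Γ _ _ _ S p hS hD hpD h16
  have hD' : max (9 * k / δ ^ 2 + 1) (9 * k ^ 2 / h ^ 2 + 1) ≤ (S.card : ℝ≥0) :=
    (Nat.le_ceil _).trans (by exact_mod_cast hD)
  have hp : p.1.toNNReal * (S.card : ℝ≥0) ≤ 3 := by
    rw [← NNReal.coe_le_coe]
    push_cast
    rw [Real.coe_toNNReal _ p.2.1]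
    exact hpD
  have hK : ∀ j ≤ 16, ∀ x y, kpow (two S p) j x y ≤ (k : ℝ≥0∞) := fun j hj x y =>
    (kpow_le_of_sixteen h16 hj x y).trans (by
      rw [ENNReal.ofReal, ENNReal.coe_le_coe]
      exact le_self_add)
  have hstep := step_bound hδ ((le_max_left _ _).trans hD') hp hK
  have hoff : ∀ j ≤ 8, ∀ x y, x ≠ y → kpow (two S p) j x y ≤ ((8 * δ : ℝ≥0) : ℝ≥0∞) := by
    intro j hj x y hxy
    refine (kpow_le_kone_add hS hstep j hj x y).trans ?_
    rw [kone, if_neg hxy, zero_add, ENNReal.coe_mul, show ((8 : ℝ≥0) : ℝ≥0∞) = ((8 : ℕ) : ℝ≥0∞) by simp]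
    gcongr
  have ho : 9 * k * (8 * δ) ≤ h ^ 2 := by
    have h4 := (le_div_iff₀ (by positivity)).1 (min_le_right (e / 8) (h ^ 2 / (8 * (9 * k))))
    calc 9 * k * (8 * δ) = δ * (8 * (9 * k)) := by ring
      _ ≤ h ^ 2 := h4
  have hE : ENNReal.ofReal ε = (e : ℝ≥0∞) := rfl
  have h2h : 2 * h = e := by rw [hh']; field_simp
  refine ⟨fun j hj x y => ?_, fun j hj x y hxy => ?_, fun j hj x y => ?_, fun i hi j hj t x y => ?_,
    fun x y => ?_⟩
  · rw [ENNReal.ofReal_coe_nnreal]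
    exact hK j hj x y
  · refine (hoff j hj x y hxy).trans ?_
    rw [hE, ENNReal.coe_le_coe]
    calc 8 * δ ≤ 8 * (e / 8) := by gcongr; exact min_le_left _ _
      _ = e := by field_simp
  · refine (hstep j hj x y).trans ?_
    rw [hE, ENNReal.coe_le_coe]
    refine (min_le_left _ _).trans (div_le_self zero_le ?_)
    norm_num
  · rw [hE, ← h2h]
    exact ins_bound hk hh ((le_max_right _ _).trans hD') ho hp hK hoff i hi j hj t x y
  · rw [hE, ← h2h]
    refine mid_bound hk hh (le_trans ?_ ((le_max_right _ _).trans hD')) (le_trans ?_ ho) hK hoff x y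
    · gcongr
      exact le_mul_of_one_le_left zero_le (by norm_num)
    · rw [mul_assoc 9]
      exact le_mul_of_one_le_left zero_le (by norm_num)

end Vale.Agent.P151
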