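import Mathlib
import Vale.Agent.P151.Boot
import Vale.Agent.P151.Small
import Vale.Agent.P151.Trace.Main

/-!
The assembly: spread-out Cayley graphs of groups of large polynomial growth do not percolate at
their critical point.
-/

namespace Vale.Agent.P151

open MeasureTheory
open Vale.Agent.P165 (perc openGraph pc)
open scoped ENNReal Pointwise

variable {G : Type} [Group G]

lemma exists_mem_wball [DecidableEq G] {S : Finset G} (hS : ∀ s ∈ S, s⁻¹ ∈ S)
    (hgen : Subgroup.closure (S : Set G) = ⊤) (x : G) : ∃ n, x ∈ Return.wball S n := by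
  have hx : x ∈ Subgroup.closure (S : Set G) := hgen ▸ Subgroup.mem_top x
  induction hx using Subgroup.closure_induction with
  | mem s hs => exact ⟨1, Return.mem_wball_one hs⟩
  | one => exact ⟨0, Return.one_mem_wball S 0⟩
  | mul a b _ _ ha hb =>
    obtain ⟨m, hm⟩ := ha
    obtain ⟨n, hn⟩ := hb
    exact ⟨m + n, Return.mul_mem_wball S hm hn⟩
  | inv a _ ha =>
    obtain ⟨n, hn⟩ := ha
    exact ⟨n, Return.inv_mem_wball hS hn⟩

lemma countable_of_closure [DecidableEq G] {S : Finset G} (hS : ∀ s ∈ S, s⁻¹ ∈ S)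
    (hgen : Subgroup.closure (S : Set G) = ⊤) : Countable G := by
  have h : Function.Surjective (fun z : Σ n, {x // x ∈ Return.wball S n} => (z.2 : G)) := fun x => by
    obtain ⟨n, hn⟩ := exists_mem_wball hS hgen x
    exact ⟨⟨n, x, hn⟩, rfl⟩
  exact h.countable

/-- Large degree and a bound on the weighted return sums: no percolation at the critical point. -/
theorem master (hl : LaceStmt) (hc : CriticalStmt) :
    ∀ g : ℝ, ∃ D₀ : ℕ, ∀ (G : Type) [Group G] [DecidableEq G] (S : Finset G),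
      (∀ s ∈ S, s⁻¹ ∈ S) → (1 : G) ∉ S → Subgroup.closure (S : Set G) = ⊤ → D₀ ≤ S.card →
      (∀ N : ℕ, ∑ n ∈ Finset.range N, ((n + 16).choose 16 : ℝ) * Return.walk S n 1 ≤ g) →
      pc (SimpleGraph.mulCayley (S : Set G)) < 1 ∧
      ∀ p : unitInterval, (p : ℝ) = pc (SimpleGraph.mulCayley (S : Set G)) →
        perc G p {ω | ∃ x, {y | (openGraph (SimpleGraph.mulCayley (S : Set G)) ω).Reachable x y}.Infinite}
          = 0 := by
  intro g
  obtain ⟨e, he, D₁, hc⟩ := hc
  obtain ⟨K, D₂, hb⟩ := boot smallStmt_ok hl Trace.traceStmt_ok g e he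
  refine ⟨max (max D₁ D₂) 3, ?_⟩
  intro G _ _ S hinv h1 hgen hD hg
  have : Countable G := countable_of_closure hinv hgen
  have hS : Gen S := ⟨hinv, h1⟩
  have e : ∀ (i j : DecidableEq G) (n : ℕ),
      @Return.walk G _ i S n 1 = @Return.walk G _ j S n 1 :=
    fun i j n => by rw [Subsingleton.elim i j]
  have hG : GreenLE S g := fun N =>
    le_of_eq_of_le (Finset.sum_congr rfl fun n _ => congrArg _ (e _ _ n)) (hg N)
  have key := fun (p : unitInterval) (hp : (p : ℝ) < pc (cg S)) =>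
    hb G S hS (((le_max_right _ _).trans (le_max_left _ _)).trans hD) hG p hp
  refine ⟨?_, hc G S hS (((le_max_left _ _).trans (le_max_left _ _)).trans hD)
    fun p hp => ⟨(key p hp).1, (key p hp).2.1, (key p hp).2.2.2⟩⟩
  by_contra hpc
  have h3 : (3 : ℝ) ≤ S.card := by exact_mod_cast (le_max_right (max D₁ D₂) 3).trans hD
  have := (key ⟨9 / 10, by norm_num, by norm_num⟩ (lt_of_lt_of_le (by norm_num) (not_lt.1 hpc))).2.1
  simp only at this
  linarith

lemma choose_weight_le (n : ℕ) : ((n + 16).choose 16 : ℝ) ≤ 16 ^ 16 * ((n : ℝ) + 1) ^ 16 := by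
  have h : (n + 16).choose 16 ≤ (16 * (n + 1)) ^ 16 :=
    (Nat.choose_le_pow _ _).trans (Nat.pow_le_pow_left (by omega) _)
  rw [← mul_pow]
  exact_mod_cast h

lemma wball_eq_one [DecidableEq G] {S : Finset G} (h : ∀ s ∈ S, s = 1) :
    ∀ n, Return.wball S n ⊆ {1}
  | 0 => subset_rfl
  | n + 1 => Finset.union_subset (wball_eq_one h n) fun x hx => by
    obtain ⟨a, ha, s, hs, rfl⟩ := Finset.mem_mul.1 hx
    rw [Finset.mem_singleton.1 (wball_eq_one h n ha), h s hs]
    simp

/-- Spread-out Cayley graphs of groups of polynomial growth of degree at least 36. -/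
theorem spreadOut (hl : LaceStmt) (hc : CriticalStmt) :
    ∀ (G : Type) [Group G] [DecidableEq G] (S : Finset G),
      (∀ s ∈ S, s⁻¹ ∈ S) → Subgroup.closure (S : Set G) = ⊤ →
      (∃ c : ℝ, 0 < c ∧ ∀ r : ℕ, 1 ≤ r → c * (r : ℝ) ^ 36 ≤ (Return.wball S r).card) →
      ∃ R₀ : ℕ, ∀ R : ℕ, R₀ ≤ R →
        pc (SimpleGraph.mulCayley (((Return.wball S R).erase 1 : Finset G) : Set G)) < 1 ∧
        ∀ p : unitInterval,
          (p : ℝ) = pc (SimpleGraph.mulCayley (((Return.wball S R).erase 1 : Finset G) : Set G)) →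
          perc G p {ω | ∃ x, {y | (openGraph (SimpleGraph.mulCayley
            (((Return.wball S R).erase 1 : Finset G) : Set G)) ω).Reachable x y}.Infinite} = 0 := by
  intro G _ _ S hinv hgen hgrow
  obtain ⟨c, hc0, hgr⟩ := hgrow
  have large : ∀ m : ℕ, ∃ R₀ : ℕ, 1 ≤ R₀ ∧ ∀ R, R₀ ≤ R → m < (Return.wball S R).card := by
    intro m
    obtain ⟨r, hr⟩ := exists_nat_gt ((m : ℝ) / c)
    refine ⟨r + 1, Nat.le_add_left 1 r, fun R hR => ?_⟩
    have h1 : ((r : ℝ) + 1) ≤ R := by exact_mod_cast hR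
    have h2 := hgr R ((Nat.le_add_left 1 r).trans hR)
    have h3 : (R : ℝ) ≤ (R : ℝ) ^ 36 :=
      le_self_pow₀ (by linarith [(r.cast_nonneg : (0 : ℝ) ≤ r)]) (by norm_num)
    rw [div_lt_iff₀ hc0] at hr
    have : (m : ℝ) < (Return.wball S R).card := by nlinarith
    exact_mod_cast this
  have hS0 : ∃ s ∈ S, s ≠ 1 := by
    by_contra h
    push Not at h
    obtain ⟨R, -, hR⟩ := large 1
    have := Finset.card_le_card (wball_eq_one h R)
    rw [Finset.card_singleton] at this
    linarith [hR R le_rfl]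
  obtain ⟨C, hC⟩ := Return.sum_walk_one_le hinv hS0 (j := 16) (k := 18) (by norm_num) hc0 hgr
  obtain ⟨D, hD⟩ := master hl hc (16 ^ 16 * C)
  obtain ⟨R₀, hR₀, hlarge⟩ := large D
  refine ⟨R₀, fun R hR => ?_⟩
  obtain ⟨R, rfl⟩ : ∃ i, R = i + 1 := ⟨R - 1, by omega⟩
  refine hD G _ (fun t ht => Finset.mem_erase.2 ⟨inv_ne_one.2 (Finset.ne_of_mem_erase ht),
    Return.inv_mem_wball hinv (Finset.mem_of_mem_erase ht)⟩) (Finset.notMem_erase _ _) ?_ ?_ ?_
  · refine top_le_iff.1 (hgen.ge.trans (Subgroup.closure_le _ |>.2 fun s hs => ?_))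
    rcases eq_or_ne s 1 with rfl | hs1
    · exact one_mem _
    · exact Subgroup.subset_closure (Finset.mem_coe.2 (Finset.mem_erase.2 ⟨hs1,
        Return.wball_mono S (Nat.le_add_left 1 R) (Return.mem_wball_one hs)⟩))
  · have := hlarge (R + 1) hR
    rw [Finset.card_erase_of_mem (Return.one_mem_wball S _)]
    omega
  · intro N
    refine le_trans (Finset.sum_le_sum fun n _ => ?_)
      (le_of_eq_of_le (Finset.mul_sum _ _ _).symm (mul_le_mul_of_nonneg_left (hC R N) (by norm_num)))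
    rw [← mul_assoc]
    exact mul_le_mul_of_nonneg_right (choose_weight_le n) (Return.walk_nonneg _ n 1)

end Vale.Agent.P151
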