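import Mathlib
import Vale.Agent.P151.Interfaces
import Vale.Agent.P151.Diagram
import Vale.Agent.P151.Small

/-!
The lace expansion converges in large degree.
-/

namespace Vale.Agent.P151

open MeasureTheory
open Vale.Agent.P165 (perc)
open scoped ENNReal NNReal Classical

variable {Γ : Type} [Group Γ] [Countable Γ] {S : Finset Γ} {p : unitInterval}

/-- The total of the coefficients at `x`. -/
noncomputable def major (S : Finset Γ) (p : unitInterval) (x : Γ) : ℝ≥0∞ :=
  ({1}ᶜ : Set Γ).indicator (fun x => pie S p 0 Set.univ 1 x) x + ∑' n, pie S p (n + 1) Set.univ 1 x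

/-- The alternating coefficient. -/
noncomputable def coeff (S : Finset Γ) (p : unitInterval) (x : Γ) : ℝ :=
  ∑' n : ℕ, (-1 : ℝ) ^ n * (pie S p n Set.univ 1 x).toReal

/-- The deviation of the coefficient from the identity. -/
noncomputable def dev (S : Finset Γ) (p : unitInterval) (x : Γ) : ℝ :=
  coeff S p x - if x = 1 then 1 else 0

omit [Countable Γ] in
lemma pie_zero_self : pie S p 0 Set.univ 1 1 = 1 := by
  have : {ω | Ev (cg S) Set.univ ω 1 1} = Set.univ :=
    Set.eq_univ_of_forall fun ω => ev_univ_iff.2 fun _ => Conn.refl 1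
  show perc Γ p _ = 1
  rw [this, measure_univ]

omit [Countable Γ] in
lemma rest_zero_univ (x : Γ) : rest S p 0 Set.univ 1 x = two S p 1 x :=
  congrArg (perc Γ p) (Set.ext fun _ => thru_univ)

/-- The bounds which the diagrams give, in one place. -/
lemma major_bounds {K ε : ℝ} (h : Ctx S p (ENNReal.ofReal K) (ENNReal.ofReal ε)) (hK : 1 ≤ K)
    (_hε : 0 < ε) (hε1 : ε ≤ 1) (hεK : 96 * K * ε ≤ 1) (hp : (p : ℝ) * S.card ≤ 3) :
    (∑' x, major S p x ≤ ENNReal.ofReal ((3 + 2 * K ^ 2) * ε)) ∧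
      ∀ l, IsLen l → ∑' x, major S p x * dsq l 1 x ≤
        ENNReal.ofReal ((2 + 8664 * K ^ 4) * ε) * energy S p l := by
  set k := ENNReal.ofReal K
  set e := ENNReal.ofReal ε
  have hK0 : (0 : ℝ) ≤ K := zero_le_one.trans hK
  have h96 : 96 * k * e ≤ 1 := by
    rw [← ENNReal.ofReal_ofNat 96, ← ENNReal.ofReal_mul (by norm_num), ← ENNReal.ofReal_mul
      (by positivity), ← ENNReal.ofReal_one]
    exact ENNReal.ofReal_le_ofReal hεK
  have h8 : 8 * k * e ≤ 1 :=
    le_trans (mul_le_mul_left (mul_le_mul_left (by norm_num) _) _) h96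
  have he1 : e ≤ 1 := by rw [← ENNReal.ofReal_one]; exact ENNReal.ofReal_le_ofReal hε1
  have hp' : ENNReal.ofReal p * S.card ≤ 3 := by
    rw [← ENNReal.ofReal_natCast, ← ENNReal.ofReal_mul p.2.1, ← ENNReal.ofReal_ofNat 3]
    exact ENNReal.ofReal_le_ofReal hp
  have hgeo : ∑' n : ℕ, (2⁻¹ : ℝ≥0∞) ^ n = 2 := by
    rw [ENNReal.tsum_geometric, ENNReal.one_sub_inv_two, inv_inv]
  refine ⟨?_, fun l hl => ?_⟩
  · simp only [major]
    rw [ENNReal.tsum_add, ENNReal.tsum_comm]
    calc _ ≤ 3 * e + ∑' n, e * k ^ 2 * 2⁻¹ ^ n :=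
          add_le_add (h.root_zero hp') (ENNReal.tsum_le_tsum fun n => h.root_sum h8 n)
      _ = (3 + 2 * k ^ 2) * e := by rw [ENNReal.tsum_mul_left, hgeo]; ring
      _ = _ := by
          rw [ENNReal.ofReal_mul (by positivity), ENNReal.ofReal_add (by norm_num) (by positivity),
            ENNReal.ofReal_mul (by norm_num), ENNReal.ofReal_pow hK0]
          simp [k, e]
  · conv_lhs => simp only [major, add_mul, ← ENNReal.tsum_mul_right]
    rw [ENNReal.tsum_add, ENNReal.tsum_comm]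
    calc _ ≤ 2 * e * energy S p l + ∑' n, e * energy S p l * (4332 * k ^ 4) * 2⁻¹ ^ n := by
          refine add_le_add (le_trans (ENNReal.tsum_le_tsum fun x => ?_) (h.root_zero_weight hl))
            (ENNReal.tsum_le_tsum fun n => h.root_weight hl h8 h96 he1 n)
          exact mul_le_mul_left (Set.indicator_le_self' (fun _ _ => zero_le) x) _
      _ = (2 + 8664 * k ^ 4) * e * energy S p l := by rw [ENNReal.tsum_mul_left, hgeo]; ring
      _ = _ := by
          congr 1
          rw [ENNReal.ofReal_mul (by positivity), ENNReal.ofReal_add (by norm_num) (by positivity),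
            ENNReal.ofReal_mul (by norm_num), ENNReal.ofReal_pow hK0]
          simp [k, e]

omit [Countable Γ] in
lemma tsum_pie (x : Γ) :
    ∑' n, pie S p n Set.univ 1 x = ({1} : Set Γ).indicator 1 x + major S p x := by
  rw [tsum_eq_zero_add' ENNReal.summable, major, ← add_assoc]
  congr 1
  by_cases hx : x = 1
  · subst hx; simp [pie_zero_self]
  · simp [hx]

/-- The expansion in real numbers. -/
lemma lace_identity (hS : Gen S) (hχ : chi S p ≠ ⊤) (hM : ∑' x, major S p x ≠ ⊤) (x : Γ) :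
    (two S p 1 x).toReal = coeff S p x + (p : ℝ) *
      ∑' y, coeff S p y * ∑ s ∈ S, (two S p (y * s) x).toReal := by
  set a : ℕ → Γ → ℝ≥0∞ := fun n y => pie S p n Set.univ 1 y
  set g : Γ → ℝ≥0∞ := fun y => ∑ s ∈ S, two S p (y * s) x
  have hall : ∑' n, ∑' y, a n y ≠ ⊤ := by
    rw [ENNReal.tsum_comm]
    simp only [a, tsum_pie, ENNReal.tsum_add]
    refine ENNReal.add_ne_top.2 ⟨?_, hM⟩
    rw [tsum_eq_single 1 fun y hy => by simp [hy]]
    simp
  have hg : ∀ y, g y ≤ S.card := fun y =>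
    (Finset.sum_le_sum fun s _ => tau_le_one _ _).trans (by simp)
  have ha : ∀ n y, a n y ≠ ⊤ := fun n y =>
    ne_top_of_le_ne_top hall ((ENNReal.le_tsum y).trans (ENNReal.le_tsum (f := fun n => ∑' y, a n y) n))
  set t : ℕ → ℝ≥0∞ := fun n => ∑' y, a n y * g y
  have htail : ∀ n, tail S p (pie S p n) Set.univ 1 x = ENNReal.ofReal p * t n :=
    fun n => congrArg _ (tsum_congr fun y => (Finset.mul_sum _ _ _).symm)
  set c : ℕ → ℝ≥0∞ := fun n => a n x + ENNReal.ofReal p * t n
  have hrec : ∀ n, rest S p n Set.univ 1 x + rest S p (n + 1) Set.univ 1 x = c n := fun n => by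
    rw [rest_add hS hχ, htail]
  have htt : ∑' n, t n ≠ ⊤ := by
    refine ne_top_of_le_ne_top (ENNReal.mul_ne_top hall (ENNReal.natCast_ne_top S.card)) ?_
    rw [← ENNReal.tsum_mul_right]
    refine ENNReal.tsum_le_tsum fun n => ?_
    rw [← ENNReal.tsum_mul_right]
    exact ENNReal.tsum_le_tsum fun y => mul_le_mul_right (hg y) _
  have hax : ∑' n, a n x ≠ ⊤ :=
    ne_top_of_le_ne_top hall (ENNReal.tsum_le_tsum fun n => ENNReal.le_tsum x)
  have hc : ∑' n, c n ≠ ⊤ := by
    rw [ENNReal.tsum_add, ENNReal.tsum_mul_left]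
    exact ENNReal.add_ne_top.2 ⟨hax, ENNReal.mul_ne_top ENNReal.ofReal_ne_top htt⟩
  have hcs : Summable fun n => (c n).toReal := ENNReal.summable_toReal hc
  set r : ℕ → ℝ := fun n => (rest S p n Set.univ 1 x).toReal
  have hcn : ∀ n, c n ≠ ⊤ := fun n => ne_top_of_le_ne_top hc (ENNReal.le_tsum n)
  have hr0 : ∀ n, rest S p n Set.univ 1 x ≤ c n := fun n => (hrec n) ▸ le_self_add
  have hrr : ∀ n, r n + r (n + 1) = (c n).toReal := fun n => by
    rw [← hrec n, ENNReal.toReal_add (ne_top_of_le_ne_top (hcn n) (hr0 n))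
      (ne_top_of_le_ne_top (hcn (n + 1)) (hr0 (n + 1)))]
  have hsum : ∀ n, ∑ i ∈ Finset.range n, (-1 : ℝ) ^ i * (c i).toReal = r 0 - (-1) ^ n * r n := by
    intro n
    induction n with
    | zero => simp
    | succ n ih => rw [Finset.sum_range_succ, ih, ← hrr n, pow_succ]; ring
  have hsgn : ∀ (n : ℕ) (z : ℝ≥0∞), ‖(-1 : ℝ) ^ n * z.toReal‖ = z.toReal := fun n z => by
    simp [abs_of_nonneg ENNReal.toReal_nonneg]
  have hS1 : Summable fun n => (-1 : ℝ) ^ n * (c n).toReal :=
    Summable.of_norm (by simpa only [hsgn] using hcs)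
  have key : ∑' n, (-1 : ℝ) ^ n * (c n).toReal = (two S p 1 x).toReal := by
    refine tendsto_nhds_unique hS1.hasSum.tendsto_sum_nat ?_
    simp only [hsum]
    have hz : Filter.Tendsto (fun n => (-1 : ℝ) ^ n * r n) Filter.atTop (nhds 0) := by
      refine squeeze_zero_norm (fun n => ?_) hcs.tendsto_atTop_zero
      rw [hsgn]
      exact ENNReal.toReal_mono (hcn n) (hr0 n)
    have := hz.const_sub (r 0)
    rw [sub_zero] at this
    rw [← show r 0 = (two S p 1 x).toReal from congrArg ENNReal.toReal (rest_zero_univ x)]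
    exact this
  rw [← key]
  have hgf : ∀ y, g y ≠ ⊤ := fun y => ne_top_of_le_ne_top (ENNReal.natCast_ne_top _) (hg y)
  have hgR : ∀ y, (g y).toReal = ∑ s ∈ S, (two S p (y * s) x).toReal := fun y =>
    ENNReal.toReal_sum fun s _ => ne_top_of_le_ne_top ENNReal.one_ne_top (tau_le_one _ _)
  set F : ℕ → Γ → ℝ := fun n y => (-1 : ℝ) ^ n * (a n y * g y).toReal
  have htn : ∀ n, t n ≠ ⊤ := fun n => ne_top_of_le_ne_top htt (ENNReal.le_tsum n)
  have hF : Summable (Function.uncurry F) := by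
    refine Summable.of_norm ?_
    simp only [Function.uncurry_def, F, hsgn]
    exact ENNReal.summable_toReal (by rw [ENNReal.tsum_prod']; exact htt)
  have hT : ∀ n, (-1 : ℝ) ^ n * (t n).toReal = ∑' y, F n y := fun n => by
    rw [tsum_mul_left, ENNReal.tsum_toReal_eq fun y => ENNReal.mul_ne_top (ha n y) (hgf y)]
  have hA : Summable fun n => (-1 : ℝ) ^ n * (a n x).toReal :=
    Summable.of_norm (by simpa only [hsgn] using ENNReal.summable_toReal hax)
  have hB : Summable fun n => (-1 : ℝ) ^ n * (t n).toReal :=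
    Summable.of_norm (by simpa only [hsgn] using ENNReal.summable_toReal htt)
  have hpt : ∀ n, (-1 : ℝ) ^ n * (c n).toReal
      = (-1 : ℝ) ^ n * (a n x).toReal + (p : ℝ) * ((-1 : ℝ) ^ n * (t n).toReal) := fun n => by
    rw [ENNReal.toReal_add (ha n x) (ENNReal.mul_ne_top ENNReal.ofReal_ne_top (htn n)),
      ENNReal.toReal_mul, ENNReal.toReal_ofReal p.2.1]
    ring
  simp only [hpt]
  rw [hA.tsum_add (hB.mul_left _), tsum_mul_left]
  congr 2
  simp only [hT]
  rw [← hF.tsum_comm]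
  refine tsum_congr fun y => ?_
  rw [coeff, ← hgR, ← tsum_mul_right]
  exact tsum_congr fun n => by simp only [F, a, ENNReal.toReal_mul]; ring

omit [Countable Γ] in
lemma abs_coeff_sub (hM : ∑' x, major S p x ≠ ⊤) (x : Γ) :
    |dev S p x| ≤ (major S p x).toReal := by
  rw [dev]
  have hx : major S p x ≠ ⊤ := ne_top_of_le_ne_top hM (ENNReal.le_tsum x)
  have hfin : ∑' n, pie S p n Set.univ 1 x ≠ ⊤ := by
    rw [tsum_pie]
    refine ENNReal.add_ne_top.2 ⟨?_, hx⟩
    by_cases h : x = 1 <;> simp [h]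
  have hs : Summable fun n => (pie S p n Set.univ 1 x).toReal := ENNReal.summable_toReal hfin
  have hsg : Summable fun n => (-1 : ℝ) ^ n * (pie S p n Set.univ 1 x).toReal :=
    Summable.of_norm (by simpa [abs_of_nonneg ENNReal.toReal_nonneg] using hs)
  have h1 : |∑' n : ℕ, (-1 : ℝ) ^ (n + 1) * (pie S p (n + 1) Set.univ 1 x).toReal|
      ≤ (∑' n, pie S p (n + 1) Set.univ 1 x).toReal := by
    rw [ENNReal.tsum_toReal_eq fun n => ne_top_of_le_ne_top hfin (ENNReal.le_tsum _),
      ← Real.norm_eq_abs]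
    refine le_trans (norm_tsum_le_tsum_norm ?_) (le_of_eq (tsum_congr fun n => ?_))
    · simpa [abs_of_nonneg ENNReal.toReal_nonneg] using
        (summable_nat_add_iff 1).2 hs
    · simp [abs_of_nonneg ENNReal.toReal_nonneg]
  rw [coeff, hsg.tsum_eq_zero_add, pow_zero, one_mul]
  obtain ⟨hb1, hb2⟩ := ENNReal.add_ne_top.1 hx
  rw [major, ENNReal.toReal_add hb1 hb2]
  by_cases h : x = 1
  · subst h
    simpa [pie_zero_self] using h1
  · rw [if_neg h, sub_zero, Set.indicator_of_mem (by simpa using h)]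
    refine (abs_add_le _ _).trans (add_le_add (le_of_eq (abs_of_nonneg ENNReal.toReal_nonneg)) h1)

theorem laceStmt_ok : LaceStmt := by
  intro K₀ ε₀ hε₀
  set K : ℝ := max K₀ 1 with hKd
  have hK : 1 ≤ K := le_max_right _ _
  set ε : ℝ := min 1 (min (1 / (96 * K)) (ε₀ / (3 + 8664 * K ^ 4))) with hεd
  have hε : 0 < ε := lt_min one_pos (lt_min (by positivity) (by positivity))
  have hεK : 96 * K * ε ≤ 1 := by
    have := (min_le_right (1 : ℝ) _).trans (min_le_left (1 / (96 * K)) (ε₀ / (3 + 8664 * K ^ 4)))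
    calc 96 * K * ε ≤ 96 * K * (1 / (96 * K)) := by gcongr
      _ = 1 := by field_simp
  have hεb : (3 + 8664 * K ^ 4) * ε ≤ ε₀ := by
    have := (min_le_right (1 : ℝ) _).trans (min_le_right (1 / (96 * K)) (ε₀ / (3 + 8664 * K ^ 4)))
    calc (3 + 8664 * K ^ 4) * ε ≤ (3 + 8664 * K ^ 4) * (ε₀ / (3 + 8664 * K ^ 4)) := by gcongr
      _ = ε₀ := by field_simp
  obtain ⟨K', D₀, hD₀⟩ := smallStmt_ok K₀ ε hε
  refine ⟨D₀, fun Γ _ _ _ S p hS hD hp hχ h16 => ?_⟩
  have hsm := hD₀ Γ S p hS hD hp h16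
  have h : Ctx S p (ENNReal.ofReal K) (ENNReal.ofReal ε) := ⟨hS, {
    pow_le := fun j hj x y => (kpow_le_of_sixteen h16 hj x y).trans
      (ENNReal.ofReal_le_ofReal (le_max_left _ _))
    off_le := hsm.off_le
    step_le := hsm.step_le
    step_ins_le := hsm.step_ins_le
    mid_le := hsm.mid_le }⟩
  obtain ⟨b1, b2⟩ := major_bounds h hK hε (min_le_left _ _) hεK hp
  have hM : ∑' x, major S p x ≠ ⊤ := ne_top_of_le_ne_top ENNReal.ofReal_ne_top b1
  have hK2 : K ^ 2 ≤ K ^ 4 := pow_le_pow_right₀ hK (by norm_num)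
  have hMs : Summable fun x => (major S p x).toReal := ENNReal.summable_toReal hM
  have hMn : ∀ x, major S p x ≠ ⊤ := fun x => ne_top_of_le_ne_top hM (ENNReal.le_tsum x)
  refine ⟨dev S p, ?_, ?_, fun x => ?_, fun l hl => ?_⟩
  · exact Summable.of_nonneg_of_le (fun _ => abs_nonneg _) (abs_coeff_sub hM) hMs
  · refine ((Summable.of_nonneg_of_le (fun _ => abs_nonneg _) (abs_coeff_sub hM) hMs).tsum_le_tsum
      (abs_coeff_sub hM) hMs).trans ?_
    rw [← ENNReal.tsum_toReal_eq hMn]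
    refine (ENNReal.toReal_le_of_le_ofReal (by positivity) b1).trans (le_trans ?_ hεb)
    nlinarith
  · have h' := lace_identity hS hχ hM x
    have e : ∀ y, coeff S p y = (if y = 1 then 1 else 0) + dev S p y := fun y => by rw [dev]; split_ifs <;> ring
    simp only [e] at h'
    convert h' using 6
    split_ifs <;> rfl
  · set L : Γ → ℝ≥0∞ := fun x => major S p x * dsq l 1 x
    have hd : ∀ x, (dsq l 1 x).toReal = (l x : ℝ) ^ 2 := fun x => by simp [dsq]
    have hE : (energy S p l).toReal = (p : ℝ) * ∑ s ∈ S, (l s : ℝ) ^ 2 := by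
      rw [energy, ENNReal.toReal_mul, ENNReal.toReal_ofReal p.2.1,
        ENNReal.toReal_sum fun s _ => ENNReal.pow_ne_top ENNReal.coe_ne_top]
      simp
    have hEf : energy S p l ≠ ⊤ := ENNReal.mul_ne_top ENNReal.ofReal_ne_top
      (ENNReal.sum_ne_top.2 fun s _ => ENNReal.pow_ne_top ENNReal.coe_ne_top)
    have hL : ∑' x, L x ≠ ⊤ :=
      ne_top_of_le_ne_top (ENNReal.mul_ne_top ENNReal.ofReal_ne_top hEf) (b2 l hl)
    have hb : ∀ x, |dev S p x| * (l x : ℝ) ^ 2 ≤ (L x).toReal := by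
      intro x
      rw [ENNReal.toReal_mul, hd]
      exact mul_le_mul_of_nonneg_right (abs_coeff_sub hM x) (sq_nonneg _)
    have hLs : Summable fun x => (L x).toReal := ENNReal.summable_toReal hL
    have hs := Summable.of_nonneg_of_le (fun x => mul_nonneg (abs_nonneg _) (sq_nonneg _)) hb hLs
    refine ⟨hs, (hs.tsum_le_tsum hb hLs).trans ?_⟩
    rw [← ENNReal.tsum_toReal_eq fun x => ne_top_of_le_ne_top hL (ENNReal.le_tsum x)]
    refine (ENNReal.toReal_mono (ENNReal.mul_ne_top ENNReal.ofReal_ne_top hEf) (b2 l hl)).trans ?_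
    rw [ENNReal.toReal_mul, ENNReal.toReal_ofReal (by positivity), hE]
    refine mul_le_mul_of_nonneg_right (le_trans ?_ hεb)
      (mul_nonneg p.2.1 (Finset.sum_nonneg fun _ _ => sq_nonneg _))
    nlinarith

end Vale.Agent.P151
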