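import Mathlib
import Vale.Agent.P151.Return

/-!
The lattice of rank 36 has balls growing like the 36th power of the radius.
-/

open scoped Pointwise

namespace Vale.Agent.P151

abbrev Z36 : Type := Multiplicative (Fin 36 → ℤ)

def gen : Finset Z36 :=
  (Finset.univ.image fun i => Multiplicative.ofAdd (Pi.single i (1 : ℤ))) ∪
    (Finset.univ.image fun i => Multiplicative.ofAdd (Pi.single i (-1 : ℤ)))

theorem gen_inv : ∀ s ∈ gen, s⁻¹ ∈ gen := by
  intro s hs
  simp only [gen, Finset.mem_union, Finset.mem_image, Finset.mem_univ, true_and] at hs ⊢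
  rcases hs with ⟨i, rfl⟩ | ⟨i, rfl⟩
  · exact Or.inr ⟨i, by rw [← ofAdd_neg, ← Pi.single_neg]⟩
  · exact Or.inl ⟨i, by rw [← ofAdd_neg, ← Pi.single_neg, neg_neg]⟩

theorem axis (i : Fin 36) (k : ℤ) : ∀ n : ℕ, k.natAbs ≤ n →
    Multiplicative.ofAdd (Pi.single i k : Fin 36 → ℤ) ∈ Return.wball gen n := by
  intro n
  induction n generalizing k with
  | zero => intro h; obtain rfl : k = 0 := by omega
            simp [Return.wball, Pi.single_zero]
  | succ n ih =>
    intro h
    have key : ∀ e : ℤ, (e = 1 ∨ e = -1) → (k - e).natAbs ≤ n →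
        Multiplicative.ofAdd (Pi.single i k : Fin 36 → ℤ) ∈ Return.wball gen (n + 1) := by
      intro e he hk
      refine Finset.mem_union_right _ (Finset.mem_mul.2 ⟨_, ih (k - e) hk,
        Multiplicative.ofAdd (Pi.single i e), ?_, by rw [← ofAdd_add, ← Pi.single_add, sub_add_cancel]⟩)
      rcases he with rfl | rfl <;> simp [gen]
    rcases le_or_gt k.natAbs n with h' | h'
    · exact Return.wball_mono gen (Nat.le_succ n) (ih k h')
    · rcases lt_trichotomy k 0 with hk | hk | hk
      · exact key (-1) (Or.inr rfl) (by omega)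
      · omega
      · exact key 1 (Or.inl rfl) (by omega)

theorem box (v : Fin 36 → ℤ) (m : ℕ) (hv : ∀ i, (v i).natAbs ≤ m) (T : Finset (Fin 36)) :
    Multiplicative.ofAdd (∑ i ∈ T, Pi.single i (v i)) ∈ Return.wball gen (T.card * m) := by
  induction T using Finset.induction_on with
  | empty => simpa using Return.one_mem_wball gen 0
  | @insert a T ha ih =>
    rw [Finset.sum_insert ha, ofAdd_add, Finset.card_insert_of_notMem ha, add_mul, one_mul, add_comm]
    exact Return.mul_mem_wball gen (axis a (v a) m (hv a)) ih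

theorem growth : ∃ c : ℝ, 0 < c ∧ ∀ r : ℕ, 1 ≤ r → c * (r : ℝ) ^ 36 ≤ (Return.wball gen r).card := by
  refine ⟨(1 / 36) ^ 36, by positivity, fun r _ => ?_⟩
  set m := r / 36
  have h : (2 * m + 1) ^ 36 ≤ (Return.wball gen r).card := by
    have hc := Finset.card_le_card_of_injOn (f := fun v : Fin 36 → ℤ => Multiplicative.ofAdd v)
      (s := Fintype.piFinset fun _ : Fin 36 => Finset.Icc (-(m : ℤ)) m) (t := Return.wball gen r)
      (fun v hv => by
        rw [Finset.mem_coe, Fintype.mem_piFinset] at hv
        have := box v m (fun i => by have := Finset.mem_Icc.1 (hv i); omega) Finset.univ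
        rw [Finset.univ_sum_single, Finset.card_univ, Fintype.card_fin] at this
        exact Return.wball_mono gen (by omega) this)
      (fun a _ b _ h => by simpa using h)
    rw [Fintype.card_piFinset, Finset.prod_const, Finset.card_univ, Fintype.card_fin,
      Int.card_Icc] at hc
    rwa [show ((m : ℤ) + 1 - -(m : ℤ)).toNat = 2 * m + 1 by omega] at hc
  have h1 : (r : ℝ) ≤ 36 * ((2 * m + 1 : ℕ) : ℝ) := by
    exact_mod_cast (by omega : r ≤ 36 * (2 * m + 1))
  calc (1 / 36 : ℝ) ^ 36 * (r : ℝ) ^ 36 = ((r : ℝ) / 36) ^ 36 := by rw [← mul_pow]; ring_nf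
    _ ≤ ((2 * m + 1 : ℕ) : ℝ) ^ 36 := by gcongr; linarith
    _ ≤ _ := by exact_mod_cast h

theorem closure_gen : Subgroup.closure (gen : Set Z36) = ⊤ := by
  refine top_le_iff.1 fun x _ => ?_
  have key : ∀ n, ∀ y ∈ Return.wball gen n, y ∈ Subgroup.closure (gen : Set Z36) := by
    intro n
    induction n with
    | zero => intro y hy; simp [Return.wball] at hy; simp [hy]
    | succ n ih =>
      intro y hy
      rcases Finset.mem_union.1 hy with h | h
      · exact ih y h
      · obtain ⟨a, ha, s, hs, rfl⟩ := Finset.mem_mul.1 h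
        exact mul_mem (ih a ha) (Subgroup.subset_closure hs)
  refine key ((Finset.univ : Finset (Fin 36)).card * (Finset.univ.sup fun i => ((Multiplicative.toAdd x) i).natAbs)) x ?_
  have := box (Multiplicative.toAdd x) (Finset.univ.sup fun i => ((Multiplicative.toAdd x) i).natAbs)
    (fun i => Finset.le_sup (f := fun i => ((Multiplicative.toAdd x) i).natAbs) (Finset.mem_univ i)) Finset.univ
  rwa [Finset.univ_sum_single, ofAdd_toAdd] at this

end Vale.Agent.P151
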