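import Mathlib
import Vale.Agent.P151.Return

/-!
Return probabilities pass to groups mapping onto a group with small returns, with a slowed clock.
-/

namespace Vale.Agent.P151.Push

open Finset
open Vale.Agent.P151.Return (walk lazy avg walk_nonneg)

/-- The sequence `w` read along a clock which moves with probability `c` at each step. -/
def slow (c : ℝ) (w : ℕ → ℝ) : ℕ → ℕ → ℝ
  | 0, k => w k
  | n + 1, k => (1 - c) * slow c w n k + c * slow c w n (k + 1)

variable {c : ℝ} {w : ℕ → ℝ}

lemma slow_nonneg (hc0 : 0 ≤ c) (hc1 : c ≤ 1) (hw : ∀ k, 0 ≤ w k) : ∀ n k, 0 ≤ slow c w n k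
  | 0, k => hw k
  | n + 1, k => add_nonneg (mul_nonneg (sub_nonneg.2 hc1) (slow_nonneg hc0 hc1 hw n k))
      (mul_nonneg hc0 (slow_nonneg hc0 hc1 hw n (k + 1)))

lemma choose_step (n m : ℕ) :
    ((n + 1 + (m + 1)).choose (m + 1) : ℝ)
      = ((n + 1 + m).choose m : ℝ) + ((n + (m + 1)).choose (m + 1) : ℝ) := by
  rw [show n + 1 + (m + 1) = (n + 1 + m) + 1 by ring, Nat.choose_succ_succ,
    show n + (m + 1) = n + 1 + m by ring]
  push_cast
  rfl

/-- The binomial moments of the slowed sequence. -/
lemma sum_slow_le (hc0 : 0 ≤ c) (hc1 : c ≤ 1) (hw : ∀ k, 0 ≤ w k) : ∀ m N k : ℕ,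
    c ^ (m + 1) * ∑ n ∈ range N, ((n + m).choose m : ℝ) * slow c w n k
      ≤ ∑ i ∈ range N, ((i + m).choose m : ℝ) * w (k + i) := by
  intro m
  induction m with
  | zero =>
    intro N
    induction N with
    | zero => simp
    | succ N ih =>
      intro k
      simp only [Nat.choose_zero_right, Nat.cast_one, one_mul, zero_add, pow_one] at ih ⊢
      have h0 : 0 ≤ slow c w N k := slow_nonneg hc0 hc1 hw N k
      have e : ∑ n ∈ range (N + 1), slow c w n k = w k + ((1 - c) * ∑ n ∈ range N, slow c w n k
          + c * ∑ n ∈ range N, slow c w n (k + 1)) := by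
        rw [sum_range_succ', mul_sum, mul_sum, ← sum_add_distrib, add_comm]
        rfl
      have e2 : ∑ i ∈ range (N + 1), w (k + i) = w k + ∑ i ∈ range N, w (k + 1 + i) := by
        rw [sum_range_succ', add_comm, add_zero]
        exact congrArg _ (sum_congr rfl fun i _ => congrArg w (by omega))
      rw [e2]
      have := ih (k + 1)
      have e3 : ∑ n ∈ range (N + 1), slow c w n k = ∑ n ∈ range N, slow c w n k + slow c w N k :=
        sum_range_succ _ _
      nlinarith [mul_le_mul_of_nonneg_left this hc0]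
  | succ m ihm =>
    intro N
    induction N with
    | zero => simp
    | succ N ih =>
      intro k
      set G : ℕ → ℕ → ℝ := fun N k => ∑ n ∈ range N, ((n + (m + 1)).choose (m + 1) : ℝ) * slow c w n k
      set F : ℕ → ℕ → ℝ := fun N k => ∑ n ∈ range N, ((n + m).choose m : ℝ) * slow c w n k
      have e : G (N + 1) k = F (N + 1) k + ((1 - c) * G N k + c * G N (k + 1)) := by
        simp only [G, F]
        rw [sum_range_succ', sum_range_succ' (fun n => ((n + m).choose m : ℝ) * slow c w n k),
          mul_sum, mul_sum, ← sum_add_distrib]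
        simp only [zero_add, Nat.choose_self, Nat.cast_one]
        rw [add_right_comm, ← sum_add_distrib]
        congr 1
        refine sum_congr rfl fun n _ => ?_
        rw [choose_step]
        simp only [slow]
        ring
      have hmono : G N k ≤ G (N + 1) k := by
        simp only [G]
        rw [sum_range_succ]
        exact le_add_of_nonneg_right (mul_nonneg (Nat.cast_nonneg _) (slow_nonneg hc0 hc1 hw N k))
      set A := ∑ i ∈ range (N + 1), ((i + m).choose m : ℝ) * w (k + i)
      set B := ∑ i ∈ range N, ((i + (m + 1)).choose (m + 1) : ℝ) * w (k + 1 + i)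
      have h1 : c ^ (m + 1) * F (N + 1) k ≤ A := ihm (N + 1) k
      have h2 : c ^ (m + 1 + 1) * G N (k + 1) ≤ B := ih (k + 1)
      have hB : 0 ≤ B := sum_nonneg fun i _ => mul_nonneg (Nat.cast_nonneg _) (hw _)
      have hc : c * G (N + 1) k ≤ F (N + 1) k + c * G N (k + 1) := by
        nlinarith [mul_le_mul_of_nonneg_left hmono (sub_nonneg.2 hc1)]
      have hAB : ∑ i ∈ range (N + 1), ((i + (m + 1)).choose (m + 1) : ℝ) * w (k + i) = A + B := by
        simp only [A, B]
        rw [sum_range_succ', sum_range_succ' (fun i => ((i + m).choose m : ℝ) * w (k + i))]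
        simp only [zero_add, Nat.choose_self, Nat.cast_one]
        rw [add_right_comm, ← sum_add_distrib]
        congr 1
        refine sum_congr rfl fun i _ => ?_
        rw [choose_step, show k + (i + 1) = k + 1 + i by omega]
        ring
      rw [hAB]
      calc c ^ (m + 1 + 1) * G (N + 1) k = c ^ (m + 1) * (c * G (N + 1) k) := by ring
        _ ≤ c ^ (m + 1) * (F (N + 1) k + c * G N (k + 1)) :=
            mul_le_mul_of_nonneg_left hc (pow_nonneg hc0 _)
        _ = c ^ (m + 1) * F (N + 1) k + c ^ (m + 1 + 1) * G N (k + 1) := by ring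
        _ ≤ A + B := add_le_add h1 h2

variable {Γ Λ : Type} [Group Γ] [Group Λ] [DecidableEq Γ] [DecidableEq Λ]

omit [DecidableEq Γ] in
lemma card_fibres (φ : Γ →* Λ) {S : Finset Γ} {T : Finset Λ} {b : ℕ}
    (hb : ∀ t ∈ T, (S.filter fun s => φ s = t).card = b) :
    (S.filter fun s => φ s ∈ T).card = b * T.card := by
  rw [card_eq_sum_card_fiberwise (s := S.filter fun s => φ s ∈ T) (f := fun s => φ s) (t := T)
    fun s hs => (mem_filter.1 hs).2]
  rw [sum_congr rfl fun t ht => ?_, sum_const, smul_eq_mul, mul_comm]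
  rw [filter_filter, ← hb t ht]
  exact congrArg card (filter_congr fun s _ => ⟨fun h => h.2, fun h => ⟨h ▸ ht, h⟩⟩)

/-- The walk of `S` is dominated by the slowed walk of `T` along a homomorphism under which every
element of `T` has `b` preimages in `S` and the remaining generators are killed. -/
theorem walk_le_slow (φ : Γ →* Λ) {S : Finset Γ} {T : Finset Λ} {b : ℕ} (hT : T.Nonempty)
    (hTS : ∀ s ∈ S, φ s ∈ T ∨ φ s = 1)
    (hb : ∀ t ∈ T, (S.filter fun s => φ s = t).card = b) (hS : S.Nonempty) :
    ∀ n x, walk S n x ≤ slow ((b : ℝ) * T.card / S.card) (fun j => walk T j (φ x)) n 0 := by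
  set c : ℝ := (b : ℝ) * T.card / S.card
  have hSc : (0 : ℝ) < S.card := Nat.cast_pos.2 hS.card_pos
  have hTc : (0 : ℝ) < T.card := Nat.cast_pos.2 hT.card_pos
  have key : ∀ f : Λ → ℝ, ∀ y, (f y + (∑ s ∈ S, f (y * φ s)) / S.card) / 2
      = (1 - c) * f y + c * lazy T f y := by
    intro f y
    have e : ∑ s ∈ S, f (y * φ s) = (b : ℝ) * (∑ t ∈ T, f (y * t))
        + ((S.card : ℝ) - b * T.card) * f y := by
      rw [← sum_filter_add_sum_filter_not S (fun s => φ s ∈ T)]
      congr 1
      · rw [← sum_fiberwise_of_maps_to (g := fun s => φ s) (t := T) fun s hs => (mem_filter.1 hs).2,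
          mul_sum]
        refine sum_congr rfl fun t ht => ?_
        rw [filter_filter]
        have : (S.filter fun s => φ s ∈ T ∧ φ s = t) = S.filter fun s => φ s = t :=
          filter_congr fun s _ => ⟨fun h => h.2, fun h => ⟨h ▸ ht, h⟩⟩
        rw [this, sum_congr rfl fun s hs => by rw [(mem_filter.1 hs).2], sum_const, hb t ht,
          nsmul_eq_mul]
      · have hcard : (S.filter fun s => φ s ∈ T).card = b * T.card := card_fibres φ hb
        have hrest : ((S.filter fun s => ¬φ s ∈ T).card : ℝ) = (S.card : ℝ) - b * T.card := by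
          rw [eq_sub_iff_add_eq', ← Nat.cast_mul, ← Nat.cast_add, ← hcard,
            card_filter_add_card_filter_not]
        rw [sum_congr rfl fun s hs => by
          rw [(hTS s (mem_filter.1 hs).1).resolve_left (mem_filter.1 hs).2, mul_one],
          sum_const, nsmul_eq_mul, hrest]
    rw [e]
    simp only [lazy, avg, c]
    field_simp
    ring
  have hlazy : ∀ n k y, lazy T (fun y => slow c (fun j => walk T j y) n k) y
      = slow c (fun j => walk T j y) n (k + 1) := by
    intro n
    induction n with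
    | zero => intro k y; rfl
    | succ n ih =>
      intro k y
      simp only [slow]
      rw [← ih k y, ← ih (k + 1) y]
      simp only [lazy, avg, sum_add_distrib, ← mul_sum]
      ring
  have hslow0 : ∀ n y, slow c (fun j => walk T j y) (n + 1) 0
      = (1 - c) * slow c (fun j => walk T j y) n 0
        + c * lazy T (fun y => slow c (fun j => walk T j y) n 0) y := fun n y => by
    rw [hlazy]; rfl
  intro n
  induction n with
  | zero =>
    intro x
    simp only [slow, walk]
    by_cases hx : x = 1
    · subst hx; simp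
    · rw [Pi.single_apply, if_neg hx, Pi.single_apply]
      split_ifs <;> norm_num
  | succ n ih =>
    intro x
    rw [hslow0, ← key (fun y => slow c (fun j => walk T j y) n 0) (φ x)]
    show (walk S n x + (∑ s ∈ S, walk S n (x * s)) / S.card) / 2 ≤ _
    gcongr with s hs
    · exact ih x
    · simpa using ih (x * s)

/-- The binomial moments of returns on `Γ` from those on `Λ`. -/
theorem sum_walk_le (φ : Γ →* Λ) {S : Finset Γ} {T : Finset Λ} {b : ℕ} (hT : T.Nonempty)
    (hTS : ∀ s ∈ S, φ s ∈ T ∨ φ s = 1)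
    (hb : ∀ t ∈ T, (S.filter fun s => φ s = t).card = b) {δ C : ℝ} (hδ : 0 < δ)
    (hδS : δ * S.card ≤ (b : ℝ) * T.card) (hS : S.Nonempty) (m : ℕ)
    (hC : ∀ N, ∑ i ∈ range N, ((i + m).choose m : ℝ) * walk T i 1 ≤ C) (N : ℕ) :
    ∑ n ∈ range N, ((n + m).choose m : ℝ) * walk S n 1 ≤ C / δ ^ (m + 1) := by
  set c : ℝ := (b : ℝ) * T.card / S.card
  have hSc : (0 : ℝ) < S.card := Nat.cast_pos.2 hS.card_pos
  have hcδ : δ ≤ c := (le_div_iff₀ hSc).2 hδS
  have hc1 : c ≤ 1 := by
    rw [div_le_one hSc]
    exact_mod_cast (card_fibres φ hb).ge.trans (card_filter_le _ _)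
  have hw : ∀ j, 0 ≤ walk T j 1 := fun j => walk_nonneg T j 1
  have hC0 : 0 ≤ C := by simpa using hC 0
  have h1 := sum_slow_le (hδ.le.trans hcδ) hc1 hw m N 0
  simp only [zero_add] at h1
  have h2 : ∑ n ∈ range N, ((n + m).choose m : ℝ) * walk S n 1
      ≤ ∑ n ∈ range N, ((n + m).choose m : ℝ) * slow c (fun j => walk T j 1) n 0 := by
    refine sum_le_sum fun n _ => mul_le_mul_of_nonneg_left ?_ (Nat.cast_nonneg _)
    simpa using walk_le_slow φ hT hTS hb hS n 1
  refine h2.trans ?_
  rw [le_div_iff₀ (pow_pos hδ _)]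
  refine le_trans ?_ (h1.trans (hC N))
  rw [mul_comm]
  refine mul_le_mul_of_nonneg_right (pow_le_pow_left₀ hδ.le hcδ _) ?_
  exact sum_nonneg fun n _ => mul_nonneg (Nat.cast_nonneg _)
    (slow_nonneg (hδ.le.trans hcδ) hc1 hw n 0)

end Vale.Agent.P151.Push
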