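import Mathlib
import Vale.Agent.P151.Main
import Vale.Agent.P151.Push
import Vale.Agent.P151.Lattice

/-!
Cartesian products of Cayley graphs with nearest-neighbour lattices of large dimension.
-/

namespace Vale.Agent.P151

open Finset
open Vale.Agent.P165 (perc openGraph pc)

section

variable {G : Type} [Group G] [DecidableEq G] {k b : ℕ}

/-- The unit vectors of a lattice with their sign. -/
def unitVec (z : Fin k × Bool) : Multiplicative (Fin k → ℤ) :=
  Multiplicative.ofAdd (Pi.single z.1 (if z.2 then 1 else -1))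

lemma unitVec_inv (z : Fin k × Bool) : (unitVec z)⁻¹ = unitVec (z.1, !z.2) := by
  obtain ⟨i, b⟩ := z
  cases b <;> simp [unitVec, ← ofAdd_neg, ← Pi.single_neg]

lemma unitVec_injective : Function.Injective (unitVec (k := k)) := by
  rintro ⟨i, b⟩ ⟨j, c⟩ h
  have h' : (Pi.single i (if b then 1 else -1) : Fin k → ℤ) = Pi.single j (if c then 1 else -1) :=
    Multiplicative.ofAdd.injective h
  have hij : i = j := by
    by_contra hne
    have h2 := congrFun h' i
    rw [Pi.single_eq_same, Pi.single_eq_of_ne hne] at h2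
    cases b <;> simp at h2
  subst hij
  have h2 := congrFun h' i
  rw [Pi.single_eq_same, Pi.single_eq_same] at h2
  cases b <;> cases c <;> simp_all

lemma unitVec_ne_one (z : Fin k × Bool) : unitVec z ≠ 1 := by
  intro h
  have h' : (Pi.single z.1 (if z.2 then 1 else -1) : Fin k → ℤ) = 0 := congrArg Multiplicative.toAdd h
  have h2 := congrFun h' z.1
  rw [Pi.single_eq_same] at h2
  cases hz : z.2 <;> simp [hz] at h2

/-- The generators of the product of a Cayley graph with a lattice. -/
def prodGen (A : Finset G) (k : ℕ) : Finset (G × Multiplicative (Fin k → ℤ)) :=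
  A.image (fun a => (a, 1)) ∪ univ.image (fun z => (1, unitVec z))

lemma card_prodGen_le (A : Finset G) (k : ℕ) : (prodGen A k).card ≤ A.card + 2 * k := by
  refine (card_union_le _ _).trans (add_le_add card_image_le (card_image_le.trans ?_))
  simp [mul_comm]

/-- Folding a lattice of rank at least `36 b` onto the lattice of rank 36. -/
def fold (hb : 36 * b ≤ k) : Multiplicative (Fin k → ℤ) →* Z36 :=
  AddMonoidHom.toMultiplicative
    { toFun := fun x j => ∑ q : Fin b, x ⟨36 * (q : ℕ) + (j : ℕ), by omega⟩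
      map_zero' := by funext j; simp
      map_add' := fun x y => by funext j; simp [sum_add_distrib] }

lemma fold_apply (hb : 36 * b ≤ k) (z : Fin k × Bool) :
    fold hb (unitVec z) = if _h : (z.1 : ℕ) < 36 * b then
      unitVec (⟨(z.1 : ℕ) % 36, Nat.mod_lt _ (by norm_num)⟩, z.2) else 1 := by
  obtain ⟨i, c⟩ := z
  set e : ℤ := if c then 1 else -1
  have h0 : fold hb (unitVec (i, c)) = Multiplicative.ofAdd (fun j : Fin 36 =>
      ∑ q : Fin b, (Pi.single i e : Fin k → ℤ) ⟨36 * (q : ℕ) + (j : ℕ), by omega⟩) := rfl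
  rw [h0]
  split_ifs with h
  · refine congrArg Multiplicative.ofAdd (funext fun j => ?_)
    refine (sum_eq_single (⟨(i : ℕ) / 36, by simp only at h; omega⟩ : Fin b)
      (fun q _ hq => Pi.single_eq_of_ne (fun hh => hq (Fin.ext ?_)) _)
      (fun hn => absurd (mem_univ _) hn)).trans ?_
    · have := congrArg Fin.val hh
      simp only at this ⊢
      omega
    · simp only [Pi.single_apply, Fin.ext_iff, e]
      congr 1
      exact propext ⟨fun hh => by omega, fun hh => by omega⟩
  · rw [← ofAdd_zero]
    refine congrArg Multiplicative.ofAdd (funext fun j => sum_eq_zero fun q _ => ?_)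
    refine Pi.single_eq_of_ne (fun hh => h ?_) _
    have := congrArg Fin.val hh
    simp only at this ⊢
    omega

lemma gen_eq : gen = (univ : Finset (Fin 36 × Bool)).image unitVec := by
  ext x
  simp only [gen, mem_union, mem_image, mem_univ, true_and, unitVec, Prod.exists, Bool.exists_bool]
  constructor
  · rintro (⟨i, rfl⟩ | ⟨i, rfl⟩)
    · exact ⟨i, Or.inr rfl⟩
    · exact ⟨i, Or.inl rfl⟩
  · rintro ⟨i, rfl | rfl⟩
    · exact Or.inr ⟨i, rfl⟩
    · exact Or.inl ⟨i, rfl⟩

lemma card_gen : gen.card = 72 := by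
  rw [gen_eq, card_image_of_injective _ unitVec_injective]
  simp

lemma one_notMem_gen : (1 : Z36) ∉ gen := by
  rw [gen_eq, mem_image]
  rintro ⟨z, -, hz⟩
  exact unitVec_ne_one z hz

lemma closure_units (k : ℕ) :
    Subgroup.closure (Set.range (unitVec (k := k))) = ⊤ := by
  refine top_le_iff.1 fun x _ => ?_
  have h : ∀ (i : Fin k) (n : ℤ), Multiplicative.ofAdd (Pi.single i n : Fin k → ℤ)
      ∈ Subgroup.closure (Set.range (unitVec (k := k))) := by
    intro i n
    have e : Multiplicative.ofAdd (Pi.single i n : Fin k → ℤ) = unitVec (i, true) ^ n := by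
      rw [unitVec, ← ofAdd_zsmul, ← Pi.single_smul]
      simp
    rw [e]
    exact zpow_mem (Subgroup.subset_closure (Set.mem_range_self _)) n
  have : x = ∏ i, Multiplicative.ofAdd (Pi.single i (Multiplicative.toAdd x i) : Fin k → ℤ) := by
    rw [← ofAdd_sum, univ_sum_single]
    rfl
  rw [this]
  exact Subgroup.prod_mem _ fun i _ => h i _

end

/-- Nearest-neighbour products with lattices of large dimension do not percolate at the critical
point. -/
theorem productLattice (hl : LaceStmt) (hc : CriticalStmt) :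
    ∃ k₀ : ℕ, ∀ (G : Type) [Group G] (A : Finset G), (∀ a ∈ A, a⁻¹ ∈ A) → (1 : G) ∉ A →
      Subgroup.closure (A : Set G) = ⊤ → ∀ k : ℕ, k₀ ≤ k → A.card ≤ k →
      ∀ H : SimpleGraph (G × Multiplicative (Fin k → ℤ)),
        H = SimpleGraph.mulCayley {x | (x.1 ∈ A ∧ x.2 = 1) ∨
          (x.1 = 1 ∧ ∃ i, x.2 = Multiplicative.ofAdd (Pi.single i 1))} →
        pc H < 1 ∧ ∀ p : unitInterval, (p : ℝ) = pc H →
          perc _ p {ω | ∃ x, {y | (openGraph H ω).Reachable x y}.Infinite} = 0 := by
  obtain ⟨c, hc0, hgr⟩ := growth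
  have hgen1 : ∃ s ∈ gen, s ≠ 1 := by
    obtain ⟨s, hs⟩ := card_pos.1 (card_gen.symm ▸ (by norm_num : (0 : ℕ) < 72))
    exact ⟨s, hs, fun h => one_notMem_gen (h ▸ hs)⟩
  obtain ⟨C, hC⟩ := Return.sum_walk_one_le gen_inv hgen1 (j := 16) (k := 18) (by norm_num) hc0 hgr
  have hT : (Return.wball gen 1).erase 1 = gen := by
    ext x
    rw [mem_erase, Return.wball, Return.wball, mem_union, mem_singleton, mem_mul]
    constructor
    · rintro ⟨h1, h2 | ⟨u, hu, v, hv, huv⟩⟩
      · exact absurd h2 h1
      · rw [mem_singleton] at hu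
        rw [← huv, hu, one_mul]
        exact hv
    · exact fun h => ⟨fun h1 => one_notMem_gen (h1 ▸ h),
        Or.inr ⟨1, mem_singleton_self 1, x, h, one_mul x⟩⟩
  obtain ⟨D, hD⟩ := master hl hc (16 ^ 16 * C / (1 / 3) ^ 17)
  refine ⟨max D 70, ?_⟩
  intro G _ A hinv h1 hA k hk hAk H hH
  classical
  set b := k / 36
  have hbk : 36 * b ≤ k := Nat.mul_div_le k 36
  have h70 : 70 ≤ k := (le_max_right _ _).trans hk
  set S := prodGen A k
  have hSinv : ∀ s ∈ S, s⁻¹ ∈ S := by
    intro s hs
    rcases mem_union.1 hs with h | h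
    · obtain ⟨a, ha, rfl⟩ := mem_image.1 h
      exact mem_union_left _ (mem_image.2 ⟨a⁻¹, hinv a ha, by simp⟩)
    · obtain ⟨z, -, rfl⟩ := mem_image.1 h
      exact mem_union_right _ (mem_image.2 ⟨(z.1, !z.2), mem_univ _, by simp [unitVec_inv]⟩)
  have hS1 : (1 : G × Multiplicative (Fin k → ℤ)) ∉ S := by
    intro hs
    rcases mem_union.1 hs with h | h
    · obtain ⟨a, ha, he⟩ := mem_image.1 h
      have : a = 1 := congrArg Prod.fst he
      exact h1 (this ▸ ha)
    · obtain ⟨z, -, he⟩ := mem_image.1 h
      exact unitVec_ne_one z (congrArg Prod.snd he)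
  have hSgen : Subgroup.closure (S : Set (G × Multiplicative (Fin k → ℤ))) = ⊤ := by
    refine top_le_iff.1 fun x _ => ?_
    have hx : x = (x.1, 1) * (1, x.2) := by simp
    rw [hx]
    refine mul_mem ?_ ?_
    · have : Subgroup.closure (A : Set G) ≤ (Subgroup.closure (S : Set _)).comap
          (MonoidHom.inl G (Multiplicative (Fin k → ℤ))) :=
        (Subgroup.closure_le _).2 fun a ha => Subgroup.subset_closure
          (mem_coe.2 (mem_union_left _ (mem_image.2 ⟨a, mem_coe.1 ha, rfl⟩)))
      exact this (hA ▸ Subgroup.mem_top x.1)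
    · have : Subgroup.closure (Set.range (unitVec (k := k))) ≤
          (Subgroup.closure (S : Set _)).comap (MonoidHom.inr G (Multiplicative (Fin k → ℤ))) :=
        (Subgroup.closure_le _).2 fun a ⟨z, hz⟩ => Subgroup.subset_closure
          (mem_coe.2 (mem_union_right _ (mem_image.2 ⟨z, mem_univ _, by rw [hz]; rfl⟩)))
      exact this (closure_units k ▸ Subgroup.mem_top x.2)
  have hgraph : H = SimpleGraph.mulCayley (S : Set (G × Multiplicative (Fin k → ℤ))) := by
    rw [hH]
    refine le_antisymm (SimpleGraph.mulCayley_mono ?_) ?_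
    · rintro ⟨g, v⟩ (⟨ha, hv⟩ | ⟨hg, i, hv⟩)
      · simp only at ha hv; subst hv
        exact mem_coe.2 (mem_union_left _ (mem_image.2 ⟨g, ha, rfl⟩))
      · simp only at hg hv; subst hg; subst hv
        exact mem_coe.2 (mem_union_right _ (mem_image.2 ⟨(i, true), mem_univ _, rfl⟩))
    · rw [SimpleGraph.mulCayley_le_iff]
      intro s hs a ha
      rw [SimpleGraph.mulCayley_adj']
      refine ⟨ha, ?_⟩
      rcases mem_union.1 (mem_coe.1 hs) with h | h
      · obtain ⟨g, hg, rfl⟩ := mem_image.1 h
        exact ⟨(g, 1), Or.inl ⟨hg, rfl⟩, Or.inr rfl⟩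
      · obtain ⟨⟨i, c⟩, -, rfl⟩ := mem_image.1 h
        cases c
        · refine ⟨(1, unitVec (i, true)), Or.inr ⟨rfl, i, rfl⟩, Or.inl ?_⟩
          rw [mul_assoc, show unitVec (i, false) = (unitVec (i, true))⁻¹ from (unitVec_inv (i, true)).symm]
          simp
        · exact ⟨(1, unitVec (i, true)), Or.inr ⟨rfl, i, rfl⟩, Or.inr rfl⟩
  subst hgraph
  let φ : G × Multiplicative (Fin k → ℤ) →* Z36 :=
    (fold hbk).comp (MonoidHom.snd G (Multiplicative (Fin k → ℤ)))
  have hTS : ∀ s ∈ S, φ s ∈ gen ∨ φ s = 1 := by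
    intro s hs
    rcases mem_union.1 hs with h | h
    · obtain ⟨a, -, rfl⟩ := mem_image.1 h
      exact Or.inr (map_one (fold hbk))
    · obtain ⟨z, -, rfl⟩ := mem_image.1 h
      by_cases hz : (z.1 : ℕ) < 36 * b
      · left
        show fold hbk (unitVec z) ∈ gen
        rw [fold_apply, dif_pos hz, gen_eq]
        exact mem_image_of_mem _ (mem_univ _)
      · right
        show fold hbk (unitVec z) = 1
        rw [fold_apply, dif_neg hz]
  have hfib : ∀ t ∈ gen, (S.filter fun s => φ s = t).card = b := by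
    intro t ht
    rw [gen_eq, mem_image] at ht
    obtain ⟨⟨j, c⟩, -, rfl⟩ := ht
    let f : Fin b → G × Multiplicative (Fin k → ℤ) :=
      fun q => (1, unitVec (⟨36 * (q : ℕ) + (j : ℕ), by omega⟩, c))
    have hf : Function.Injective f := fun q q' h => by
      have := congrArg (fun z : Fin k × Bool => (z.1 : ℕ)) (unitVec_injective (congrArg Prod.snd h))
      simp only at this
      exact Fin.ext (by omega)
    rw [show (S.filter fun s => φ s = unitVec (j, c)) = univ.image f from ?_,
      card_image_of_injective _ hf, card_univ, Fintype.card_fin]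
    ext s
    simp only [mem_filter, mem_image, mem_univ, true_and]
    constructor
    · rintro ⟨hs, he⟩
      rcases mem_union.1 hs with h | h
      · obtain ⟨a, -, rfl⟩ := mem_image.1 h
        exact absurd (he.symm.trans (map_one (fold hbk))) (unitVec_ne_one _)
      · obtain ⟨⟨i, c'⟩, -, rfl⟩ := mem_image.1 h
        change fold hbk (unitVec (i, c')) = _ at he
        rw [fold_apply] at he
        split_ifs at he with hi
        · have := unitVec_injective he
          simp only [Prod.mk.injEq, Fin.ext_iff] at this hi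
          refine ⟨⟨(i : ℕ) / 36, by omega⟩, ?_⟩
          simp only [f]
          obtain ⟨h1', rfl⟩ := this
          congr 3
          exact Fin.ext (by simp only; omega)
        · exact absurd he.symm (unitVec_ne_one _)
    · rintro ⟨q, rfl⟩
      refine ⟨mem_union_right _ (mem_image.2 ⟨_, mem_univ _, rfl⟩), ?_⟩
      show fold hbk (unitVec _) = _
      rw [fold_apply, dif_pos (by simp only; omega)]
      congr 2
      exact Fin.ext (by simp only; omega)
  have hScard : (S.card : ℝ) ≤ 3 * k := by
    exact_mod_cast (card_prodGen_le A k).trans (by omega)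
  have hb : (k : ℝ) ≤ (b : ℝ) * 72 := by exact_mod_cast (by omega : k ≤ b * 72)
  refine hD _ S hSinv hS1 hSgen (((le_max_left _ _).trans hk).trans ?_) fun N => ?_
  · refine le_trans ?_ (card_le_card subset_union_right)
    rw [card_image_of_injective _ fun z z' h => unitVec_injective (congrArg Prod.snd h),
      card_univ, Fintype.card_prod, Fintype.card_fin, Fintype.card_bool]
    omega
  · have hC' : ∀ M, ∑ i ∈ range M, ((i + 16).choose 16 : ℝ) * Return.walk gen i 1 ≤ 16 ^ 16 * C := by
      intro M
      have h := hC 0 M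
      rw [zero_add, hT] at h
      refine le_trans (sum_le_sum fun n _ => ?_) (le_of_eq_of_le (mul_sum _ _ _).symm
        (mul_le_mul_of_nonneg_left h (by norm_num)))
      rw [← mul_assoc]
      exact mul_le_mul_of_nonneg_right (choose_weight_le n) (Return.walk_nonneg _ n 1)
    have hne : gen.Nonempty := card_pos.1 (card_gen.symm ▸ (by norm_num))
    have hSne : S.Nonempty :=
      ⟨(1, unitVec (⟨0, by omega⟩, true)), mem_union_right _ (mem_image_of_mem _ (mem_univ _))⟩
    refine Push.sum_walk_le φ hne hTS hfib (δ := 1 / 3) (by norm_num) ?_ hSne 16 hC' N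
    rw [card_gen]
    push_cast
    linarith

end Vale.Agent.P151
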